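-- KEEP
import Claimed.Agent.R256.Base.Sys

/-!
# Row 256 (LS paper), GENERIC THEORY, file 1 : THE HYPOTHESES          (architect helper207; chief of the folder helper199; prefix `gn_`)

Everything that 02 l.135-490 (localization, polynomial tests, one-time, peeling, split saturation) and 07 l.100-395 (packet locality, covering, single, free composition,
saturation) have in common is proved ONCE for a model `M : Mdl` from the `Prop`s / structures of this file; the four instances prove them.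

* `IsMask`, `StOk`          scalar masks, admissible stacks of stages
* `PkSys.Tight`             W1: contraction, plateau classes, synthesis lands in the next plateau class; measurable cells, positive weights, `ok` is monotone in the length
* `Mdl.Loc g`               W2 + G2: a correspondence `cn Λ` between rows of two cuts, the operator bound `C_N Λ^-N (ℓ/ℓ')^Cl` off the correspondence, and the BACK COVERING:
                            the `Λ`-predecessors at `(T,k)` of a test at `(T',k')` are covered by tests admissible at `k` of total weight `≤ Cg Λ^Cg (ℓ'/ℓ)^g w`.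
                            For ALL `Λ ≥ 1`: shell sums then give EXACT regularity (no additive error).      `g = 1 + η/2` (cylinder), `g = 1` (round).
* `Mdl.Rep`                 repeated cut: synthesis + reanalysis of a `κ`-regular row function multiplies the regularity by a constant   (consequence of `Tight`, `Loc`)
* `Mdl.Sgl g`               single time: every label of every valid experiment has `m ≤ C_ε s^-ε κ w s^g`                              (consequence of `Tight`, `Loc`)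
* `Mdl.AdmRoot`             the setup sees only the root data and the scale
* `Mdl.AdmScale`            the setup depends on the final scale monotonically (prefix experiments stay in the class)
* `Mdl.TailAdm`             tail pieces with polynomial energy and regularity stay in the class
* `Mdl.Floor`               polynomial test reduction: a test that is heavy at a polynomial floor has a polynomial weight
-/

set_option autoImplicit false

namespace Claimed.Agent.R256

open MeasureTheory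

/-- a scalar mask -/
def IsMask {X : Type} [MeasurableSpace X] (M : X → ℝ) : Prop := Measurable M ∧ ∀ x, 0 ≤ M x ∧ M x ≤ 1

/-- a stack of at most `K` stages of depths in `[klo, khi]` (nondecreasing), generations `≤ bm` -/
structure StOk {P : PkSys} (klo khi bm K : ℕ) (st : List (Stg P)) : Prop where
  len : st.length ≤ K
  dep : ∀ σ ∈ st, klo ≤ σ.k ∧ σ.k ≤ khi
  mono : st.Pairwise fun σ σ' => σ.k ≤ σ'.k
  gen : ∀ σ ∈ st, σ.b ≤ bm
  msk : ∀ σ ∈ st, ∀ i, IsMask (σ.M i)

namespace PkSys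

/-- **W1** and the trivial structure of tests -/
structure Tight (P : PkSys) : Prop where
  contr : ∀ (T : ℝ) (k b : ℕ) (v : P.Kc), ‖P.An T k b v‖ ≤ ‖v‖
  mono : ∀ b, P.Pl b ⊆ P.Pl (b + 1)
  syn : ∀ (T : ℝ) (k b : ℕ) (F : Lp P.Fb 2 (P.rho k)), ContinuousLinearMap.adjoint (P.An T k b) F ∈ P.Pl (b + 1)
  same : ∀ (T : ℝ) (k b b' : ℕ) (v : P.Kc), v ∈ P.Pl b → b ≤ b' → P.An T k b' v = P.An T k b v
  sfin : ∀ k, SigmaFinite (P.rho k)
  cellM : ∀ Q T k, MeasurableSet (P.cell Q T k)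
  wt_pos : ∀ Q k, P.ok Q k → 0 < P.wt Q
  ok_mono : ∀ Q k k', k ≤ k' → P.ok Q k' → P.ok Q k

end PkSys

/-- the pair of cuts `(T,k)`, `(T',k')` is nested: `k ≤ k'`, `T ≤ T' ≤ T + 2^-k` -/
def CutLe (T : ℝ) (k : ℕ) (T' : ℝ) (k' : ℕ) : Prop := k ≤ k' ∧ T ≤ T' ∧ T' ≤ T + (2 : ℝ)⁻¹ ^ k

namespace Mdl

/-- **W2 + G2** with gain exponent `g` -/
structure Loc (M : Mdl) (g : ℝ) where
  /-- `cn p Λ T k T' k' x x'` : the row `x'` of the cut `(T',k')` is a `Λ`-successor of the row `x` of the cut `(T,k)` -/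
  cn : (p : M.Par) → ℝ → ℝ → ℕ → ℝ → ℕ → (M.sys p).X → (M.sys p).X → Prop
  Cl : ℝ
  Cg : ℝ
  CN : ℕ → ℕ → ℝ
  cn_mono : ∀ p Λ Λ' T k T' k' x x', Λ ≤ Λ' → cn p Λ T k T' k' x x' → cn p Λ' T k T' k' x x'
  /-- W2 (operator form; `bm` bounds the generations) -/
  ker : ∀ (p : M.Par), M.gd p → ∀ (bm N : ℕ) (Λ : ℝ), 1 ≤ Λ → ∀ (T : ℝ) (k : ℕ) (T' : ℝ) (k' b b' : ℕ), CutLe T k T' k' → b ≤ bm → b' ≤ bm →
    ∀ (S S' : Set (M.sys p).X), MeasurableSet S → MeasurableSet S' → (∀ x ∈ S, ∀ x' ∈ S', ¬ cn p Λ T k T' k' x x') →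
    ∀ F : Lp (M.sys p).Fb 2 ((M.sys p).rho k),
      (M.sys p).ms T' k' b' S' (ContinuousLinearMap.adjoint ((M.sys p).An T k b) ((M.sys p).mulR k (S.indicator fun _ => 1) F))
        ≤ (CN bm N * Λ ^ (-(N : ℝ)) * 2 ^ (Cl * ((k' : ℝ) - k))) ^ 2 * ‖F‖ ^ 2
  /-- G2 (back covering) -/
  cov : ∀ (p : M.Par), M.gd p → ∀ (Λ : ℝ), 1 ≤ Λ → ∀ (T : ℝ) (k : ℕ) (T' : ℝ) (k' : ℕ), CutLe T k T' k' →
    ∀ Q : (M.sys p).Tst, (M.sys p).ok Q k' → ∃ (m : ℕ) (Qs : Fin m → (M.sys p).Tst), (∀ i, (M.sys p).ok (Qs i) k) ∧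
      (∀ x x', x' ∈ (M.sys p).cell Q T' k' → cn p Λ T k T' k' x x' → ∃ i, x ∈ (M.sys p).cell (Qs i) T k) ∧
      ∑ i, (M.sys p).wt (Qs i) ≤ Cg * Λ ^ Cg * 2 ^ (-(g * ((k' : ℝ) - k))) * (M.sys p).wt Q

variable (M : Mdl)

/-- **repeated cut**: a row function `F` whose energy measure is `κ`-regular is synthesised to a state that is `Cr κ`-regular at every generation
(`F = Mk · An v` : restriction, synthesis, reanalysis) -/
def Rep : Prop :=
  ∀ bm : ℕ, ∃ Cr : ℝ, 1 ≤ Cr ∧ ∀ (p : M.Par) (T : ℝ) (k c b' : ℕ) (κ : ℝ) (F : Lp (M.sys p).Fb 2 ((M.sys p).rho k)),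
    M.gd p → c ≤ bm → b' ≤ bm →
    (∀ Q, (M.sys p).ok Q k → ∫ x in (M.sys p).cell Q T k, ‖(F : (M.sys p).X → (M.sys p).Fb) x‖ ^ 2 ∂((M.sys p).rho k) ≤ κ * (M.sys p).wt Q) →
    (M.sys p).Reg T k b' (Cr * κ) (ContinuousLinearMap.adjoint ((M.sys p).An T k c) F)

/-- **single time** -/
def Sgl (g : ℝ) : Prop :=
  ∀ (bm K : ℕ) (ε : ℝ), 0 < ε → ∃ Cs : ℝ, ∀ (p : M.Par) (E : Xp (M.sys p)), M.gd p → E.Valid → E.st.length ≤ K → E.GenLe bm →
    ∀ l, E.m l ≤ Cs * 2 ^ (ε * E.n) * (E.ka * E.w l) * 2 ^ (-(g * E.n))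

/-- the two experiments have the same root -/
def SameRoot {P : PkSys} (E E' : Xp P) : Prop :=
  E'.k0 = E.k0 ∧ E'.i0 = E.i0 ∧ E'.v = E.v ∧ E'.e = E.e ∧ E'.ka = E.ka ∧ E'.b0 = E.b0

/-- the setup is monotone in the final scale   (`M.gd p`: `ms` is monotone only on MEASURABLE sets of rows; without it the cylinder instances are false, helper180) -/
def AdmScale : Prop :=
  ∀ (C A C' A' : ℕ) (p : M.Par) (E E' : Xp (M.sys p)), M.gd p → M.adm C A p E → SameRoot E E' → C * E.n ≤ C' * E'.n → A' * E'.n ≤ A * E.n →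
    M.adm C' A' p E'

/-- the setup does not see the labels, the terminal generation and the stack (true by inspection in the four instances) -/
def AdmRoot : Prop :=
  ∀ (C A : ℕ) (p : M.Par) (E E' : Xp (M.sys p)), M.adm C A p E → SameRoot E E' → E'.n = E.n → M.adm C A p E'

/-- `E'` is a tail piece of `E`: its root is an interval below the root of `E`, its root state is obtained from the root state of `E` by a stack of masks,
its final depth is at most that of `E`, its energy budget and regularity are polynomial in those of `E` -/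
structure IsTail {P : PkSys} (C : ℕ) (E E' : Xp P) : Prop where
  k_lo : E.k0 ≤ E'.k0
  k_hi : E'.kf ≤ E.kf
  anc : ancI E'.k0 E.k0 E'.i0 = E.i0
  st : ∃ st' : List (Stg P), StOk E.k0 E'.k0 C C st' ∧ E'.v = Xp.run E'.k0 E'.i0 st' E.v
  e_lo : E.s ^ (C : ℝ) * E.e ≤ E'.e
  e_hi : E'.e ≤ E.e
  ka_lo : E.s ^ (C : ℝ) * E.ka ≤ E'.ka
  ka_hi : E'.ka ≤ E.s ^ (-(C : ℝ)) * E.ka

/-- tail pieces on gaps of relative length `≥ h` stay in the class (`C` forward, `A` backward, `C'` independent of `A'`) -/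
def TailAdm : Prop :=
  ∀ (C : ℕ) (h : ℝ), 0 < h → ∃ C' : ℕ, ∀ A' : ℕ, ∃ A n0 : ℕ, ∀ (p : M.Par) (E E' : Xp (M.sys p)), n0 ≤ E.n → M.Cls C A p E →
    E'.Valid → IsTail C E E' → h * E.n ≤ E'.n → M.adm C' A' p E'

/-- polynomial test reduction: heavy at the floor `s^D κ` implies weight `≥ s^D' e/κ` -/
def Floor : Prop :=
  ∀ C D : ℕ, ∃ D' A n0 : ℕ, ∀ (p : M.Par) (E : Xp (M.sys p)), n0 ≤ E.n → M.Cls C A p E →
    ∀ (k i b : ℕ) (st' : List (Stg (M.sys p))) (Q : (M.sys p).Tst), E.k0 ≤ k → k ≤ E.kf → ancI k E.k0 i = E.i0 → b ≤ C →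
      StOk E.k0 k C C st' → (M.sys p).ok Q k →
      E.s ^ (D : ℝ) * (E.ka * (M.sys p).wt Q) < (M.sys p).ms (tmL k i) k b ((M.sys p).cell Q (tmL k i) k) (Xp.run k i st' E.v) →
      E.s ^ (D' : ℝ) * E.e ≤ E.ka * (M.sys p).wt Q

/-- the bundle of hypotheses of the generic theory -/
structure Gen (g : ℝ) : Prop where
  g_pos : 1 ≤ g
  tight : ∀ p, M.gd p → (M.sys p).Tight
  rep : M.Rep
  sgl : M.Sgl g
  root : M.AdmRoot
  scale : M.AdmScale
  tail : M.TailAdm
  floor : M.Floor

end Mdl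

theorem gn_hyp_eqns_cite : True := by
  have := @IsMask.eq_1
  have := @CutLe.eq_1
  have := @Mdl.Rep.eq_1
  have := @Mdl.Sgl.eq_1
  have := @Mdl.SameRoot.eq_1
  have := @Mdl.AdmScale.eq_1
  have := @Mdl.AdmRoot.eq_1
  have := @Mdl.TailAdm.eq_1
  have := @Mdl.Floor.eq_1
  trivial

end Claimed.Agent.R256
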