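-- KEEP
import Claimed.Agent.R256.Gen.Hyp

/-!
# Row 256 (LS paper), GENERIC THEORY, file 2 : OPERATIONS AND NOTIONS          (architects helper207, helper199; prefix `gn_`)

DEFINITIONS ONLY (moved verbatim from the first version of `Gen/Contract.lean`, plus the three constructors `sel`, `tl`, `pre`).

* `ivs`                                   the intervals of depth `k` below a root interval
* `Xp.pick`, `Xp.withV`, `Xp.withSt`      selection of labels, another root state, another stack
* `Xp.sel`                                the canonical enumeration of a finite set of labels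
* `Xp.tl`                                 the TAIL experiment at an interval of a cut
* `Xp.pre`                                a PREFIX experiment (same root, shorter length, new labels)
* `Xp.tm`, `Xp.tw`, `Xp.CutAt`, `Xp.at'`  total mass, total weight, cut of the stack, state at a cut
* `IsLvl`, `Xp.LvlAt`, `Xp.raw`, `Xp.post`   peel levels
* `Mdl.PMin`, `Mdl.pK`, `Mdl.dOf`        one-sided minimality on `≤ K` stages (`K : ℕ∞`), its exponent;   `Mdl.p0`, `Mdl.d0` MASKED regime (`K = ⊤`);   `Mdl.p0f`, `Mdl.d0f` FREE regime (`K = 0`)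
-/

set_option autoImplicit false

namespace Claimed.Agent.R256

open MeasureTheory

/-- the intervals of depth `k` below the interval `i0` of depth `k0` -/
def ivs (k0 i0 k : ℕ) : Finset ℕ := Finset.Ico (i0 * 2 ^ (k - k0)) ((i0 + 1) * 2 ^ (k - k0))

namespace Xp

variable {P : PkSys} (E : Xp P)

/-- selection / reindexing of labels -/
def pick {L' : ℕ} (φ : Fin L' → Fin E.L) : Xp P where
  k0 := E.k0
  i0 := E.i0
  n := E.n
  v := E.v
  e := E.e
  ka := E.ka
  b0 := E.b0
  st := E.st
  bT := E.bT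
  L := L'
  iv := E.iv ∘ φ
  ts := E.ts ∘ φ
  th := E.th ∘ φ

/-- another root state -/
def withV (v' : P.Kc) : Xp P := { E with v := v' }

/-- another stack -/
def withSt (st' : List (Stg P)) : Xp P := { E with st := st' }

/-- the canonical (increasing) enumeration of a finite set of labels -/
def sel (S : Finset (Fin E.L)) : Fin S.card → Fin E.L := fun a => S.orderEmbOfFin rfl a

/-- the TAIL of `E` at the interval `i` of depth `k`: root state `ψ`, budget `e'`, regularity `κ'`, root generation `b'`, stack `st2`, labels `S` -/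
def tl (k i : ℕ) (ψ : P.Kc) (e' κ' : ℝ) (b' : ℕ) (st2 : List (Stg P)) (S : Finset (Fin E.L)) : Xp P where
  k0 := k
  i0 := i
  n := E.kf - k
  v := ψ
  e := e'
  ka := κ'
  b0 := b'
  st := st2
  bT := E.bT
  L := S.card
  iv := E.iv ∘ E.sel S
  ts := E.ts ∘ E.sel S
  th := E.th ∘ E.sel S

/-- a PREFIX of `E`: same root, relative length `j`, stack `st1`, terminal generation `bT'`, new labels -/
def pre (j : ℕ) (st1 : List (Stg P)) (bT' : ℕ) {L' : ℕ} (iv' : Fin L' → ℕ) (ts' : Fin L' → P.Tst) (th' : Fin L' → P.X → ℝ) : Xp P where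
  k0 := E.k0
  i0 := E.i0
  n := j
  v := E.v
  e := E.e
  ka := E.ka
  b0 := E.b0
  st := st1
  bT := bT'
  L := L'
  iv := iv'
  ts := ts'
  th := th'

/-- the total mass of the labels -/
noncomputable def tm : ℝ := ∑ l, E.m l

/-- the total weight of the labels -/
noncomputable def tw : ℝ := ∑ l, E.w l

/-- the stack is cut at the depth `k` -/
def CutAt (k : ℕ) (st1 st2 : List (Stg P)) : Prop :=
  E.st = st1 ++ st2 ∧ (∀ σ ∈ st1, σ.k ≤ k) ∧ (∀ σ ∈ st2, k ≤ σ.k) ∧ E.k0 ≤ k ∧ k ≤ E.kf

/-- the state at the interval `i` of depth `k` after the stack `st1` -/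
noncomputable def at' (k i : ℕ) (st1 : List (Stg P)) : P.Kc := run k i st1 E.v

end Xp

theorem gn_ops_eqns_cite : True := by
  have := @ivs.eq_1
  have := @Xp.pick.eq_1
  have := @Xp.withV.eq_1
  have := @Xp.withSt.eq_1
  have := @Xp.sel.eq_1
  have := @Xp.tl.eq_1
  have := @Xp.pre.eq_1
  have := @Xp.tm.eq_1
  have := @Xp.tw.eq_1
  have := @Xp.CutAt.eq_1
  have := @Xp.at'.eq_1
  trivial

/-- one level of a peeling of the state `ψ` at the cut `(T,k)`, generation `b`, threshold `β`: the row set `S` is a finite disjoint union of successes -/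
structure IsLvl (P : PkSys) (T : ℝ) (k b : ℕ) (ψ : P.Kc) (β : ℝ) (S : Set P.X) : Prop where
  meas : MeasurableSet S
  /-- raw regularity `2β` -/
  reg : ∀ Q, P.ok Q k → P.ms T k b (P.cell Q T k ∩ S) ψ ≤ 2 * β * P.wt Q
  /-- successes -/
  suc : ∃ (m : ℕ) (Qs : Fin m → P.Tst) (R : Fin m → Set P.X), (∀ a, P.ok (Qs a) k ∧ MeasurableSet (R a) ∧ R a ⊆ P.cell (Qs a) T k) ∧
    (∀ a a', a ≠ a' → Disjoint (R a) (R a')) ∧ S = ⋃ a, R a ∧ ∀ a, β * P.wt (Qs a) < P.ms T k b (R a) ψ

namespace Mdl

variable (M : Mdl)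

/-- **one-sided minimality** (874 D5) on experiments with AT MOST `K` STAGES (`K = ⊤`: no restriction beyond the package): if all labels have mass exponent `≤ p - ξ` the experiment loses
a PACKAGE FREE power `τ = τ(ξ, K)` -/
def PMin (K : ℕ∞) (p : ℝ) : Prop :=
  ∀ ξ : ℝ, 0 < ξ → ∃ τ : ℝ, 0 < τ ∧ ∀ C : ℕ, ∃ A n0 : ℕ, ∀ (q : M.Par) (E : Xp (M.sys q)), n0 ≤ E.n → M.Cls C A q E → (E.st.length : ℕ∞) ≤ K →
    (∀ l, E.ka * E.w l * E.s ^ (p - ξ) ≤ E.m l) → E.val ≤ 2 ^ ((M.Gam - τ) * E.n)

/-- the minimal mass exponent of the regime `K` -/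
noncomputable def pK (K : ℕ∞) : ℝ := sSup {p : ℝ | M.PMin K p}

/-- the total mass exponent that belongs to the mass exponent `p` -/
noncomputable def dOf (p : ℝ) : ℝ := M.Gam + (p - 1) / 2

/-- the minimal mass exponent, MASKED regime (cylinder models: secs. 2-6) -/
noncomputable def p0 : ℝ := sSup {p : ℝ | M.PMin ⊤ p}

/-- the total mass exponent, MASKED regime -/
noncomputable def d0 : ℝ := M.Gam + (M.p0 - 1) / 2

/-- the minimal mass exponent, FREE regime (round models: secs. 7-8) -/
noncomputable def p0f : ℝ := sSup {p : ℝ | M.PMin 0 p}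

/-- the total mass exponent, FREE regime -/
noncomputable def d0f : ℝ := M.Gam + (M.p0f - 1) / 2

end Mdl

theorem gn_min_eqns_cite : True := by
  have := @Mdl.PMin.eq_1
  have := @Mdl.pK.eq_1
  have := @Mdl.dOf.eq_1
  have := @Mdl.p0.eq_1
  have := @Mdl.d0.eq_1
  have := @Mdl.p0f.eq_1
  have := @Mdl.d0f.eq_1
  trivial

/-- the stage `σ` of `E` is a peel level with threshold `β` -/
structure Xp.LvlAt {P : PkSys} (E : Xp P) (st1 : List (Stg P)) (σ : Stg P) (st2 : List (Stg P)) (β : ℝ) : Prop where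
  cut : E.CutAt σ.k st1 (σ :: st2)
  plat : ∀ i ∈ ivs E.k0 E.i0 σ.k, E.at' σ.k i st1 ∈ P.Pl σ.b
  lvl : ∀ i ∈ ivs E.k0 E.i0 σ.k, ∃ S : Set P.X, IsLvl P (tmL σ.k i) σ.k σ.b (E.at' σ.k i st1) β S ∧ σ.M i = S.indicator fun _ => 1

/-- the raw energy of a stage, summed over the intervals of its cut -/
noncomputable def Xp.raw {P : PkSys} (E : Xp P) (st1 : List (Stg P)) (σ : Stg P) : ℝ :=
  ∑ i ∈ ivs E.k0 E.i0 σ.k, P.en (tmL σ.k i) σ.k σ.b (fun x => σ.M i x ^ 2) (E.at' σ.k i st1)

/-- the post-synthesis energy of a stage, summed over the intervals of its cut -/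
noncomputable def Xp.post {P : PkSys} (E : Xp P) (st1 : List (Stg P)) (σ : Stg P) : ℝ :=
  ∑ i ∈ ivs E.k0 E.i0 σ.k, ‖E.at' σ.k i (st1 ++ [σ])‖ ^ 2

theorem gn_lvl_eqns_cite : True := by
  have := @Xp.raw.eq_1
  have := @Xp.post.eq_1
  trivial

end Claimed.Agent.R256
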