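-- KEEP
import Claimed.Agent.R256.Gen.Ops

/-!
# Row 256, GENERIC THEORY, basics A : dyadic intervals, powers of two, `L²`, `mulR`, `tz`          (architect helper199; prefix `gn_`)

Paper free, sorry free.
-/

set_option autoImplicit false

namespace Claimed.Agent.R256

open MeasureTheory

/-! ## dyadic intervals -/

theorem gn_anc_self (k i : ℕ) : ancI k k i = i := by
  simp [ancI]

theorem gn_anc_anc {k k' k'' : ℕ} (h1 : k ≤ k') (h2 : k' ≤ k'') (i : ℕ) : ancI k' k (ancI k'' k' i) = ancI k'' k i := by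
  unfold ancI
  rw [Nat.div_div_eq_div_mul, ← pow_add]
  congr 2
  omega

theorem gn_mem_ivs (k0 i0 k i : ℕ) : i ∈ ivs k0 i0 k ↔ ancI k k0 i = i0 := by
  unfold ivs ancI
  rw [Finset.mem_Ico]
  have hp : 0 < 2 ^ (k - k0) := by positivity
  constructor
  · rintro ⟨h1, h2⟩
    apply Nat.div_eq_of_lt_le
    · exact h1
    · exact h2
  · intro h
    subst h
    constructor
    · exact Nat.div_mul_le_self i _
    · rw [mul_comm]; exact Nat.lt_mul_div_succ i hp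

theorem gn_ivs_card (k0 i0 k : ℕ) : (ivs k0 i0 k).card = 2 ^ (k - k0) := by
  unfold ivs
  rw [Nat.card_Ico, Nat.add_mul, one_mul]
  simp

/-- an interval and its ancestor form a nested pair of cuts -/
theorem gn_cutle_anc {k k' : ℕ} (h : k ≤ k') (i : ℕ) : CutLe (tmL k (ancI k' k i)) k (tmL k' i) k' := by
  obtain ⟨d, rfl⟩ := Nat.exists_eq_add_of_le h
  unfold CutLe tmL ancI
  have hd : k + d - k = d := by omega
  rw [hd]
  have hp : (0 : ℝ) < 2 ^ k := by positivity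
  have hpd : (0 : ℝ) < 2 ^ d := by positivity
  have h1 : ((i / 2 ^ d : ℕ) : ℝ) * 2 ^ d ≤ i := by
    have := Nat.div_mul_le_self i (2 ^ d)
    exact_mod_cast this
  have h2 : (i : ℝ) ≤ (((i / 2 ^ d : ℕ) : ℝ) + 1) * 2 ^ d := by
    have : i < (i / 2 ^ d + 1) * 2 ^ d := by
      rw [mul_comm]; exact Nat.lt_mul_div_succ i (by positivity)
    exact_mod_cast this.le
  refine ⟨h, ?_, ?_⟩
  · rw [div_le_div_iff₀ hp (by positivity), pow_add]
    nlinarith
  · rw [inv_pow, ← one_div, ← add_div, div_le_div_iff₀ (by positivity) hp, pow_add]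
    nlinarith

theorem gn_cutle_refl (T : ℝ) (k : ℕ) : CutLe T k T k := by
  refine ⟨le_refl _, le_refl _, ?_⟩
  have : (0 : ℝ) < (2 : ℝ)⁻¹ ^ k := by positivity
  linarith

/-! ## powers of two -/

theorem gn_two_mono {x y : ℝ} (h : x ≤ y) : (2 : ℝ) ^ x ≤ 2 ^ y :=
  Real.rpow_le_rpow_of_exponent_le (by norm_num) h

theorem gn_two_pos (x : ℝ) : (0 : ℝ) < 2 ^ x := Real.rpow_pos_of_pos (by norm_num) x

theorem gn_two_add (x y : ℝ) : (2 : ℝ) ^ (x + y) = 2 ^ x * 2 ^ y := Real.rpow_add (by norm_num) x y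

theorem gn_two_neg (x : ℝ) : (2 : ℝ) ^ (-x) = (2 ^ x)⁻¹ := Real.rpow_neg (by norm_num) x

theorem gn_two_mul (x y : ℝ) : ((2 : ℝ) ^ x) ^ y = 2 ^ (x * y) := (Real.rpow_mul (by norm_num) x y).symm

theorem gn_two_sqrt (x : ℝ) : Real.sqrt ((2 : ℝ) ^ x) = 2 ^ (x / 2) := by
  rw [Real.sqrt_eq_rpow, gn_two_mul]
  congr 1
  ring

theorem gn_two_nat (n : ℕ) : (2 : ℝ) ^ (n : ℝ) = 2 ^ n := Real.rpow_natCast 2 n

/-- constants are absorbed by a power -/
theorem gn_absorb (K δ : ℝ) (hδ : 0 < δ) : ∃ n0 : ℕ, ∀ n : ℕ, n0 ≤ n → K ≤ 2 ^ (δ * n) := by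
  obtain ⟨n0, hn0⟩ := exists_nat_ge (K / (δ * Real.log 2))
  have hl : 0 < Real.log 2 := Real.log_pos (by norm_num)
  refine ⟨n0, fun n hn => ?_⟩
  have h1 : K ≤ δ * n * Real.log 2 := by
    have : K / (δ * Real.log 2) ≤ n := hn0.trans (by exact_mod_cast hn)
    rw [div_le_iff₀ (by positivity)] at this
    linarith
  have h2 : δ * n * Real.log 2 + 1 ≤ (2 : ℝ) ^ (δ * n) := by
    have := Real.add_one_le_exp (δ * n * Real.log 2)
    rwa [Real.rpow_def_of_pos (by norm_num), mul_comm (Real.log 2)]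
  linarith

theorem gn_s_rpow {P : PkSys} (E : Xp P) (y : ℝ) : E.s ^ y = 2 ^ (-(y * E.n)) := by
  unfold Xp.s
  rw [← Real.rpow_natCast, ← Real.rpow_mul (by norm_num), Real.inv_rpow (by norm_num), ← Real.rpow_neg (by norm_num)]
  congr 1
  ring

theorem gn_s_pos {P : PkSys} (E : Xp P) : 0 < E.s := by
  unfold Xp.s
  positivity

theorem gn_s_le_one {P : PkSys} (E : Xp P) : E.s ≤ 1 := by
  unfold Xp.s
  exact pow_le_one₀ (by norm_num) (by norm_num)

/-- `s^y` is antitone in `y` -/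
theorem gn_s_anti {P : PkSys} (E : Xp P) {y y' : ℝ} (h : y ≤ y') : E.s ^ y' ≤ E.s ^ y :=
  Real.rpow_le_rpow_of_exponent_ge (gn_s_pos E) (gn_s_le_one E) h

/-! ## `L²` -/

theorem gn_sq_integrable {X F : Type} [MeasurableSpace X] [NormedAddCommGroup F] {μ : Measure X} (G : Lp F 2 μ) :
    Integrable (fun x => ‖(G : X → F) x‖ ^ 2) μ := by
  have h := (Lp.memLp G).integrable_norm_rpow (by norm_num) (by norm_num)
  simpa using h

theorem gn_norm_sq {X F : Type} [MeasurableSpace X] [NormedAddCommGroup F] {μ : Measure X} (G : Lp F 2 μ) :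
    ‖G‖ ^ 2 = ∫ x, ‖(G : X → F) x‖ ^ 2 ∂μ := by
  have h0 : 0 ≤ ∫ x, ‖(G : X → F) x‖ ^ (2 : ℝ) ∂μ := integral_nonneg fun x => by positivity
  have h1 := (Lp.memLp G).eLpNorm_eq_integral_rpow_norm (by norm_num) (by norm_num)
  rw [Lp.norm_def, h1, ENNReal.toReal_ofReal (by positivity), ← Real.rpow_natCast, ← Real.rpow_mul (by simpa using h0)]
  simp

/-! ## masks -/

theorem gn_mask_ind {X : Type} [MeasurableSpace X] {S : Set X} (hS : MeasurableSet S) : IsMask (S.indicator fun _ => (1 : ℝ)) := by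
  refine ⟨measurable_const.indicator hS, fun x => ?_⟩
  by_cases hx : x ∈ S <;> simp [hx]

theorem gn_mask_sq {X : Type} [MeasurableSpace X] {M : X → ℝ} (hM : IsMask M) : IsMask (fun x => M x ^ 2) := by
  refine ⟨hM.1.pow_const 2, fun x => ⟨by positivity, ?_⟩⟩
  exact pow_le_one₀ (hM.2 x).1 (hM.2 x).2

theorem gn_mask_sqrt {X : Type} [MeasurableSpace X] {M : X → ℝ} (hM : IsMask M) : IsMask (fun x => Real.sqrt (M x)) := by
  refine ⟨hM.1.sqrt, fun x => ⟨Real.sqrt_nonneg _, ?_⟩⟩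
  exact Real.sqrt_le_one.mpr (hM.2 x).2

theorem gn_mask_mul {X : Type} [MeasurableSpace X] {M M' : X → ℝ} (hM : IsMask M) (hM' : IsMask M') : IsMask (fun x => M x * M' x) := by
  refine ⟨hM.1.mul hM'.1, fun x => ⟨mul_nonneg (hM.2 x).1 (hM'.2 x).1, ?_⟩⟩
  exact mul_le_one₀ (hM.2 x).2 (hM'.2 x).1 (hM'.2 x).2

variable {P : PkSys}

/-! ## `mulR` -/

theorem gn_mask_memLp (k : ℕ) {M : P.X → ℝ} (hM : IsMask M) (F : Lp P.Fb 2 (P.rho k)) :
    MemLp (fun x => ((M x : ℝ) : ℂ) • (F : P.X → P.Fb) x) 2 (P.rho k) := by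
  refine MemLp.of_le (Lp.memLp F) ?_ (Filter.Eventually.of_forall fun x => ?_)
  · exact (Complex.measurable_ofReal.comp hM.1).aestronglyMeasurable.smul (Lp.aestronglyMeasurable F)
  · rw [norm_smul, Complex.norm_real, Real.norm_eq_abs, abs_of_nonneg (hM.2 x).1]
    exact mul_le_of_le_one_left (norm_nonneg _) (hM.2 x).2

theorem gn_mulR_coe (k : ℕ) {M : P.X → ℝ} (hM : IsMask M) (F : Lp P.Fb 2 (P.rho k)) :
    (P.mulR k M F : P.X → P.Fb) =ᵐ[P.rho k] fun x => ((M x : ℝ) : ℂ) • (F : P.X → P.Fb) x := by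
  unfold PkSys.mulR
  rw [dif_pos (gn_mask_memLp k hM F)]
  exact MemLp.coeFn_toLp _

theorem gn_mulR_add (k : ℕ) {M : P.X → ℝ} (hM : IsMask M) (F G : Lp P.Fb 2 (P.rho k)) :
    P.mulR k M (F + G) = P.mulR k M F + P.mulR k M G := by
  apply Lp.ext
  filter_upwards [gn_mulR_coe k hM (F + G), gn_mulR_coe k hM F, gn_mulR_coe k hM G, Lp.coeFn_add F G,
    Lp.coeFn_add (P.mulR k M F) (P.mulR k M G)] with x h1 h2 h3 h4 h5
  rw [h1, h5, Pi.add_apply, h2, h3, h4, Pi.add_apply, smul_add]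

theorem gn_mulR_smul (k : ℕ) {M : P.X → ℝ} (hM : IsMask M) (c : ℂ) (F : Lp P.Fb 2 (P.rho k)) :
    P.mulR k M (c • F) = c • P.mulR k M F := by
  apply Lp.ext
  filter_upwards [gn_mulR_coe k hM (c • F), gn_mulR_coe k hM F, Lp.coeFn_smul c F,
    Lp.coeFn_smul c (P.mulR k M F)] with x h1 h2 h3 h4
  rw [h1, h4, Pi.smul_apply, h2, h3, Pi.smul_apply, smul_comm]

theorem gn_mulR_zero (k : ℕ) (M : P.X → ℝ) : P.mulR k M (0 : Lp P.Fb 2 (P.rho k)) = 0 := by
  unfold PkSys.mulR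
  split_ifs with h
  · apply Lp.ext
    filter_upwards [MemLp.coeFn_toLp h, Lp.coeFn_zero P.Fb 2 (P.rho k)] with x h1 h2
    rw [h1, h2]
    simp
  · rfl

theorem gn_mulR_normsq (k : ℕ) {M : P.X → ℝ} (hM : IsMask M) (F : Lp P.Fb 2 (P.rho k)) :
    ‖P.mulR k M F‖ ^ 2 = ∫ x, M x ^ 2 * ‖(F : P.X → P.Fb) x‖ ^ 2 ∂(P.rho k) := by
  rw [gn_norm_sq]
  apply integral_congr_ae
  filter_upwards [gn_mulR_coe k hM F] with x h1
  rw [h1, norm_smul, Complex.norm_real, Real.norm_eq_abs, mul_pow, sq_abs]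

theorem gn_mulR_norm_le (k : ℕ) {M : P.X → ℝ} (hM : IsMask M) (F : Lp P.Fb 2 (P.rho k)) : ‖P.mulR k M F‖ ≤ ‖F‖ := by
  apply le_of_sq_le_sq _ (norm_nonneg _)
  rw [gn_mulR_normsq k hM, gn_norm_sq F]
  apply integral_mono_of_nonneg (Filter.Eventually.of_forall fun x => by positivity) (gn_sq_integrable F)
  refine Filter.Eventually.of_forall fun x => ?_
  exact mul_le_of_le_one_left (by positivity) ((gn_mask_sq hM).2 x).2

/-- composition of two masks -/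
theorem gn_mulR_mulR (k : ℕ) {M M' : P.X → ℝ} (hM : IsMask M) (hM' : IsMask M') (F : Lp P.Fb 2 (P.rho k)) :
    P.mulR k M (P.mulR k M' F) = P.mulR k (fun x => M x * M' x) F := by
  apply Lp.ext
  filter_upwards [gn_mulR_coe k hM (P.mulR k M' F), gn_mulR_coe k hM' F, gn_mulR_coe k (gn_mask_mul hM hM') F] with x h1 h2 h3
  rw [h1, h2, h3, smul_smul]
  push_cast
  rfl

/-- masks that agree everywhere give the same operator; additivity in the mask -/
theorem gn_mulR_sum (k : ℕ) {ι : Type} (J : Finset ι) (Mk : ι → P.X → ℝ) (hM : ∀ j ∈ J, IsMask (Mk j)) {M : P.X → ℝ} (hM' : IsMask M)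
    (hs : ∀ x, ∑ j ∈ J, Mk j x = M x) (F : Lp P.Fb 2 (P.rho k)) : ∑ j ∈ J, P.mulR k (Mk j) F = P.mulR k M F := by
  apply Lp.ext
  have h1 : ∀ᵐ x ∂(P.rho k), ∀ j ∈ J, (P.mulR k (Mk j) F : P.X → P.Fb) x = ((Mk j x : ℝ) : ℂ) • (F : P.X → P.Fb) x := by
    rw [Filter.eventually_all_finset]
    intro j hj
    exact gn_mulR_coe k (hM j hj) F
  filter_upwards [h1, gn_mulR_coe k hM' F, Lp.coeFn_finsetSum J (fun j => P.mulR k (Mk j) F)] with x h1 h2 h3
  rw [h3, h2, Finset.sum_apply, Finset.sum_congr rfl h1, ← Finset.sum_smul, ← hs x]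
  push_cast
  rfl

theorem gn_mulR_one (k : ℕ) (F : Lp P.Fb 2 (P.rho k)) : P.mulR k (fun _ => 1) F = F := by
  apply Lp.ext
  have hM : IsMask (fun _ : P.X => (1 : ℝ)) := ⟨measurable_const, fun _ => ⟨zero_le_one, le_refl _⟩⟩
  filter_upwards [gn_mulR_coe k hM F] with x h1
  rw [h1]
  simp

/-! ## `tz` -/

theorem gn_tz_add (T : ℝ) (k b : ℕ) {M : P.X → ℝ} (hM : IsMask M) (v w : P.Kc) : P.tz T k b M (v + w) = P.tz T k b M v + P.tz T k b M w := by
  unfold PkSys.tz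
  rw [map_add, gn_mulR_add k hM, map_add]

theorem gn_tz_smul (T : ℝ) (k b : ℕ) {M : P.X → ℝ} (hM : IsMask M) (c : ℂ) (v : P.Kc) : P.tz T k b M (c • v) = c • P.tz T k b M v := by
  unfold PkSys.tz
  rw [map_smul, gn_mulR_smul k hM, map_smul]

theorem gn_tz_zero (T : ℝ) (k b : ℕ) (M : P.X → ℝ) : P.tz T k b M (0 : P.Kc) = 0 := by
  unfold PkSys.tz
  rw [map_zero, gn_mulR_zero, map_zero]

/-- the adjoint of a contraction is a contraction -/
theorem gn_adj_norm_le (hT : P.Tight) (T : ℝ) (k b : ℕ) (F : Lp P.Fb 2 (P.rho k)) : ‖ContinuousLinearMap.adjoint (P.An T k b) F‖ ≤ ‖F‖ := by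
  have h1 : ‖P.An T k b‖ ≤ 1 := ContinuousLinearMap.opNorm_le_bound _ zero_le_one fun v => by simpa using hT.contr T k b v
  have h2 : ‖ContinuousLinearMap.adjoint (P.An T k b)‖ ≤ 1 := by
    rw [LinearIsometryEquiv.norm_map]; exact h1
  calc ‖ContinuousLinearMap.adjoint (P.An T k b) F‖ ≤ ‖ContinuousLinearMap.adjoint (P.An T k b)‖ * ‖F‖ := ContinuousLinearMap.le_opNorm _ _
    _ ≤ 1 * ‖F‖ := by gcongr
    _ = ‖F‖ := one_mul _

/-- synthesis is a contraction: post energy `≤` raw energy -/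
theorem gn_tz_normsq_le (hT : P.Tight) (T : ℝ) (k b : ℕ) {M : P.X → ℝ} (hM : IsMask M) (v : P.Kc) :
    ‖P.tz T k b M v‖ ^ 2 ≤ P.en T k b (fun x => M x ^ 2) v := by
  unfold PkSys.tz PkSys.en
  rw [← gn_mulR_normsq k hM]
  have := gn_adj_norm_le hT T k b (P.mulR k M (P.An T k b v))
  gcongr

theorem gn_tz_norm_le (hT : P.Tight) (T : ℝ) (k b : ℕ) {M : P.X → ℝ} (hM : IsMask M) (v : P.Kc) : ‖P.tz T k b M v‖ ≤ ‖v‖ := by
  unfold PkSys.tz
  exact (gn_adj_norm_le hT T k b _).trans ((gn_mulR_norm_le k hM _).trans (hT.contr T k b v))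

theorem gn_tz_pl (hT : P.Tight) (T : ℝ) (k b : ℕ) (M : P.X → ℝ) (v : P.Kc) : P.tz T k b M v ∈ P.Pl (b + 1) :=
  hT.syn T k b _

theorem gn_pl_mono (hT : P.Tight) {b b' : ℕ} (h : b ≤ b') : P.Pl b ⊆ P.Pl b' := by
  induction h with
  | refl => exact subset_rfl
  | step _ ih => exact ih.trans (hT.mono _)

/-- on the plateau class `An^* An = 1`   (`‖An^* An v - v‖² ≤ ‖v‖² - 2 ‖An v‖² + ‖v‖² = 0`) -/
theorem gn_adj_an (hT : P.Tight) (T : ℝ) (k b : ℕ) {v : P.Kc} (hv : v ∈ P.Pl b) : ContinuousLinearMap.adjoint (P.An T k b) (P.An T k b v) = v := by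
  set A := P.An T k b
  set u := ContinuousLinearMap.adjoint A (A v)
  have h1 : ‖A v‖ = ‖v‖ := hv T k
  have h2 : ‖u‖ ≤ ‖v‖ := (gn_adj_norm_le hT T k b _).trans h1.le
  have h3 : inner ℂ u v = ((‖v‖ ^ 2 : ℝ) : ℂ) := by
    rw [ContinuousLinearMap.adjoint_inner_left, inner_self_eq_norm_sq_to_K, h1]
    push_cast
    rfl
  have h4 : ‖u - v‖ ^ 2 ≤ 0 := by
    have := @norm_sub_sq ℂ _ _ _ _ u v
    rw [h3] at this
    simp only [RCLike.re_to_complex, Complex.ofReal_re] at this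
    rw [this]
    nlinarith [norm_nonneg u, norm_nonneg v]
  have h5 : ‖u - v‖ = 0 := by
    have := norm_nonneg (u - v)
    nlinarith
  exact sub_eq_zero.mp (norm_eq_zero.mp h5)

/-- a partition of unity on the rows is a partition of the identity on the plateau class -/
theorem gn_tz_part (hT : P.Tight) (T : ℝ) (k b : ℕ) {v : P.Kc} (hv : v ∈ P.Pl b) {ι : Type} (J : Finset ι) (Mk : ι → P.X → ℝ)
    (hM : ∀ j ∈ J, IsMask (Mk j)) (hs : ∀ x, ∑ j ∈ J, Mk j x = 1) : ∑ j ∈ J, P.tz T k b (Mk j) v = v := by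
  unfold PkSys.tz
  have hM1 : IsMask (fun _ : P.X => (1 : ℝ)) := ⟨measurable_const, fun _ => ⟨zero_le_one, le_refl _⟩⟩
  rw [← map_sum, gn_mulR_sum k J Mk hM hM1 hs, gn_mulR_one, gn_adj_an hT T k b hv]

end Claimed.Agent.R256
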