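-- KEEP
import Claimed.Agent.R256.Gen.BasA

/-!
# Row 256, GENERIC THEORY, basics B : the row energies `en`, `ms`, the energy measure `mu`          (architect helper199; prefix `gn_`)

Paper free, sorry free.      `en T k b θ v = ∫ θ |An v|²`,   `ms T k b S v = en (1_S)`.
-/

set_option autoImplicit false

namespace Claimed.Agent.R256

open MeasureTheory

/-- the energy measure of the state `v` on the rows of the cut `(T,k)`, generation `b` -/
noncomputable def PkSys.mu (P : PkSys) (T : ℝ) (k b : ℕ) (v : P.Kc) : Measure P.X :=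
  (P.rho k).withDensity fun x => ENNReal.ofReal (‖(P.An T k b v : P.X → P.Fb) x‖ ^ 2)

theorem gn_mu_eqns_cite : True := by
  have := @PkSys.mu.eq_1
  trivial

variable {P : PkSys}

/-! ## `en` -/

theorem gn_en_integrable (T : ℝ) (k b : ℕ) {θ : P.X → ℝ} (hθ : IsMask θ) (v : P.Kc) :
    Integrable (fun x => θ x * ‖(P.An T k b v : P.X → P.Fb) x‖ ^ 2) (P.rho k) := by
  refine Integrable.mono' (gn_sq_integrable (P.An T k b v)) ?_ (Filter.Eventually.of_forall fun x => ?_)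
  · exact hθ.1.aestronglyMeasurable.mul (gn_sq_integrable (P.An T k b v)).aestronglyMeasurable
  · rw [Real.norm_eq_abs, abs_of_nonneg (mul_nonneg (hθ.2 x).1 (by positivity))]
    exact mul_le_of_le_one_left (by positivity) (hθ.2 x).2

theorem gn_en_nonneg (T : ℝ) (k b : ℕ) {θ : P.X → ℝ} (hθ : ∀ x, 0 ≤ θ x) (v : P.Kc) : 0 ≤ P.en T k b θ v :=
  integral_nonneg fun x => mul_nonneg (hθ x) (by positivity)

theorem gn_en_mono (T : ℝ) (k b : ℕ) {θ θ' : P.X → ℝ} (hθ : IsMask θ) (hθ' : IsMask θ') (h : ∀ x, θ x ≤ θ' x) (v : P.Kc) :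
    P.en T k b θ v ≤ P.en T k b θ' v :=
  integral_mono (gn_en_integrable T k b hθ v) (gn_en_integrable T k b hθ' v) fun x => mul_le_mul_of_nonneg_right (h x) (by positivity)

theorem gn_en_one (T : ℝ) (k b : ℕ) (v : P.Kc) : P.en T k b (fun _ => 1) v = ‖P.An T k b v‖ ^ 2 := by
  rw [gn_norm_sq]
  unfold PkSys.en
  simp

theorem gn_en_le (hT : P.Tight) (T : ℝ) (k b : ℕ) {θ : P.X → ℝ} (hθ : IsMask θ) (v : P.Kc) : P.en T k b θ v ≤ ‖v‖ ^ 2 := by
  have hM1 : IsMask (fun _ : P.X => (1 : ℝ)) := ⟨measurable_const, fun _ => ⟨zero_le_one, le_refl _⟩⟩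
  calc P.en T k b θ v ≤ P.en T k b (fun _ => 1) v := gn_en_mono T k b hθ hM1 (fun x => (hθ.2 x).2) v
    _ = ‖P.An T k b v‖ ^ 2 := gn_en_one T k b v
    _ ≤ ‖v‖ ^ 2 := by
      have := hT.contr T k b v
      gcongr

/-- additivity in the weight -/
theorem gn_en_sum (T : ℝ) (k b : ℕ) {ι : Type} (J : Finset ι) (θ : ι → P.X → ℝ) (hθ : ∀ j ∈ J, IsMask (θ j)) (v : P.Kc) :
    P.en T k b (fun x => ∑ j ∈ J, θ j x) v = ∑ j ∈ J, P.en T k b (θ j) v := by
  unfold PkSys.en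
  rw [← integral_finsetSum J fun j hj => gn_en_integrable T k b (hθ j hj) v]
  congr 1
  ext x
  rw [Finset.sum_mul]

/-- `en` is the square of a Hilbert norm -/
theorem gn_en_eq_norm (T : ℝ) (k b : ℕ) {θ : P.X → ℝ} (hθ : IsMask θ) (v : P.Kc) :
    P.en T k b θ v = ‖P.mulR k (fun x => Real.sqrt (θ x)) (P.An T k b v)‖ ^ 2 := by
  rw [gn_mulR_normsq k (gn_mask_sqrt hθ)]
  unfold PkSys.en
  congr 1
  ext x
  rw [Real.sq_sqrt (hθ.2 x).1]

theorem gn_en_zero (T : ℝ) (k b : ℕ) (θ : P.X → ℝ) : P.en T k b θ (0 : P.Kc) = 0 := by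
  unfold PkSys.en
  rw [map_zero]
  have : (fun x => θ x * ‖((0 : Lp P.Fb 2 (P.rho k)) : P.X → P.Fb) x‖ ^ 2) =ᵐ[P.rho k] fun _ => 0 := by
    filter_upwards [Lp.coeFn_zero P.Fb 2 (P.rho k)] with x hx
    rw [hx]
    simp
  rw [integral_congr_ae this]
  simp

/-- `√en` is a seminorm -/
theorem gn_en_tri (T : ℝ) (k b : ℕ) {θ : P.X → ℝ} (hθ : IsMask θ) (v w : P.Kc) :
    Real.sqrt (P.en T k b θ (v + w)) ≤ Real.sqrt (P.en T k b θ v) + Real.sqrt (P.en T k b θ w) := by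
  rw [gn_en_eq_norm T k b hθ, gn_en_eq_norm T k b hθ, gn_en_eq_norm T k b hθ, Real.sqrt_sq (norm_nonneg _), Real.sqrt_sq (norm_nonneg _),
    Real.sqrt_sq (norm_nonneg _), map_add, gn_mulR_add k (gn_mask_sqrt hθ)]
  exact norm_add_le _ _

theorem gn_en_tri_sum (T : ℝ) (k b : ℕ) {θ : P.X → ℝ} (hθ : IsMask θ) {ι : Type} (J : Finset ι) (u : ι → P.Kc) :
    Real.sqrt (P.en T k b θ (∑ j ∈ J, u j)) ≤ ∑ j ∈ J, Real.sqrt (P.en T k b θ (u j)) := by
  classical
  induction J using Finset.induction_on with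
  | empty => simp [gn_en_zero]
  | insert a s ha ih =>
    rw [Finset.sum_insert ha, Finset.sum_insert ha]
    exact (gn_en_tri T k b hθ _ _).trans (by gcongr)

/-- the energy of a synthesised row function read through a mask is at most its norm -/
theorem gn_en_adj_le (hT : P.Tight) (T : ℝ) (k b : ℕ) (T' : ℝ) (k' b' : ℕ) {θ : P.X → ℝ} (hθ : IsMask θ) (F : Lp P.Fb 2 (P.rho k)) :
    P.en T' k' b' θ (ContinuousLinearMap.adjoint (P.An T k b) F) ≤ ‖F‖ ^ 2 := by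
  refine (gn_en_le hT T' k' b' hθ _).trans ?_
  have := gn_adj_norm_le hT T k b F
  gcongr

/-! ## `ms` -/

theorem gn_ms_eq (T : ℝ) (k b : ℕ) {S : Set P.X} (hS : MeasurableSet S) (v : P.Kc) :
    P.ms T k b S v = ∫ x in S, ‖(P.An T k b v : P.X → P.Fb) x‖ ^ 2 ∂(P.rho k) := by
  unfold PkSys.ms PkSys.en
  rw [← integral_indicator hS]
  congr 1
  ext x
  by_cases hx : x ∈ S <;> simp [hx]

theorem gn_ms_nonneg (T : ℝ) (k b : ℕ) (S : Set P.X) (v : P.Kc) : 0 ≤ P.ms T k b S v :=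
  gn_en_nonneg T k b (fun x => Set.indicator_nonneg (fun _ _ => zero_le_one) x) v

theorem gn_ms_mono (T : ℝ) (k b : ℕ) {S S' : Set P.X} (hS : MeasurableSet S) (hS' : MeasurableSet S') (h : S ⊆ S') (v : P.Kc) :
    P.ms T k b S v ≤ P.ms T k b S' v :=
  gn_en_mono T k b (gn_mask_ind hS) (gn_mask_ind hS') (fun x => Set.indicator_le_indicator_of_subset h (fun _ => zero_le_one) x) v

theorem gn_ms_le (hT : P.Tight) (T : ℝ) (k b : ℕ) {S : Set P.X} (hS : MeasurableSet S) (v : P.Kc) : P.ms T k b S v ≤ ‖v‖ ^ 2 :=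
  gn_en_le hT T k b (gn_mask_ind hS) v

theorem gn_ms_empty (T : ℝ) (k b : ℕ) (v : P.Kc) : P.ms T k b ∅ v = 0 := by
  unfold PkSys.ms PkSys.en
  simp

/-- a weight supported in `S` reads at most the energy of `S` -/
theorem gn_en_le_ms (T : ℝ) (k b : ℕ) {θ : P.X → ℝ} (hθ : IsMask θ) {S : Set P.X} (hS : MeasurableSet S) (h : ∀ x, θ x ≠ 0 → x ∈ S) (v : P.Kc) :
    P.en T k b θ v ≤ P.ms T k b S v := by
  refine gn_en_mono T k b hθ (gn_mask_ind hS) (fun x => ?_) v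
  by_cases hx : x ∈ S
  · simpa [hx] using (hθ.2 x).2
  · have : θ x = 0 := by
      by_contra h0
      exact hx (h x h0)
    simp [hx, this]

/-- `ms` is the mass of the energy measure -/
theorem gn_ms_eq_mu (T : ℝ) (k b : ℕ) {S : Set P.X} (hS : MeasurableSet S) (v : P.Kc) : P.ms T k b S v = (P.mu T k b v).real S := by
  rw [gn_ms_eq T k b hS]
  unfold PkSys.mu Measure.real
  rw [withDensity_apply _ hS, integral_eq_lintegral_of_nonneg_ae (Filter.Eventually.of_forall fun x => by positivity)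
    (gn_sq_integrable (P.An T k b v)).aestronglyMeasurable.restrict]

theorem gn_mu_finite (T : ℝ) (k b : ℕ) (v : P.Kc) : IsFiniteMeasure (P.mu T k b v) := by
  unfold PkSys.mu
  exact isFiniteMeasure_withDensity_ofReal (gn_sq_integrable (P.An T k b v)).2

/-- finite subadditivity -/
theorem gn_ms_iUnion_le (T : ℝ) (k b : ℕ) {m : ℕ} (R : Fin m → Set P.X) (hR : ∀ a, MeasurableSet (R a)) (v : P.Kc) :
    P.ms T k b (⋃ a, R a) v ≤ ∑ a, P.ms T k b (R a) v := by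
  have := gn_mu_finite (P := P) T k b v
  rw [gn_ms_eq_mu T k b (MeasurableSet.iUnion hR)]
  simp_rw [gn_ms_eq_mu T k b (hR _)]
  exact measureReal_iUnion_fintype_le R

/-- finite additivity -/
theorem gn_ms_iUnion (T : ℝ) (k b : ℕ) {m : ℕ} (R : Fin m → Set P.X) (hR : ∀ a, MeasurableSet (R a))
    (hd : ∀ a a', a ≠ a' → Disjoint (R a) (R a')) (v : P.Kc) : P.ms T k b (⋃ a, R a) v = ∑ a, P.ms T k b (R a) v := by
  have := gn_mu_finite (P := P) T k b v
  rw [gn_ms_eq_mu T k b (MeasurableSet.iUnion hR)]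
  simp_rw [gn_ms_eq_mu T k b (hR _)]
  exact measureReal_iUnion_fintype (fun a a' h => hd a a' h) hR

/-- `√ms` is a seminorm -/
theorem gn_ms_tri_sum (T : ℝ) (k b : ℕ) {S : Set P.X} (hS : MeasurableSet S) {ι : Type} (J : Finset ι) (u : ι → P.Kc) :
    Real.sqrt (P.ms T k b S (∑ j ∈ J, u j)) ≤ ∑ j ∈ J, Real.sqrt (P.ms T k b S (u j)) :=
  gn_en_tri_sum T k b (gn_mask_ind hS) J u

/-- the norm of a restricted row function -/
theorem gn_mulR_ind_normsq (k : ℕ) {S : Set P.X} (hS : MeasurableSet S) (F : Lp P.Fb 2 (P.rho k)) :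
    ‖P.mulR k (S.indicator fun _ => 1) F‖ ^ 2 = ∫ x in S, ‖(F : P.X → P.Fb) x‖ ^ 2 ∂(P.rho k) := by
  rw [gn_mulR_normsq k (gn_mask_ind hS), ← integral_indicator hS]
  congr 1
  ext x
  by_cases hx : x ∈ S <;> simp [hx]

/-- the energy on `S'` of a row function restricted to `S` -/
theorem gn_mulR_ind_setInt (k : ℕ) {S S' : Set P.X} (hS : MeasurableSet S) (hS' : MeasurableSet S') (F : Lp P.Fb 2 (P.rho k)) :
    ∫ x in S', ‖(P.mulR k (S.indicator fun _ => 1) F : P.X → P.Fb) x‖ ^ 2 ∂(P.rho k) = ∫ x in S' ∩ S, ‖(F : P.X → P.Fb) x‖ ^ 2 ∂(P.rho k) := by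
  rw [← integral_indicator hS', ← integral_indicator (hS'.inter hS)]
  apply integral_congr_ae
  filter_upwards [gn_mulR_coe k (gn_mask_ind hS) F] with x hx
  by_cases h1 : x ∈ S' <;> by_cases h2 : x ∈ S <;> simp [h1, h2, hx]

/-- the energy on `S'` of a masked row function -/
theorem gn_mulR_setInt_le (k : ℕ) {M : P.X → ℝ} (hM : IsMask M) {S' : Set P.X} (hS' : MeasurableSet S') (F : Lp P.Fb 2 (P.rho k)) :
    ∫ x in S', ‖(P.mulR k M F : P.X → P.Fb) x‖ ^ 2 ∂(P.rho k) ≤ ∫ x in S', ‖(F : P.X → P.Fb) x‖ ^ 2 ∂(P.rho k) := by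
  apply integral_mono_ae (gn_sq_integrable _).restrict (gn_sq_integrable _).restrict
  apply ae_restrict_of_ae
  filter_upwards [gn_mulR_coe k hM F] with x hx
  rw [hx, norm_smul, Complex.norm_real, Real.norm_eq_abs, abs_of_nonneg (hM.2 x).1]
  have := mul_le_of_le_one_left (norm_nonneg ((F : P.X → P.Fb) x)) (hM.2 x).2
  have h0 := mul_nonneg (hM.2 x).1 (norm_nonneg ((F : P.X → P.Fb) x))
  gcongr

/-- regularity is monotone in the constant -/
theorem gn_reg_mono (hT : P.Tight) {T : ℝ} {k b : ℕ} {κ κ' : ℝ} {v : P.Kc} (h : P.Reg T k b κ v) (hκ : κ ≤ κ') : P.Reg T k b κ' v :=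
  fun Q hQ => (h Q hQ).trans (mul_le_mul_of_nonneg_right hκ (hT.wt_pos Q k hQ).le)

end Claimed.Agent.R256
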