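-- KEEP
import Claimed.Agent.R256.Gen.BasB

/-!
# Row 256, GENERIC THEORY, basics C : `run`, labels, `sel`, `rd`, `val`, the class          (architect helper199; prefix `gn_`)

Paper free, sorry free.
-/

set_option autoImplicit false

namespace Claimed.Agent.R256

open MeasureTheory

variable {P : PkSys}

/-- all masks of a stack are masks -/
def StM (l : List (Stg P)) : Prop := ∀ σ ∈ l, ∀ i, IsMask (σ.M i)

theorem gn_stm_eqns_cite : True := by
  have := @StM.eq_1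
  trivial

/-! ## `run` -/

theorem gn_run_append (k' i : ℕ) (l1 l2 : List (Stg P)) (v : P.Kc) : Xp.run k' i (l1 ++ l2) v = Xp.run k' i l2 (Xp.run k' i l1 v) := by
  induction l1 generalizing v with
  | nil => rfl
  | cons σ l ih => exact ih _

/-- a stack of depths `≤ k` sees only the ancestor of depth `k` -/
theorem gn_run_anc {k k' : ℕ} (hk : k ≤ k') (i : ℕ) (l : List (Stg P)) (hl : ∀ σ ∈ l, σ.k ≤ k) (v : P.Kc) :
    Xp.run k' i l v = Xp.run k (ancI k' k i) l v := by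
  induction l generalizing v with
  | nil => rfl
  | cons σ l ih =>
    have h1 : σ.k ≤ k := hl σ (List.mem_cons_self)
    simp only [Xp.run]
    rw [gn_anc_anc h1 hk]
    exact ih (fun σ' h' => hl σ' (List.mem_cons_of_mem _ h')) _

theorem gn_run_add (k' i : ℕ) (l : List (Stg P)) (hl : StM l) (v w : P.Kc) : Xp.run k' i l (v + w) = Xp.run k' i l v + Xp.run k' i l w := by
  induction l generalizing v w with
  | nil => rfl
  | cons σ l ih =>
    simp only [Xp.run]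
    rw [gn_tz_add _ _ _ (hl σ List.mem_cons_self _)]
    exact ih (fun σ' h' => hl σ' (List.mem_cons_of_mem _ h')) _ _

theorem gn_run_zero (k' i : ℕ) (l : List (Stg P)) : Xp.run k' i l (0 : P.Kc) = 0 := by
  induction l with
  | nil => rfl
  | cons σ l ih =>
    simp only [Xp.run]
    rw [gn_tz_zero]
    exact ih

theorem gn_run_sum (k' i : ℕ) (l : List (Stg P)) (hl : StM l) {ι : Type} (J : Finset ι) (u : ι → P.Kc) :
    Xp.run k' i l (∑ j ∈ J, u j) = ∑ j ∈ J, Xp.run k' i l (u j) := by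
  classical
  induction J using Finset.induction_on with
  | empty => simp [gn_run_zero]
  | insert a s ha ih => rw [Finset.sum_insert ha, Finset.sum_insert ha, gn_run_add k' i l hl, ih]

theorem gn_run_norm_le (hT : P.Tight) (k' i : ℕ) (l : List (Stg P)) (hl : StM l) (v : P.Kc) : ‖Xp.run k' i l v‖ ≤ ‖v‖ := by
  induction l generalizing v with
  | nil => exact le_refl _
  | cons σ l ih =>
    simp only [Xp.run]
    exact (ih (fun σ' h' => hl σ' (List.mem_cons_of_mem _ h')) _).trans (gn_tz_norm_le hT _ _ _ (hl σ List.mem_cons_self _) v)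

/-- the plateau class along a stack -/
theorem gn_run_pl (hT : P.Tight) (k' i bm : ℕ) (l : List (Stg P)) (hl : ∀ σ ∈ l, σ.b ≤ bm) {v : P.Kc} (hv : v ∈ P.Pl bm) :
    Xp.run k' i l v ∈ P.Pl (bm + 1) := by
  have key : ∀ (l : List (Stg P)), (∀ σ ∈ l, σ.b ≤ bm) → ∀ v : P.Kc, v ∈ P.Pl (bm + 1) → Xp.run k' i l v ∈ P.Pl (bm + 1) := by
    intro l
    induction l with
    | nil => intro _ v hv; exact hv
    | cons σ l ih =>
      intro hl v _
      simp only [Xp.run]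
      refine ih (fun σ' h' => hl σ' (List.mem_cons_of_mem _ h')) _ ?_
      exact gn_pl_mono hT (Nat.succ_le_succ (hl σ List.mem_cons_self)) (gn_tz_pl hT _ _ _ _ _)
  exact key l hl v (hT.mono bm hv)

/-! ## valid experiments -/

theorem gn_valid_stm (E : Xp P) (hE : E.Valid) : StM E.st :=
  fun σ hσ i => ⟨hE.st_meas σ hσ i, hE.st_bd σ hσ i⟩

theorem gn_th_mask (E : Xp P) (hE : E.Valid) (l : Fin E.L) : IsMask (E.th l) := by
  refine ⟨hE.th_meas l, fun x => ⟨hE.th_nn l x, ?_⟩⟩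
  refine le_trans ?_ (hE.th_sum (E.iv l) x)
  have := Finset.single_le_sum (f := fun l' => if E.iv l' = E.iv l then E.th l' x else 0) (fun l' _ => by
    split_ifs
    · exact hE.th_nn l' x
    · exact le_refl _) (Finset.mem_univ l)
  simpa using this

theorem gn_cut_stm (E : Xp P) (hE : E.Valid) {k : ℕ} {st1 st2 : List (Stg P)} (hc : E.CutAt k st1 st2) : StM st1 ∧ StM st2 := by
  have h := gn_valid_stm E hE
  rw [hc.1] at h
  exact ⟨fun σ hσ => h σ (List.mem_append_left _ hσ), fun σ hσ => h σ (List.mem_append_right _ hσ)⟩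

/-- the final state through a cut -/
theorem gn_fin_cut (E : Xp P) {k : ℕ} {st1 st2 : List (Stg P)} (hc : E.CutAt k st1 st2) (i : ℕ) :
    E.fin i = Xp.run E.kf i st2 (E.at' k (ancI E.kf k i) st1) := by
  unfold Xp.fin Xp.at'
  rw [hc.1, gn_run_append, gn_run_anc hc.2.2.2.2 i st1 hc.2.1]

/-- the ancestor at a cut of a final interval of a label -/
theorem gn_iv_anc (E : Xp P) (hE : E.Valid) {k : ℕ} (h0 : E.k0 ≤ k) (h1 : k ≤ E.kf) (l : Fin E.L) : ancI E.kf k (E.iv l) ∈ ivs E.k0 E.i0 k := by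
  rw [gn_mem_ivs, gn_anc_anc h0 h1]
  exact hE.iv_in l

theorem gn_at_norm_le (hT : P.Tight) (E : Xp P) (hE : E.Valid) {k : ℕ} {st1 st2 : List (Stg P)} (hc : E.CutAt k st1 st2) (i : ℕ) :
    ‖E.at' k i st1‖ ^ 2 ≤ E.e := by
  refine le_trans ?_ hE.budget
  have := gn_run_norm_le hT k i st1 (gn_cut_stm E hE hc).1 E.v
  unfold Xp.at'
  gcongr

theorem gn_m_nonneg' (E : Xp P) (hE : E.Valid) (l : Fin E.L) : 0 ≤ E.m l :=
  gn_en_nonneg _ _ _ (hE.th_nn l) _

/-- a label reads at most the energy of its test -/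
theorem gn_m_le_ms (hT : P.Tight) (E : Xp P) (hE : E.Valid) (l : Fin E.L) :
    E.m l ≤ P.ms (tmL E.kf (E.iv l)) E.kf E.bT (P.cell (E.ts l) (tmL E.kf (E.iv l)) E.kf) (E.fin (E.iv l)) :=
  gn_en_le_ms _ _ _ (gn_th_mask E hE l) (hT.cellM _ _ _) (hE.th_supp l) _

/-- the labels of one final interval read at most the energy of the state -/
theorem gn_m_sum_iv (hT : P.Tight) (E : Xp P) (hE : E.Valid) (i : ℕ) : ∑ l, (if E.iv l = i then E.m l else 0) ≤ ‖E.fin i‖ ^ 2 := by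
  classical
  have h1 : ∀ l ∈ (Finset.univ : Finset (Fin E.L)), IsMask (fun x => if E.iv l = i then E.th l x else 0) := by
    intro l _
    by_cases h : E.iv l = i
    · simpa [h] using gn_th_mask E hE l
    · simp only [h, if_false]
      exact ⟨measurable_const, fun _ => ⟨le_refl _, zero_le_one⟩⟩
  have h2 : IsMask (fun x => ∑ l, (if E.iv l = i then E.th l x else 0)) := by
    refine ⟨Finset.measurable_fun_sum _ fun l hl => (h1 l hl).1, fun x => ⟨Finset.sum_nonneg fun l hl => ((h1 l hl).2 x).1, hE.th_sum i x⟩⟩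
  have h3 := gn_en_sum (tmL E.kf i) E.kf E.bT Finset.univ (fun l x => if E.iv l = i then E.th l x else 0) h1 (E.fin i)
  have h4 : ∀ l, (if E.iv l = i then E.m l else 0) = P.en (tmL E.kf i) E.kf E.bT (fun x => if E.iv l = i then E.th l x else 0) (E.fin i) := by
    intro l
    by_cases h : E.iv l = i
    · simp only [h, if_true]
      unfold Xp.m
      rw [h]
    · simp only [h, if_false]
      unfold PkSys.en
      simp
  rw [Finset.sum_congr rfl fun l _ => h4 l, ← h3]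
  exact gn_en_le hT _ _ _ h2 _

/-! ## `sel` -/

theorem gn_sel_inj (E : Xp P) (S : Finset (Fin E.L)) : Function.Injective (E.sel S) :=
  (S.orderEmbOfFin rfl).injective

theorem gn_sel_mem (E : Xp P) (S : Finset (Fin E.L)) (a : Fin S.card) : E.sel S a ∈ S :=
  Finset.orderEmbOfFin_mem S rfl a

theorem gn_sel_range (E : Xp P) (S : Finset (Fin E.L)) (l : Fin E.L) : l ∈ Set.range (E.sel S) ↔ l ∈ S := by
  have := Finset.range_orderEmbOfFin S rfl
  unfold Xp.sel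
  rw [this]
  simp

theorem gn_sel_sum (E : Xp P) (S : Finset (Fin E.L)) (f : Fin E.L → ℝ) : ∑ a, f (E.sel S a) = ∑ l ∈ S, f l := by
  classical
  have h : S = Finset.univ.image (E.sel S) := by
    ext l
    rw [Finset.mem_image]
    constructor
    · intro hl
      obtain ⟨a, ha⟩ := (gn_sel_range E S l).2 hl
      exact ⟨a, Finset.mem_univ _, ha⟩
    · rintro ⟨a, _, rfl⟩
      exact gn_sel_mem E S a
  conv_rhs => rw [h]
  rw [Finset.sum_image fun a _ b _ hab => gn_sel_inj E S hab]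

/-! ## `rd`, `val` -/

/-- the term of a label in the cubic readout -/
noncomputable def Xp.tr (E : Xp P) (l : Fin E.L) : ℝ := E.m l ^ (3 / 2 : ℝ) / Real.sqrt (E.w l)

theorem gn_tr_eqns_cite : True := by
  have := @Xp.tr.eq_1
  trivial

theorem gn_tr_nonneg (E : Xp P) (hE : E.Valid) (l : Fin E.L) : 0 ≤ E.tr l := by
  unfold Xp.tr
  have := gn_m_nonneg' E hE l
  positivity

theorem gn_rd_eq (E : Xp P) : E.rd = ∑ l, E.tr l := rfl

theorem gn_rd_nonneg (E : Xp P) (hE : E.Valid) : 0 ≤ E.rd :=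
  Finset.sum_nonneg fun l _ => gn_tr_nonneg E hE l

theorem gn_val_nonneg (E : Xp P) (hE : E.Valid) : 0 ≤ E.val := by
  unfold Xp.val
  have := gn_rd_nonneg E hE
  have := hE.e_pos
  positivity

/-- `rd = 2^(-n/2) e √κ val` -/
theorem gn_rd_of_val (E : Xp P) (hE : E.Valid) : E.rd = 2 ^ (-((E.n : ℝ) / 2)) * (E.e * Real.sqrt E.ka) * E.val := by
  unfold Xp.val
  have h1 := hE.e_pos
  have h2 : 0 < Real.sqrt E.ka := Real.sqrt_pos.mpr hE.ka_pos
  have h3 := gn_two_pos ((E.n : ℝ) / 2)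
  rw [gn_two_neg]
  field_simp

/-- `m^{3/2} w^{-1/2} = √(m/w) m` -/
theorem gn_tr_eq (E : Xp P) (hE : E.Valid) (l : Fin E.L) : E.tr l = Real.sqrt (E.m l / E.w l) * E.m l := by
  unfold Xp.tr
  have h1 := gn_m_nonneg' E hE l
  have h2 := hE.w_pos l
  rw [Real.sqrt_div h1, show (3 / 2 : ℝ) = 1 / 2 + 1 by norm_num]
  rcases h1.eq_or_lt with h0 | h0
  · rw [← h0]
    simp
    left
    exact Real.zero_rpow (by norm_num)
  · rw [Real.rpow_add h0, Real.rpow_one, ← Real.sqrt_eq_rpow]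
    ring

/-- `m ≤ ρ w` gives `m^{3/2} w^{-1/2} ≤ √ρ m` -/
theorem gn_tr_le (E : Xp P) (hE : E.Valid) (l : Fin E.L) {ρ : ℝ} (h : E.m l ≤ ρ * E.w l) : E.tr l ≤ Real.sqrt ρ * E.m l := by
  rw [gn_tr_eq E hE l]
  have h1 := gn_m_nonneg' E hE l
  have h2 := hE.w_pos l
  apply mul_le_mul_of_nonneg_right _ h1
  apply Real.sqrt_le_sqrt
  rwa [div_le_iff₀ h2]

/-- `ρ w ≤ m`, `0 ≤ ρ` gives `√ρ m ≤ m^{3/2} w^{-1/2}` -/
theorem gn_le_tr (E : Xp P) (hE : E.Valid) (l : Fin E.L) {ρ : ℝ} (hρ : 0 ≤ ρ) (h : ρ * E.w l ≤ E.m l) : Real.sqrt ρ * E.m l ≤ E.tr l := by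
  rw [gn_tr_eq E hE l]
  have h1 := gn_m_nonneg' E hE l
  have h2 := hE.w_pos l
  apply mul_le_mul_of_nonneg_right _ h1
  apply Real.sqrt_le_sqrt
  rwa [le_div_iff₀ h2]

/-- `m ≤ ρ w`, `0 ≤ ρ` gives `m^{3/2} w^{-1/2} ≤ ρ^{3/2} w` -/
theorem gn_tr_le_w (E : Xp P) (hE : E.Valid) (l : Fin E.L) {ρ : ℝ} (hρ : 0 ≤ ρ) (h : E.m l ≤ ρ * E.w l) : E.tr l ≤ ρ ^ (3 / 2 : ℝ) * E.w l := by
  have h1 := gn_m_nonneg' E hE l
  have h2 := hE.w_pos l
  calc E.tr l ≤ Real.sqrt ρ * E.m l := gn_tr_le E hE l h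
    _ ≤ Real.sqrt ρ * (ρ * E.w l) := by gcongr
    _ = ρ ^ (3 / 2 : ℝ) * E.w l := by
      rw [show (3 / 2 : ℝ) = 1 / 2 + 1 by norm_num]
      rcases hρ.eq_or_lt with h0 | h0
      · rw [← h0]
        rw [Real.zero_rpow (by norm_num)]
        simp
      · rw [Real.rpow_add h0, Real.rpow_one, ← Real.sqrt_eq_rpow]
        ring

/-! ## `pick` -/

theorem gn_pick_m' (E : Xp P) {L' : ℕ} (φ : Fin L' → Fin E.L) (l : Fin L') :
    (E.pick φ).m l = E.m (φ l) ∧ (E.pick φ).w l = E.w (φ l) ∧ (E.pick φ).tr l = E.tr (φ l) :=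
  ⟨rfl, rfl, rfl⟩

theorem gn_pick_valid' (E : Xp P) (hE : E.Valid) {L' : ℕ} (φ : Fin L' → Fin E.L) (hφ : Function.Injective φ) : (E.pick φ).Valid := by
  classical
  refine ⟨hE.e_pos, hE.ka_pos, hE.budget, hE.plat, hE.reg, hE.st_dep, hE.st_mono, hE.st_meas, hE.st_bd, fun l => hE.iv_in (φ l),
    fun l => hE.ts_ok (φ l), fun l => hE.w_pos (φ l), fun l => hE.th_meas (φ l), fun l => hE.th_nn (φ l), fun l => hE.th_supp (φ l), ?_⟩
  intro i x
  refine le_trans ?_ (hE.th_sum i x)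
  have h1 : ∑ l : Fin L', (if (E.pick φ).iv l = i then (E.pick φ).th l x else 0) = ∑ l ∈ Finset.univ.image φ, (if E.iv l = i then E.th l x else 0) := by
    rw [Finset.sum_image fun a _ b _ hab => hφ hab]
    rfl
  refine h1.le.trans ?_
  apply Finset.sum_le_sum_of_subset_of_nonneg (Finset.subset_univ _)
  intro l _ _
  split_ifs
  · exact hE.th_nn l x
  · exact le_refl _

theorem gn_pick_sel_rd (E : Xp P) (S : Finset (Fin E.L)) : (E.pick (E.sel S)).rd = ∑ l ∈ S, E.tr l := by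
  rw [← gn_sel_sum E S E.tr]
  rfl

/-- `val` of a selection -/
theorem gn_pick_sel_val (E : Xp P) (S : Finset (Fin E.L)) :
    (E.pick (E.sel S)).val = 2 ^ ((E.n : ℝ) / 2) / (E.e * Real.sqrt E.ka) * ∑ l ∈ S, E.tr l := by
  rw [← gn_pick_sel_rd]
  rfl

/-- `val` is additive over a partition of the labels -/
theorem gn_val_split (E : Xp P) (S : Finset (Fin E.L)) : E.val = (E.pick (E.sel S)).val + (E.pick (E.sel Sᶜ)).val := by
  rw [gn_pick_sel_val, gn_pick_sel_val, ← mul_add, Finset.sum_add_sum_compl]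
  rfl

/-! ## the class -/

theorem gn_cls_pick (M : Mdl) (hR : M.AdmRoot) {C A : ℕ} {p : M.Par} {E : Xp (M.sys p)} (hE : M.Cls C A p E) {L' : ℕ} (φ : Fin L' → Fin E.L)
    (hφ : Function.Injective φ) : M.Cls C A p (E.pick φ) :=
  ⟨hE.1, gn_pick_valid' E hE.2.1 φ hφ, hE.2.2.1, hE.2.2.2.1, hR C A p E _ hE.2.2.2.2 ⟨rfl, rfl, rfl, rfl, rfl, rfl⟩ rfl⟩

/-- the class grows with the package -/
theorem gn_cls_mono (M : Mdl) (hS : M.AdmScale) {C C' A : ℕ} (hC : C ≤ C') {p : M.Par} {E : Xp (M.sys p)} (hE : M.Cls C A p E) : M.Cls C' A p E :=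
  ⟨hE.1, hE.2.1, hE.2.2.1.trans hC, ⟨hE.2.2.2.1.1.trans hC, hE.2.2.2.1.2.1.trans hC, fun σ hσ => (hE.2.2.2.1.2.2 σ hσ).trans hC⟩,
    hS C A C' A p E E hE.1 hE.2.2.2.2 ⟨rfl, rfl, rfl, rfl, rfl, rfl⟩ (Nat.mul_le_mul_right _ hC) (le_refl _)⟩

/-- the class shrinks with the tail order -/
theorem gn_cls_anti (M : Mdl) (hS : M.AdmScale) {C A A' : ℕ} (hA : A' ≤ A) {p : M.Par} {E : Xp (M.sys p)} (hE : M.Cls C A p E) : M.Cls C A' p E :=
  ⟨hE.1, hE.2.1, hE.2.2.1, hE.2.2.2.1, hS C A C A' p E E hE.1 hE.2.2.2.2 ⟨rfl, rfl, rfl, rfl, rfl, rfl⟩ (le_refl _) (Nat.mul_le_mul_right _ hA)⟩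

end Claimed.Agent.R256
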