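-- KEEP
import Claimed.Agent.R256.Gen.BasC

/-!
# Row 256, GENERIC THEORY : GAP = regularity transfer over one free gap          (architect helper199; prefix `gn_`)

`Tight + Loc g` give ONE analytic lemma `gn_gap`: a `κ`-regular row function at the cut `(T,k)`, synthesised, is `Cq 2^((ε-g)(k'-k)) κ`-regular at every later nested cut `(T',k')`.
`k' = k` is the repeated cut (`Mdl.Rep`), stacks of gaps give the single time bound (`Mdl.Sgl`): `Gen/Sgl.lean`.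

PROOF (02 l.193-205, l.323-350; 07 l.185-190, l.215-300).  Fix a test `Q` at `(T',k')`, `Λ ≥ 1`, `D = k' - k`, `G = max Cg 1`.  `U j` := union of the cells of the covering `Loc.cov` at `Λ 2^j`,
`V j := U 0 ∪ ... ∪ U j`.   `F = 1_{U 0} F + Σ_{j<J} 1_{U (j+1) \ V j} F + 1_{(V J)ᶜ} F`.   With `B := κ G Λ^G 2^(-g D) wt Q`:
  first term  `ms ≤ ‖1_{U 0} F‖² ≤ B`                                  (contraction, `gn_en_adj_le`)
  shell `j`   `ms ≤ (CN (Λ 2^j)^-N 2^(Cl D))² B 2^((j+1) G)`            (`Loc.ker` for `1_S F`, `S = U (j+1) \ V j`: no row of `S` is `Λ 2^j`-connected to `cell Q`)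
  remainder   `ms ≤ (CN (Λ 2^J)^-N 2^(Cl D))² ‖F‖²  → 0`  as `J → ∞`.
`N ≥ G + 1`: `Σ_j 2^(-jN) 2^((j+1) G / 2) ≤ 2 · 2^(G/2)`.   `Λ = 2^(ε D / G)`, `N ε / G ≥ Cl`: `Λ^-N 2^(Cl D) ≤ 1`, `Λ^G = 2^(ε D)`.   `Cq = G (1 + 2 |CN| 2^(G/2))²`.
-/

set_option autoImplicit false

namespace Claimed.Agent.R256

open MeasureTheory

/-- `κ`-regularity of a row function at the cut `(T,k)` -/
def PkSys.RegF (P : PkSys) (T : ℝ) (k : ℕ) (κ : ℝ) (F : Lp P.Fb 2 (P.rho k)) : Prop :=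
  ∀ Q, P.ok Q k → ∫ x in P.cell Q T k, ‖(F : P.X → P.Fb) x‖ ^ 2 ∂(P.rho k) ≤ κ * P.wt Q

/-- the union of the first `j+1` sets -/
def accU {X : Type} (U : ℕ → Set X) (j : ℕ) : Set X := ⋃ i ∈ Finset.range (j + 1), U i

theorem gn_gap_eqns_cite : True := by
  have := @PkSys.RegF.eq_1
  have := @accU.eq_1
  trivial

variable {P : PkSys}

/-- `Reg` of a state = `RegF` of its analysis -/
theorem gn_regF_an (hT : P.Tight) (T : ℝ) (k b : ℕ) (κ : ℝ) (v : P.Kc) : P.Reg T k b κ v ↔ P.RegF T k κ (P.An T k b v) := by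
  unfold PkSys.Reg PkSys.RegF
  refine forall_congr' fun Q => forall_congr' fun _ => ?_
  rw [gn_ms_eq T k b (hT.cellM Q T k)]

/-- masks preserve `RegF` -/
theorem gn_regF_mulR (hT : P.Tight) {T : ℝ} {k : ℕ} {κ : ℝ} {F : Lp P.Fb 2 (P.rho k)} (h : P.RegF T k κ F) {M : P.X → ℝ} (hM : IsMask M) :
    P.RegF T k κ (P.mulR k M F) := by
  exact fun Q hQ => (gn_mulR_setInt_le k hM (hT.cellM Q T k) F).trans (h Q hQ)

/-- additivity of the restriction in disjoint sets -/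
theorem gn_gapa_split (k : ℕ) {S S₁ S₂ : Set P.X} (h₁ : MeasurableSet S₁) (h₂ : MeasurableSet S₂) (hS : S = S₁ ∪ S₂) (hd : Disjoint S₁ S₂)
    (F : Lp P.Fb 2 (P.rho k)) :
    P.mulR k (S.indicator fun _ => 1) F = P.mulR k (S₁.indicator fun _ => 1) F + P.mulR k (S₂.indicator fun _ => 1) F := by
  subst hS
  apply Lp.ext
  filter_upwards [gn_mulR_coe k (gn_mask_ind (h₁.union h₂)) F, gn_mulR_coe k (gn_mask_ind h₁) F, gn_mulR_coe k (gn_mask_ind h₂) F,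
    Lp.coeFn_add (P.mulR k (S₁.indicator fun _ => 1) F) (P.mulR k (S₂.indicator fun _ => 1) F)] with x a1 a2 a3 a4
  rw [a1, a4, Pi.add_apply, a2, a3, ← add_smul]
  congr 1
  by_cases x1 : x ∈ S₁
  · have x2 : x ∉ S₂ := Set.disjoint_left.1 hd x1
    simp [x1, x2]
  · by_cases x2 : x ∈ S₂ <;> simp [x1, x2]

theorem gn_gapa_tri (T : ℝ) (k c : ℕ) (T' : ℝ) (k' b' : ℕ) {S' : Set P.X} (hS' : MeasurableSet S') {S S₁ S₂ : Set P.X}
    (h₁ : MeasurableSet S₁) (h₂ : MeasurableSet S₂) (hS : S = S₁ ∪ S₂) (hd : Disjoint S₁ S₂) (F : Lp P.Fb 2 (P.rho k)) :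
    Real.sqrt (P.ms T' k' b' S' (ContinuousLinearMap.adjoint (P.An T k c) (P.mulR k (S.indicator fun _ => 1) F))) ≤
      Real.sqrt (P.ms T' k' b' S' (ContinuousLinearMap.adjoint (P.An T k c) (P.mulR k (S₁.indicator fun _ => 1) F))) +
      Real.sqrt (P.ms T' k' b' S' (ContinuousLinearMap.adjoint (P.An T k c) (P.mulR k (S₂.indicator fun _ => 1) F))) := by
  rw [gn_gapa_split k h₁ h₂ hS hd F, map_add]
  exact gn_en_tri T' k' b' (gn_mask_ind hS') _ _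

/-- **(GAP-A)** shell decomposition + triangle inequality (no hypothesis on the sets but measurability).
PLAN: the `J + 2` indicators sum to `1` pointwise (`gn_mulR_sum`, `gn_mulR_one`), the adjoint is additive, `gn_ms_tri_sum`. -/
theorem gn_gap_dec (T : ℝ) (k c : ℕ) (T' : ℝ) (k' b' : ℕ) (U : ℕ → Set P.X) (hU : ∀ j, MeasurableSet (U j)) {S' : Set P.X} (hS' : MeasurableSet S')
    (F : Lp P.Fb 2 (P.rho k)) (J : ℕ) :
    Real.sqrt (P.ms T' k' b' S' (ContinuousLinearMap.adjoint (P.An T k c) F)) ≤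
      Real.sqrt (P.ms T' k' b' S' (ContinuousLinearMap.adjoint (P.An T k c) (P.mulR k ((U 0).indicator fun _ => 1) F))) +
      ∑ j ∈ Finset.range J, Real.sqrt (P.ms T' k' b' S' (ContinuousLinearMap.adjoint (P.An T k c) (P.mulR k ((U (j + 1) \ accU U j).indicator fun _ => 1) F))) +
      Real.sqrt (P.ms T' k' b' S' (ContinuousLinearMap.adjoint (P.An T k c) (P.mulR k ((accU U J)ᶜ.indicator fun _ => 1) F))) := by
  have hA : ∀ j, MeasurableSet (accU U j) := fun j => Finset.measurableSet_biUnion _ (fun i _ => hU i)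
  induction J with
  | zero =>
    have e0 : accU U 0 = U 0 := by
      unfold accU
      simp
    rw [Finset.sum_range_zero, add_zero, e0]
    have h := gn_gapa_tri T k c T' k' b' hS' (S := Set.univ) (hU 0) (hU 0).compl (Set.union_compl_self _).symm
      disjoint_compl_right F
    have e1 : P.mulR k ((Set.univ : Set P.X).indicator fun _ => 1) F = F := by
      have : ((Set.univ : Set P.X).indicator fun _ => (1 : ℝ)) = fun _ => 1 := Set.indicator_univ _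
      rw [this, gn_mulR_one]
    rwa [e1] at h
  | succ J ih =>
    have es : accU U (J + 1) = accU U J ∪ U (J + 1) := by
      unfold accU
      rw [Finset.range_add_one (n := J + 1), Finset.set_biUnion_insert, Set.union_comm]
    have q1 : (accU U J)ᶜ = (U (J + 1) \ accU U J) ∪ (accU U (J + 1))ᶜ := by
      rw [es]
      ext x
      simp only [Set.mem_compl_iff, Set.mem_union, Set.mem_diff, not_or]
      tauto
    have q2 : Disjoint (U (J + 1) \ accU U J) (accU U (J + 1))ᶜ := by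
      rw [es, Set.disjoint_left]
      intro x hx hx'
      exact hx' (Or.inr hx.1)
    have h := gn_gapa_tri T k c T' k' b' hS' ((hU (J + 1)).diff (hA J)) (hA (J + 1)).compl q1 q2 F
    rw [Finset.sum_range_succ]
    linarith

/-- **(GAP-B)** the energy of a regular row function on a finite union of cells -/
theorem gn_regF_cover (hT : P.Tight) {T : ℝ} {k : ℕ} {κ : ℝ} {F : Lp P.Fb 2 (P.rho k)} (h : P.RegF T k κ F) {m : ℕ} (Qs : Fin m → P.Tst)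
    (hQ : ∀ i, P.ok (Qs i) k) {S : Set P.X} (hS : MeasurableSet S) (hsub : S ⊆ ⋃ i, P.cell (Qs i) T k) :
    ‖P.mulR k (S.indicator fun _ => 1) F‖ ^ 2 ≤ κ * ∑ i, P.wt (Qs i) := by
  rw [gn_mulR_ind_normsq k hS, Finset.mul_sum]
  obtain ⟨g, hg⟩ : ∃ g : P.X → ℝ, g = fun x => ‖(F : P.X → P.Fb) x‖ ^ 2 := ⟨_, rfl⟩
  have hgi : Integrable g (P.rho k) := by
    rw [hg]
    exact gn_sq_integrable F
  have hg0 : ∀ x, 0 ≤ g x := fun x => by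
    rw [hg]
    positivity
  have hc : ∀ i, MeasurableSet (P.cell (Qs i) T k) := fun i => hT.cellM _ _ _
  have hreg : ∀ i, ∫ x in P.cell (Qs i) T k, g x ∂(P.rho k) ≤ κ * P.wt (Qs i) := fun i => by
    rw [hg]
    exact h (Qs i) (hQ i)
  have e0 : ∫ x in S, ‖(F : P.X → P.Fb) x‖ ^ 2 ∂(P.rho k) = ∫ x in S, g x ∂(P.rho k) := by rw [hg]
  rw [e0]
  calc ∫ x in S, g x ∂(P.rho k) = ∫ x, S.indicator g x ∂(P.rho k) := (integral_indicator hS).symm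
    _ ≤ ∫ x, ∑ i, (P.cell (Qs i) T k).indicator g x ∂(P.rho k) := by
        refine integral_mono (hgi.indicator hS) (integrable_finset_sum _ fun i _ => hgi.indicator (hc i)) fun x => ?_
        by_cases hx : x ∈ S
        · obtain ⟨i0, hi0⟩ := Set.mem_iUnion.1 (hsub hx)
          rw [Set.indicator_of_mem hx]
          calc g x = (P.cell (Qs i0) T k).indicator g x := (Set.indicator_of_mem hi0 g).symm
            _ ≤ ∑ i, (P.cell (Qs i) T k).indicator g x :=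
                Finset.single_le_sum (f := fun i => (P.cell (Qs i) T k).indicator g x)
                  (fun i _ => Set.indicator_nonneg (fun y _ => hg0 y) x) (Finset.mem_univ i0)
        · rw [Set.indicator_of_notMem hx]
          exact Finset.sum_nonneg fun i _ => Set.indicator_nonneg (fun y _ => hg0 y) x
    _ = ∑ i, ∫ x, (P.cell (Qs i) T k).indicator g x ∂(P.rho k) := integral_finset_sum _ fun i _ => hgi.indicator (hc i)
    _ = ∑ i, ∫ x in P.cell (Qs i) T k, g x ∂(P.rho k) := Finset.sum_congr rfl fun i _ => integral_indicator (hc i)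
    _ ≤ ∑ i, κ * P.wt (Qs i) := Finset.sum_le_sum fun i _ => hreg i

/-- the factor `(Λ 2^j)^-N W` is at most `2^(-jN)` -/
theorem gn_gap_num_q (Λ W : ℝ) (N j : ℕ) (hΛ : 1 ≤ Λ) (hW : 0 ≤ W) (hΛW : Λ ^ (-(N : ℝ)) * W ≤ 1) :
    0 ≤ (Λ * 2 ^ j) ^ (-(N : ℝ)) * W ∧ (Λ * 2 ^ j) ^ (-(N : ℝ)) * W ≤ (2 : ℝ) ^ (-((j : ℝ) * N)) := by
  have hΛ0 : 0 ≤ Λ := by linarith
  have h2 : (0 : ℝ) ≤ 2 ^ j := by positivity
  constructor
  · exact mul_nonneg (Real.rpow_nonneg (mul_nonneg hΛ0 h2) _) hW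
  · have e : ((2 : ℝ) ^ j) ^ (-(N : ℝ)) = (2 : ℝ) ^ (-((j : ℝ) * N)) := by
      rw [← Real.rpow_natCast 2 j, ← Real.rpow_mul (by norm_num)]
      congr 1
      ring
    rw [Real.mul_rpow hΛ0 h2, e]
    have h3 : (0 : ℝ) ≤ (2 : ℝ) ^ (-((j : ℝ) * N)) := Real.rpow_nonneg (by norm_num) _
    calc Λ ^ (-(N : ℝ)) * (2 : ℝ) ^ (-((j : ℝ) * N)) * W = (Λ ^ (-(N : ℝ)) * W) * (2 : ℝ) ^ (-((j : ℝ) * N)) := by ring
      _ ≤ 1 * (2 : ℝ) ^ (-((j : ℝ) * N)) := mul_le_mul_of_nonneg_right hΛW h3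
      _ = _ := one_mul _

/-- **(GAP-C)** numerics of the shell sum.   `√ms ≤ a0 + Σ_{j<J} a j + r J` for all `J` with `a0² ≤ B`, `(a j)² ≤ (c (Λ 2^j)^-N W)² B 2^((j+1) G)`, `(r J)² ≤ (c (Λ 2^J)^-N W)² R`,
`G + 1 ≤ N`, `Λ^-N W ≤ 1` give `x ≤ B (1 + 2 c 2^(G/2))²`.   PLAN: `a j ≤ c √B 2^(G/2) 2^-j`, geometric sum `≤ 2`, `r J → 0` (`ge_of_tendsto` / `le_of_forall_pos_le_add`). -/
theorem gn_gap_num (x B R c Λ W G : ℝ) (N : ℕ) (a r : ℕ → ℝ) (a0 : ℝ) (hx : 0 ≤ x) (hB : 0 ≤ B) (hR : 0 ≤ R) (hc : 0 ≤ c) (hΛ : 1 ≤ Λ) (hW : 0 ≤ W) (hG : 1 ≤ G)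
    (hN : G + 1 ≤ N) (hΛW : Λ ^ (-(N : ℝ)) * W ≤ 1) (ha0 : 0 ≤ a0) (ha : ∀ j, 0 ≤ a j) (hr : ∀ j, 0 ≤ r j)
    (h0 : a0 ^ 2 ≤ B) (h1 : ∀ j, a j ^ 2 ≤ (c * (Λ * 2 ^ j) ^ (-(N : ℝ)) * W) ^ 2 * (B * 2 ^ (((j : ℝ) + 1) * G)))
    (h2 : ∀ J, r J ^ 2 ≤ (c * (Λ * 2 ^ J) ^ (-(N : ℝ)) * W) ^ 2 * R)
    (hs : ∀ J, Real.sqrt x ≤ a0 + ∑ j ∈ Finset.range J, a j + r J) :
    x ≤ B * (1 + 2 * c * 2 ^ (G / 2)) ^ 2 := by
  have two0 : (0 : ℝ) < 2 := by norm_num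
  have hhalf : ∀ j : ℕ, (1 / (2 : ℝ)) ^ j = (2 : ℝ) ^ (-(j : ℝ)) := by
    intro j
    rw [Real.rpow_neg two0.le, Real.rpow_natCast, one_div, inv_pow]
  have hsq : ∀ y : ℝ, ((2 : ℝ) ^ y) ^ 2 = (2 : ℝ) ^ (y * 2) := by
    intro y
    rw [Real.rpow_mul two0.le, Real.rpow_two]
  have hsB : 0 ≤ Real.sqrt B := Real.sqrt_nonneg B
  have hsR : 0 ≤ Real.sqrt R := Real.sqrt_nonneg R
  have hg2 : 0 < (2 : ℝ) ^ (G / 2) := Real.rpow_pos_of_pos two0 _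
  -- first term
  have b0 : a0 ≤ Real.sqrt B := Real.le_sqrt_of_sq_le h0
  -- the shells
  have b1 : ∀ j, a j ≤ c * Real.sqrt B * 2 ^ (G / 2) * (1 / (2 : ℝ)) ^ j := by
    intro j
    obtain ⟨q0, q1⟩ := gn_gap_num_q Λ W N j hΛ hW hΛW
    have hrhs : 0 ≤ c * Real.sqrt B * 2 ^ (G / 2) * (1 / (2 : ℝ)) ^ j := by positivity
    rw [← sq_le_sq₀ (ha j) hrhs]
    refine (h1 j).trans ?_
    have e1 : c * (Λ * 2 ^ j) ^ (-(N : ℝ)) * W = c * ((Λ * 2 ^ j) ^ (-(N : ℝ)) * W) := by ring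
    rw [e1]
    have hp : (0 : ℝ) ≤ 2 ^ (((j : ℝ) + 1) * G) := Real.rpow_nonneg two0.le _
    have s1 : (c * ((Λ * 2 ^ j) ^ (-(N : ℝ)) * W)) ^ 2 ≤ (c * (2 : ℝ) ^ (-((j : ℝ) * N))) ^ 2 :=
      pow_le_pow_left₀ (mul_nonneg hc q0) (mul_le_mul_of_nonneg_left q1 hc) 2
    refine (mul_le_mul_of_nonneg_right s1 (mul_nonneg hB hp)).trans ?_
    have e2 : (c * Real.sqrt B * 2 ^ (G / 2) * (1 / (2 : ℝ)) ^ j) ^ 2 = c ^ 2 * B * ((2 : ℝ) ^ (G / 2) * (2 : ℝ) ^ (-(j : ℝ))) ^ 2 := by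
      rw [hhalf j]
      have : Real.sqrt B ^ 2 = B := Real.sq_sqrt hB
      calc (c * Real.sqrt B * 2 ^ (G / 2) * (2 : ℝ) ^ (-(j : ℝ))) ^ 2 = c ^ 2 * Real.sqrt B ^ 2 * ((2 : ℝ) ^ (G / 2) * (2 : ℝ) ^ (-(j : ℝ))) ^ 2 := by ring
        _ = _ := by rw [this]
    rw [e2]
    have e3 : (c * (2 : ℝ) ^ (-((j : ℝ) * N))) ^ 2 * (B * 2 ^ (((j : ℝ) + 1) * G)) = c ^ 2 * B * (((2 : ℝ) ^ (-((j : ℝ) * N))) ^ 2 * 2 ^ (((j : ℝ) + 1) * G)) := by ring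
    rw [e3]
    refine mul_le_mul_of_nonneg_left ?_ (by positivity)
    have e4 : ((2 : ℝ) ^ (-((j : ℝ) * N))) ^ 2 * 2 ^ (((j : ℝ) + 1) * G) = (2 : ℝ) ^ (-((j : ℝ) * N) * 2 + ((j : ℝ) + 1) * G) := by
      rw [hsq, ← Real.rpow_add two0]
    have e5 : ((2 : ℝ) ^ (G / 2) * (2 : ℝ) ^ (-(j : ℝ))) ^ 2 = (2 : ℝ) ^ ((G / 2 + -(j : ℝ)) * 2) := by
      rw [← Real.rpow_add two0, hsq]
    rw [e4, e5]
    refine Real.rpow_le_rpow_of_exponent_le (by norm_num) ?_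
    have hj : (0 : ℝ) ≤ j := Nat.cast_nonneg j
    nlinarith
  -- the remainder
  have b2 : ∀ J, r J ≤ c * Real.sqrt R * (1 / (2 : ℝ)) ^ J := by
    intro J
    obtain ⟨q0, q1⟩ := gn_gap_num_q Λ W N J hΛ hW hΛW
    have hrhs : 0 ≤ c * Real.sqrt R * (1 / (2 : ℝ)) ^ J := by positivity
    rw [← sq_le_sq₀ (hr J) hrhs]
    refine (h2 J).trans ?_
    have e1 : c * (Λ * 2 ^ J) ^ (-(N : ℝ)) * W = c * ((Λ * 2 ^ J) ^ (-(N : ℝ)) * W) := by ring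
    rw [e1]
    have q2 : (2 : ℝ) ^ (-((J : ℝ) * N)) ≤ (1 / (2 : ℝ)) ^ J := by
      rw [hhalf J]
      refine Real.rpow_le_rpow_of_exponent_le (by norm_num) ?_
      have hJ : (0 : ℝ) ≤ J := Nat.cast_nonneg J
      nlinarith
    have s1 : (c * ((Λ * 2 ^ J) ^ (-(N : ℝ)) * W)) ^ 2 ≤ (c * (1 / (2 : ℝ)) ^ J) ^ 2 :=
      pow_le_pow_left₀ (mul_nonneg hc q0) (mul_le_mul_of_nonneg_left (q1.trans q2) hc) 2
    refine (mul_le_mul_of_nonneg_right s1 hR).trans ?_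
    have : Real.sqrt R ^ 2 = R := Real.sq_sqrt hR
    calc (c * (1 / (2 : ℝ)) ^ J) ^ 2 * R = (c * (1 / (2 : ℝ)) ^ J) ^ 2 * Real.sqrt R ^ 2 := by rw [this]
      _ = (c * Real.sqrt R * (1 / (2 : ℝ)) ^ J) ^ 2 := by ring
      _ ≤ _ := le_rfl
  -- all `J`
  have b3 : ∀ J : ℕ, Real.sqrt x ≤ Real.sqrt B * (1 + 2 * c * 2 ^ (G / 2)) + c * Real.sqrt R * (1 / (2 : ℝ)) ^ J := by
    intro J
    have s1 : ∑ j ∈ Finset.range J, a j ≤ c * Real.sqrt B * 2 ^ (G / 2) * 2 := by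
      calc ∑ j ∈ Finset.range J, a j ≤ ∑ j ∈ Finset.range J, c * Real.sqrt B * 2 ^ (G / 2) * (1 / (2 : ℝ)) ^ j :=
            Finset.sum_le_sum fun j _ => b1 j
        _ = c * Real.sqrt B * 2 ^ (G / 2) * ∑ j ∈ Finset.range J, (1 / (2 : ℝ)) ^ j := by rw [Finset.mul_sum]
        _ ≤ c * Real.sqrt B * 2 ^ (G / 2) * 2 := mul_le_mul_of_nonneg_left (sum_geometric_two_le J) (by positivity)
    have := hs J
    have := b2 J
    nlinarith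
  have lim : Filter.Tendsto (fun J : ℕ => Real.sqrt B * (1 + 2 * c * 2 ^ (G / 2)) + c * Real.sqrt R * (1 / (2 : ℝ)) ^ J) Filter.atTop
      (nhds (Real.sqrt B * (1 + 2 * c * 2 ^ (G / 2)) + c * Real.sqrt R * 0)) :=
    (tendsto_const_nhds).add ((tendsto_pow_atTop_nhds_zero_of_lt_one (by norm_num) (by norm_num)).const_mul _)
  have b4 : Real.sqrt x ≤ Real.sqrt B * (1 + 2 * c * 2 ^ (G / 2)) := by
    have := ge_of_tendsto' lim b3
    simpa using this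
  calc x = Real.sqrt x ^ 2 := (Real.sq_sqrt hx).symm
    _ ≤ (Real.sqrt B * (1 + 2 * c * 2 ^ (G / 2))) ^ 2 := pow_le_pow_left₀ (Real.sqrt_nonneg x) b4 2
    _ = Real.sqrt B ^ 2 * (1 + 2 * c * 2 ^ (G / 2)) ^ 2 := by ring
    _ = B * (1 + 2 * c * 2 ^ (G / 2)) ^ 2 := by rw [Real.sq_sqrt hB]

/-- `Cg Λ^Cg ≤ G Λ^G`, `G = max Cg 1` -/
theorem gn_gap_aux_cg (Cg Λ : ℝ) (hΛ : 1 ≤ Λ) : Cg * Λ ^ Cg ≤ max Cg 1 * Λ ^ (max Cg 1) := by
  have h0 : 0 ≤ Λ ^ Cg := Real.rpow_nonneg (by linarith) _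
  have h1 : Λ ^ Cg ≤ Λ ^ (max Cg 1) := Real.rpow_le_rpow_of_exponent_le hΛ (le_max_left _ _)
  have h2 : (0 : ℝ) ≤ max Cg 1 := le_trans zero_le_one (le_max_right _ _)
  calc Cg * Λ ^ Cg ≤ max Cg 1 * Λ ^ Cg := mul_le_mul_of_nonneg_right (le_max_left _ _) h0
    _ ≤ max Cg 1 * Λ ^ (max Cg 1) := mul_le_mul_of_nonneg_left h1 h2

/-- the weight of the covering at `Λ 2^j` -/
theorem gn_gap_aux_wt (Cg Λ E w κ s : ℝ) (j : ℕ) (hΛ : 1 ≤ Λ) (hE : 0 ≤ E) (hw : 0 ≤ w) (hκ : 0 ≤ κ)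
    (hs : s ≤ Cg * (Λ * 2 ^ j) ^ Cg * E * w) :
    κ * s ≤ κ * (max Cg 1 * Λ ^ (max Cg 1) * E * w) * 2 ^ ((j : ℝ) * max Cg 1) := by
  have h2 : (1 : ℝ) ≤ 2 ^ j := one_le_pow₀ (by norm_num)
  have hΛj : 1 ≤ Λ * 2 ^ j := by nlinarith
  have h3 := gn_gap_aux_cg Cg (Λ * 2 ^ j) hΛj
  have e : (Λ * 2 ^ j) ^ (max Cg 1) = Λ ^ (max Cg 1) * 2 ^ ((j : ℝ) * max Cg 1) := by
    rw [Real.mul_rpow (by linarith) (by positivity), ← Real.rpow_natCast 2 j, ← Real.rpow_mul (by norm_num)]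
  rw [e] at h3
  calc κ * s ≤ κ * (Cg * (Λ * 2 ^ j) ^ Cg * E * w) := mul_le_mul_of_nonneg_left hs hκ
    _ ≤ κ * (max Cg 1 * (Λ ^ (max Cg 1) * 2 ^ ((j : ℝ) * max Cg 1)) * E * w) :=
        mul_le_mul_of_nonneg_left (mul_le_mul_of_nonneg_right (mul_le_mul_of_nonneg_right h3 hE) hw) hκ
    _ = _ := by ring

theorem gn_gap_aux_acc {X : Type} (U : ℕ → Set X) (j : ℕ) : U j ⊆ accU U j := by
  intro x hx
  unfold accU
  exact Set.mem_biUnion (Finset.mem_range.2 (Nat.lt_succ_self j)) hx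

theorem gn_gap_aux_accM {X : Type} [MeasurableSpace X] (U : ℕ → Set X) (hU : ∀ j, MeasurableSet (U j)) (j : ℕ) : MeasurableSet (accU U j) := by
  unfold accU
  exact Finset.measurableSet_biUnion _ fun i _ => hU i

theorem gn_gap_aux_ind {P : PkSys} (k : ℕ) {S : Set P.X} (hS : MeasurableSet S) (F : Lp P.Fb 2 (P.rho k)) :
    P.mulR k (S.indicator fun _ => 1) (P.mulR k (S.indicator fun _ => 1) F) = P.mulR k (S.indicator fun _ => 1) F := by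
  rw [gn_mulR_mulR k (gn_mask_ind hS) (gn_mask_ind hS)]
  congr 1
  funext x
  by_cases hx : x ∈ S <;> simp [hx]

/-- **(GAP-D)** one test, fixed `Λ`, `N`.   PLAN: choose the coverings `Loc.cov` at `Λ 2^j` for all `j` (`choose`), `U j` = union of the cells; `gn_gap_dec`; first term `gn_en_adj_le` + `gn_regF_cover`;
shells and remainder `Loc.ker` applied to `P.mulR k 1_S F` (`gn_mulR_mulR`: `1_S 1_S = 1_S`) + `gn_regF_cover`; `Cg Λ^Cg ≤ G Λ^G`; `gn_gap_num` with `c = |CN bm N|`, `W = 2^(Cl D)`, `R = ‖F‖²`. -/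
theorem gn_gap_one (M : Mdl) (g : ℝ) (L : M.Loc g) (hT : ∀ p, M.gd p → (M.sys p).Tight) (bm N : ℕ) (Λ : ℝ) (hΛ : 1 ≤ Λ) (hN : max L.Cg 1 + 1 ≤ N)
    (p : M.Par) (hp : M.gd p) (T : ℝ) (k : ℕ) (T' : ℝ) (k' c b' : ℕ) (κ : ℝ) (F : Lp (M.sys p).Fb 2 ((M.sys p).rho k)) (hcut : CutLe T k T' k') (hc : c ≤ bm) (hb : b' ≤ bm)
    (hF : (M.sys p).RegF T k κ F) (hΛW : Λ ^ (-(N : ℝ)) * 2 ^ (L.Cl * ((k' : ℝ) - k)) ≤ 1) (Q : (M.sys p).Tst) (hQ : (M.sys p).ok Q k') :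
    (M.sys p).ms T' k' b' ((M.sys p).cell Q T' k') (ContinuousLinearMap.adjoint ((M.sys p).An T k c) F) ≤
      κ * (max L.Cg 1 * Λ ^ (max L.Cg 1) * 2 ^ (-(g * ((k' : ℝ) - k))) * (M.sys p).wt Q) * (1 + 2 * |L.CN bm N| * 2 ^ (max L.Cg 1 / 2)) ^ 2 := by
  have hTp := hT p hp
  have hw : 0 < (M.sys p).wt Q := hTp.wt_pos Q k' hQ
  have hκ : 0 ≤ κ := by
    have h1 := hF Q (hTp.ok_mono Q k k' hcut.1 hQ)
    have h2 : 0 ≤ ∫ x in (M.sys p).cell Q T k, ‖(F : (M.sys p).X → (M.sys p).Fb) x‖ ^ 2 ∂((M.sys p).rho k) :=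
      integral_nonneg fun x => by positivity
    by_contra hneg
    push Not at hneg
    nlinarith
  have hΛj : ∀ j : ℕ, 1 ≤ Λ * 2 ^ j := fun j => by
    have h2 : (1 : ℝ) ≤ 2 ^ j := one_le_pow₀ (by norm_num)
    nlinarith
  choose m Qs hok hcov hwt using fun j : ℕ => L.cov p hp (Λ * 2 ^ j) (hΛj j) T k T' k' hcut Q hQ
  obtain ⟨U, hUdef⟩ : ∃ U : ℕ → Set (M.sys p).X, U = fun j => ⋃ i, (M.sys p).cell (Qs j i) T k := ⟨_, rfl⟩
  have hUsub : ∀ j, U j ⊆ ⋃ i, (M.sys p).cell (Qs j i) T k := fun j => by rw [hUdef]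
  have hU : ∀ j, MeasurableSet (U j) := fun j => by
    rw [hUdef]
    exact MeasurableSet.iUnion fun i => hTp.cellM _ _ _
  have hS' : MeasurableSet ((M.sys p).cell Q T' k') := hTp.cellM _ _ _
  have hE : (0 : ℝ) ≤ 2 ^ (-(g * ((k' : ℝ) - k))) := (gn_two_pos _).le
  have hno : ∀ j, ∀ x, x ∉ accU U j → ∀ x' ∈ (M.sys p).cell Q T' k', ¬ L.cn p (Λ * 2 ^ j) T k T' k' x x' := by
    intro j x hx x' hx' hcn
    obtain ⟨i, hi⟩ := hcov j x x' hx' hcn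
    apply hx
    apply gn_gap_aux_acc U j
    rw [hUdef]
    exact Set.mem_iUnion.2 ⟨i, hi⟩
  have hsqc : ∀ a b : ℝ, (L.CN bm N * a * b) ^ 2 = (|L.CN bm N| * a * b) ^ 2 := by
    intro a b
    rw [mul_pow, mul_pow, mul_pow, mul_pow, sq_abs]
  have hcv : ∀ j, ∀ S : Set (M.sys p).X, MeasurableSet S → S ⊆ U j →
      ‖(M.sys p).mulR k (S.indicator fun _ => 1) F‖ ^ 2 ≤
        κ * (max L.Cg 1 * Λ ^ (max L.Cg 1) * 2 ^ (-(g * ((k' : ℝ) - k))) * (M.sys p).wt Q) * 2 ^ ((j : ℝ) * max L.Cg 1) := by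
    intro j S hS hsub
    exact (gn_regF_cover hTp hF (Qs j) (hok j) hS (hsub.trans (hUsub j))).trans
      (gn_gap_aux_wt L.Cg Λ _ _ κ _ j hΛ hE hw.le hκ (hwt j))
  refine gn_gap_num _ (κ * (max L.Cg 1 * Λ ^ (max L.Cg 1) * 2 ^ (-(g * ((k' : ℝ) - k))) * (M.sys p).wt Q)) (‖F‖ ^ 2) |L.CN bm N| Λ
    (2 ^ (L.Cl * ((k' : ℝ) - k))) (max L.Cg 1) N
    (fun j => Real.sqrt ((M.sys p).ms T' k' b' ((M.sys p).cell Q T' k')
      (ContinuousLinearMap.adjoint ((M.sys p).An T k c) ((M.sys p).mulR k ((U (j + 1) \ accU U j).indicator fun _ => 1) F))))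
    (fun J => Real.sqrt ((M.sys p).ms T' k' b' ((M.sys p).cell Q T' k')
      (ContinuousLinearMap.adjoint ((M.sys p).An T k c) ((M.sys p).mulR k ((accU U J)ᶜ.indicator fun _ => 1) F))))
    (Real.sqrt ((M.sys p).ms T' k' b' ((M.sys p).cell Q T' k')
      (ContinuousLinearMap.adjoint ((M.sys p).An T k c) ((M.sys p).mulR k ((U 0).indicator fun _ => 1) F))))
    (gn_ms_nonneg _ _ _ _ _) ?_ (by positivity) (abs_nonneg _) hΛ (gn_two_pos _).le (le_max_right _ _) hN hΛW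
    (Real.sqrt_nonneg _) (fun _ => Real.sqrt_nonneg _) (fun _ => Real.sqrt_nonneg _) ?_ ?_ ?_ ?_
  · have : (0 : ℝ) ≤ max L.Cg 1 := le_trans zero_le_one (le_max_right _ _)
    have h3 : 0 ≤ Λ ^ (max L.Cg 1) := Real.rpow_nonneg (by linarith) _
    positivity
  · rw [Real.sq_sqrt (gn_ms_nonneg _ _ _ _ _)]
    refine (gn_en_adj_le hTp T k c T' k' b' (gn_mask_ind hS') _).trans ?_
    have := hcv 0 (U 0) (hU 0) subset_rfl
    simpa using this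
  · intro j
    show Real.sqrt _ ^ 2 ≤ _
    rw [Real.sq_sqrt (gn_ms_nonneg _ _ _ _ _)]
    have hS : MeasurableSet (U (j + 1) \ accU U j) := (hU (j + 1)).diff (gn_gap_aux_accM U hU j)
    have h1 := L.ker p hp bm N (Λ * 2 ^ j) (hΛj j) T k T' k' c b' hcut hc hb (U (j + 1) \ accU U j) ((M.sys p).cell Q T' k') hS hS'
      (fun x hx => hno j x hx.2) ((M.sys p).mulR k ((U (j + 1) \ accU U j).indicator fun _ => 1) F)
    rw [gn_gap_aux_ind k hS, hsqc] at h1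
    refine h1.trans (mul_le_mul_of_nonneg_left ?_ (sq_nonneg _))
    have h2 := hcv (j + 1) _ hS Set.sdiff_subset
    push_cast at h2
    exact h2
  · intro J
    show Real.sqrt _ ^ 2 ≤ _
    rw [Real.sq_sqrt (gn_ms_nonneg _ _ _ _ _)]
    have hS : MeasurableSet (accU U J)ᶜ := (gn_gap_aux_accM U hU J).compl
    have h1 := L.ker p hp bm N (Λ * 2 ^ J) (hΛj J) T k T' k' c b' hcut hc hb (accU U J)ᶜ ((M.sys p).cell Q T' k') hS hS'
      (fun x hx => hno J x hx) F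
    rw [hsqc] at h1
    exact h1
  · intro J
    exact gn_gap_dec T k c T' k' b' U hU hS' F J

/-- **GAP**.   PLAN: `G = max Cg 1`, `N = ⌈max (G + 1) (|Cl| G / ε)⌉₊`, `Λ = 2^(ε (k'-k) / G)`, `gn_gap_one`. -/
theorem gn_gap (M : Mdl) (g : ℝ) (L : M.Loc g) (hT : ∀ p, M.gd p → (M.sys p).Tight) (bm : ℕ) (ε : ℝ) (hε : 0 < ε) :
    ∃ Cq : ℝ, 1 ≤ Cq ∧ ∀ (p : M.Par) (T : ℝ) (k : ℕ) (T' : ℝ) (k' c b' : ℕ) (κ : ℝ) (F : Lp (M.sys p).Fb 2 ((M.sys p).rho k)),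
      M.gd p → CutLe T k T' k' → c ≤ bm → b' ≤ bm → (M.sys p).RegF T k κ F →
      (M.sys p).Reg T' k' b' (Cq * 2 ^ ((ε - g) * ((k' : ℝ) - k)) * κ) (ContinuousLinearMap.adjoint ((M.sys p).An T k c) F) := by
  obtain ⟨G, hG⟩ : ∃ G : ℝ, G = max L.Cg 1 := ⟨_, rfl⟩
  have hG1 : 1 ≤ G := by rw [hG]; exact le_max_right _ _
  obtain ⟨N, hN⟩ : ∃ N : ℕ, N = ⌈max (G + 1) (|L.Cl| * G / ε)⌉₊ := ⟨_, rfl⟩
  have hN0 : max (G + 1) (|L.Cl| * G / ε) ≤ N := by rw [hN]; exact Nat.le_ceil _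
  have hN1 : G + 1 ≤ N := (le_max_left _ _).trans hN0
  have hN2 : |L.Cl| * G / ε ≤ N := (le_max_right _ _).trans hN0
  have hq : 0 ≤ 2 * |L.CN bm N| * 2 ^ (G / 2) := by
    have := gn_two_pos (G / 2)
    positivity
  refine ⟨G * (1 + 2 * |L.CN bm N| * 2 ^ (G / 2)) ^ 2, ?_, ?_⟩
  · have : 1 ≤ (1 + 2 * |L.CN bm N| * 2 ^ (G / 2)) ^ 2 := one_le_pow₀ (by linarith)
    nlinarith
  intro p T k T' k' c b' κ F hp hcut hc hb hF Q hQ
  have hD : (0 : ℝ) ≤ (k' : ℝ) - k := by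
    have : (k : ℝ) ≤ k' := by exact_mod_cast hcut.1
    linarith
  have hΛ : (1 : ℝ) ≤ 2 ^ (ε * ((k' : ℝ) - k) / G) := Real.one_le_rpow (by norm_num) (by positivity)
  have hΛW : ((2 : ℝ) ^ (ε * ((k' : ℝ) - k) / G)) ^ (-(N : ℝ)) * 2 ^ (L.Cl * ((k' : ℝ) - k)) ≤ 1 := by
    rw [gn_two_mul, ← gn_two_add]
    refine Real.rpow_le_one_of_one_le_of_nonpos (by norm_num) ?_
    have h1 : |L.Cl| * G ≤ N * ε := by rwa [div_le_iff₀ hε] at hN2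
    have h2 : L.Cl ≤ N * ε / G := by
      rw [le_div_iff₀ (by linarith)]
      exact (mul_le_mul_of_nonneg_right (le_abs_self _) (by linarith)).trans h1
    have e : ε * ((k' : ℝ) - k) / G * -(N : ℝ) + L.Cl * ((k' : ℝ) - k) = (L.Cl - N * ε / G) * ((k' : ℝ) - k) := by
      field_simp
      ring
    rw [e]
    exact mul_nonpos_of_nonpos_of_nonneg (by linarith) hD
  have key := gn_gap_one M g L hT bm N _ hΛ (by rw [← hG]; exact hN1) p hp T k T' k' c b' κ F hcut hc hb hF hΛW Q hQ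
  rw [← hG] at key
  refine key.trans (le_of_eq ?_)
  have e1 : ((2 : ℝ) ^ (ε * ((k' : ℝ) - k) / G)) ^ G = 2 ^ (ε * ((k' : ℝ) - k)) := by
    rw [gn_two_mul]
    congr 1
    field_simp
  have e2 : (2 : ℝ) ^ ((ε - g) * ((k' : ℝ) - k)) = 2 ^ (ε * ((k' : ℝ) - k)) * 2 ^ (-(g * ((k' : ℝ) - k))) := by
    rw [← gn_two_add]
    congr 1
    ring
  rw [e1, e2]
  ring

end Claimed.Agent.R256
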