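-- KEEP
import Claimed.Agent.R256.Gen.Gap

/-!
# Row 256, GENERIC THEORY : REP, SGL          (statements helper207; architect helper199; prefix `gn_`)

Paper free, on `gn_gap`.
-/

set_option autoImplicit false

namespace Claimed.Agent.R256

open MeasureTheory

/-- **(GN-REP)**  `Tight + Loc ⟹ Rep`.   PLAN: `gn_gap` with `ε = 1`, `k' = k`, `T' = T` (`gn_cutle_refl`): the power is `2^0 = 1`. -/
theorem gn_rep (M : Mdl) (g : ℝ) (L : M.Loc g) (hT : ∀ p, M.gd p → (M.sys p).Tight) : M.Rep := by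
  intro bm
  obtain ⟨Cq, hCq, H⟩ := gn_gap M g L hT bm 1 one_pos
  refine ⟨Cq, hCq, ?_⟩
  intro p T k c b' κ F hp hc hb hF
  have := H p T k T k c b' κ F hp (gn_cutle_refl T k) hc hb hF
  simpa using this

/-- the tail of an admissible stack -/
theorem gn_stok_tail {P : PkSys} {k kf bm K : ℕ} {σ : Stg P} {l : List (Stg P)} (h : StOk k kf bm (K + 1) (σ :: l)) : StOk σ.k kf bm K l where
  len := by
    have := h.len
    simp only [List.length_cons] at this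
    omega
  dep := fun σ' hσ' => ⟨(List.pairwise_cons.1 h.mono).1 σ' hσ', (h.dep σ' (List.mem_cons_of_mem _ hσ')).2⟩
  mono := (List.pairwise_cons.1 h.mono).2
  gen := fun σ' hσ' => h.gen σ' (List.mem_cons_of_mem _ hσ')
  msk := fun σ' hσ' => h.msk σ' (List.mem_cons_of_mem _ hσ')

theorem gn_stack_reg_aux (M : Mdl) (g : ℝ) (hT : ∀ p, M.gd p → (M.sys p).Tight) (bm : ℕ) (ε Cq : ℝ) (hCq : 1 ≤ Cq)
    (H : ∀ (p : M.Par) (T : ℝ) (k : ℕ) (T' : ℝ) (k' c b' : ℕ) (κ : ℝ) (F : Lp (M.sys p).Fb 2 ((M.sys p).rho k)),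
      M.gd p → CutLe T k T' k' → c ≤ bm → b' ≤ bm → (M.sys p).RegF T k κ F →
      (M.sys p).Reg T' k' b' (Cq * 2 ^ ((ε - g) * ((k' : ℝ) - k)) * κ) (ContinuousLinearMap.adjoint ((M.sys p).An T k c) F)) (K : ℕ) :
    ∀ (p : M.Par) (kf i k c b' : ℕ) (l : List (Stg (M.sys p))) (κ : ℝ) (F : Lp (M.sys p).Fb 2 ((M.sys p).rho k)),
      M.gd p → StOk k kf bm K l → k ≤ kf → c ≤ bm → b' ≤ bm → 0 ≤ κ → (M.sys p).RegF (tmL k (ancI kf k i)) k κ F →
      (M.sys p).Reg (tmL kf i) kf b' (Cq ^ (K + 1) * 2 ^ ((ε - g) * ((kf : ℝ) - k)) * κ)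
        (Xp.run kf i l (ContinuousLinearMap.adjoint ((M.sys p).An (tmL k (ancI kf k i)) k c) F)) := by
  have hCq0 : 0 ≤ Cq := by linarith
  have base : ∀ (K : ℕ) (p : M.Par) (kf i k c b' : ℕ) (κ : ℝ) (F : Lp (M.sys p).Fb 2 ((M.sys p).rho k)),
      M.gd p → k ≤ kf → c ≤ bm → b' ≤ bm → 0 ≤ κ → (M.sys p).RegF (tmL k (ancI kf k i)) k κ F →
      (M.sys p).Reg (tmL kf i) kf b' (Cq ^ (K + 1) * 2 ^ ((ε - g) * ((kf : ℝ) - k)) * κ)
        (Xp.run kf i [] (ContinuousLinearMap.adjoint ((M.sys p).An (tmL k (ancI kf k i)) k c) F)) := by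
    intro K p kf i k c b' κ F hp hk hc hb hκ hF
    have h1 := H p _ k _ kf c b' κ F hp (gn_cutle_anc hk i) hc hb hF
    refine gn_reg_mono (hT p hp) h1 ?_
    have h2 : Cq ≤ Cq ^ (K + 1) := by
      calc Cq = Cq ^ 1 := (pow_one _).symm
        _ ≤ Cq ^ (K + 1) := pow_le_pow_right₀ hCq (by omega)
    exact mul_le_mul_of_nonneg_right (mul_le_mul_of_nonneg_right h2 (gn_two_pos _).le) hκ
  induction K with
  | zero =>
    intro p kf i k c b' l κ F hp hl hk hc hb hκ hF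
    have : l = [] := List.length_eq_zero_iff.1 (Nat.le_zero.1 hl.len)
    subst this
    exact base 0 p kf i k c b' κ F hp hk hc hb hκ hF
  | succ K ih =>
    intro p kf i k c b' l κ F hp hl hk hc hb hκ hF
    cases l with
    | nil => exact base (K + 1) p kf i k c b' κ F hp hk hc hb hκ hF
    | cons σ l' =>
      have hσ := hl.dep σ List.mem_cons_self
      have hcut : CutLe (tmL k (ancI kf k i)) k (tmL σ.k (ancI kf σ.k i)) σ.k := by
        have := gn_cutle_anc hσ.1 (ancI kf σ.k i)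
        rwa [gn_anc_anc hσ.1 hσ.2 i] at this
      have h1 := H p _ k _ σ.k c σ.b κ F hp hcut hc (hl.gen σ List.mem_cons_self) hF
      have h2 := (gn_regF_an (hT p hp) _ _ _ _ _).1 h1
      have h3 := gn_regF_mulR (hT p hp) h2 (hl.msk σ List.mem_cons_self (ancI kf σ.k i))
      have hκ1 : 0 ≤ Cq * 2 ^ ((ε - g) * ((σ.k : ℝ) - k)) * κ := mul_nonneg (mul_nonneg hCq0 (gn_two_pos _).le) hκ
      have h4 := ih p kf i σ.k σ.b b' l' _ _ hp (gn_stok_tail hl) hσ.2 (hl.gen σ List.mem_cons_self) hb hκ1 h3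
      have e : Cq ^ (K + 1) * 2 ^ ((ε - g) * ((kf : ℝ) - σ.k)) * (Cq * 2 ^ ((ε - g) * ((σ.k : ℝ) - k)) * κ)
          = Cq ^ (K + 1 + 1) * 2 ^ ((ε - g) * ((kf : ℝ) - k)) * κ := by
        have : (2 : ℝ) ^ ((ε - g) * ((kf : ℝ) - k)) = 2 ^ ((ε - g) * ((kf : ℝ) - σ.k)) * 2 ^ ((ε - g) * ((σ.k : ℝ) - k)) := by
          rw [← gn_two_add]
          congr 1
          ring
        rw [this, pow_succ Cq (K + 1)]
        ring
      rw [e] at h4
      exact h4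

/-- **regularity along a stack**: a `κ`-regular row function at the cut `k` above the final interval `i` of depth `kf`, synthesised and sent through a stack of `≤ K` stages of depths in `[k, kf]`.
PLAN: induction on `K` (or on `l`), `Cs (K) = Cq^(K+1)`, `Cq` from `gn_gap bm ε`.   `l = []`: `gn_gap` from `k` to `kf` (`gn_cutle_anc`).   `l = σ :: l'`: `gn_gap` from `k` to `σ.k`
(`gn_cutle_anc` + `gn_anc_anc`) gives `Reg` at generation `σ.b`, i.e. `RegF` of `An v` (`gn_regF_an`), `gn_regF_mulR`, and `tz = adjoint (mulR ..)` is again of the form of the statement at the cut `σ.k`;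
the exponents add: `(σ.k - k) + (kf - σ.k) = kf - k`. -/
theorem gn_stack_reg (M : Mdl) (g : ℝ) (L : M.Loc g) (hT : ∀ p, M.gd p → (M.sys p).Tight) (bm K : ℕ) (ε : ℝ) (hε : 0 < ε) :
    ∃ Cs : ℝ, 1 ≤ Cs ∧ ∀ (p : M.Par) (kf i k c b' : ℕ) (l : List (Stg (M.sys p))) (κ : ℝ) (F : Lp (M.sys p).Fb 2 ((M.sys p).rho k)),
      M.gd p → StOk k kf bm K l → k ≤ kf → c ≤ bm → b' ≤ bm → 0 ≤ κ → (M.sys p).RegF (tmL k (ancI kf k i)) k κ F →
      (M.sys p).Reg (tmL kf i) kf b' (Cs * 2 ^ ((ε - g) * ((kf : ℝ) - k)) * κ)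
        (Xp.run kf i l (ContinuousLinearMap.adjoint ((M.sys p).An (tmL k (ancI kf k i)) k c) F)) := by
  obtain ⟨Cq, hCq, H⟩ := gn_gap M g L hT bm ε hε
  exact ⟨Cq ^ (K + 1), one_le_pow₀ hCq, gn_stack_reg_aux M g hT bm ε Cq hCq H K⟩

/-- the same for a state of a plateau class.   PLAN: `gn_adj_an`, `gn_regF_an`, `gn_stack_reg`. -/
theorem gn_stack_reg_pl (M : Mdl) (g : ℝ) (L : M.Loc g) (hT : ∀ p, M.gd p → (M.sys p).Tight) (bm K : ℕ) (ε : ℝ) (hε : 0 < ε) :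
    ∃ Cs : ℝ, 1 ≤ Cs ∧ ∀ (p : M.Par) (kf i k c b' : ℕ) (l : List (Stg (M.sys p))) (κ : ℝ) (v : (M.sys p).Kc),
      M.gd p → StOk k kf bm K l → k ≤ kf → c ≤ bm → b' ≤ bm → 0 ≤ κ → v ∈ (M.sys p).Pl c → (M.sys p).Reg (tmL k (ancI kf k i)) k c κ v →
      (M.sys p).Reg (tmL kf i) kf b' (Cs * 2 ^ ((ε - g) * ((kf : ℝ) - k)) * κ) (Xp.run kf i l v) := by
  obtain ⟨Cs, hCs, H⟩ := gn_stack_reg M g L hT bm K ε hε
  refine ⟨Cs, hCs, ?_⟩
  intro p kf i k c b' l κ v hp hl hk hc hb hκ hv hr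
  have h1 := H p kf i k c b' l κ _ hp hl hk hc hb hκ ((gn_regF_an (hT p hp) _ _ _ _ _).1 hr)
  rwa [gn_adj_an (hT p hp) _ _ _ hv] at h1

/-- **(GN-SGL)**  `Tight + Loc ⟹ Sgl g`.   PLAN: `gn_stack_reg_pl` at `k = k0`, `v = E.v`, `c = b0`, `b' = bT` (`Valid.iv_in` identifies the ancestor), `gn_m_le_ms`, `Valid.ts_ok`; `kf - k0 = n`. -/
theorem gn_sgl (M : Mdl) (g : ℝ) (L : M.Loc g) (hT : ∀ p, M.gd p → (M.sys p).Tight) : M.Sgl g := by
  intro bm K ε hε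
  obtain ⟨Cs, hCs, H⟩ := gn_stack_reg_pl M g L hT bm K ε hε
  refine ⟨Cs, ?_⟩
  intro p E hp hE hlen hgen l
  have hst : StOk E.k0 E.kf bm K E.st :=
    { len := hlen
      dep := hE.st_dep
      mono := hE.st_mono
      gen := hgen.2.2
      msk := fun σ hσ i => ⟨hE.st_meas σ hσ i, hE.st_bd σ hσ i⟩ }
  have hk : E.k0 ≤ E.kf := Nat.le_add_right _ _
  have hreg : (M.sys p).Reg (tmL E.k0 (ancI E.kf E.k0 (E.iv l))) E.k0 E.b0 E.ka E.v := by
    rw [hE.iv_in l]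
    exact hE.reg
  have h1 := H p E.kf (E.iv l) E.k0 E.b0 E.bT E.st E.ka E.v hp hst hk hgen.1 hgen.2.1 hE.ka_pos.le hE.plat hreg
  have h2 := h1 (E.ts l) (hE.ts_ok l)
  have h3 := gn_m_le_ms (hT p hp) E hE l
  have e1 : ((E.kf : ℕ) : ℝ) - E.k0 = E.n := by
    unfold Xp.kf
    push_cast
    ring
  rw [e1] at h2
  have e2 : (2 : ℝ) ^ ((ε - g) * (E.n : ℝ)) = 2 ^ (ε * E.n) * 2 ^ (-(g * E.n)) := by
    rw [← gn_two_add]
    congr 1
    ring
  rw [e2] at h2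
  calc E.m l ≤ _ := h3
    _ ≤ _ := h2
    _ = Cs * 2 ^ (ε * E.n) * (E.ka * E.w l) * 2 ^ (-(g * E.n)) := by
      unfold Xp.w
      ring

end Claimed.Agent.R256
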