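-- KEEP
import Claimed.Agent.R256.Gen.BasC

/-!
# Row 256, GENERIC THEORY : PEEL          (statement helper207; architect helper199; prefix `gn_`)

Paper free: greedy removal for a finite measure and a family of weighted sets.
-/

set_option autoImplicit false

namespace Claimed.Agent.R256

open MeasureTheory

theorem gn_peel_step_aux {X : Type} [MeasurableSpace X] (μ : Measure X) [IsFiniteMeasure μ] {Q : Type} (cell : Q → Set X) (wt : Q → ℝ)
    (hc : ∀ q, MeasurableSet (cell q)) (hw : ∀ q, 0 < wt q) (β wmin : ℝ) (hβ : 0 < β) (hwm : 0 < wmin) (n : ℕ) :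
    ∀ (U : Set X), MeasurableSet U → (∀ q, wt q < wmin → μ.real (cell q ∩ U) ≤ β * wt q) → μ.real U ≤ n * (β * wmin) →
    ∃ (m : ℕ) (Qs : Fin m → Q) (R : Fin m → Set X), (∀ a, MeasurableSet (R a) ∧ R a ⊆ cell (Qs a) ∧ R a ⊆ U) ∧
      (∀ a a', a ≠ a' → Disjoint (R a) (R a')) ∧ (∀ a, β * wt (Qs a) < μ.real (R a)) ∧
      ∀ q, μ.real (cell q ∩ (U \ ⋃ a, R a)) ≤ β * wt q := by
  induction n with
  | zero =>
    intro U hU hfl hn
    refine ⟨0, Fin.elim0, Fin.elim0, fun a => a.elim0, fun a => a.elim0, fun a => a.elim0, fun q => ?_⟩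
    have h1 : μ.real (cell q ∩ (U \ ⋃ a : Fin 0, (Fin.elim0 a : Set X))) ≤ μ.real U :=
      measureReal_mono (Set.inter_subset_right.trans Set.sdiff_subset)
    have h2 : 0 < β * wt q := mul_pos hβ (hw q)
    simp only [Nat.cast_zero, zero_mul] at hn
    linarith
  | succ n ih =>
    intro U hU hfl hn
    by_cases hex : ∃ q, β * wt q < μ.real (cell q ∩ U)
    · obtain ⟨q0, hq0⟩ := hex
      have hwq : wmin ≤ wt q0 := by
        by_contra hlt
        exact absurd (hfl q0 (not_le.1 hlt)) (not_le.2 hq0)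
      have hR0 : MeasurableSet (cell q0 ∩ U) := (hc q0).inter hU
      have hmass : μ.real (U \ (cell q0 ∩ U)) = μ.real U - μ.real (cell q0 ∩ U) :=
        measureReal_sdiff Set.inter_subset_right hR0
      have hb : β * wmin ≤ β * wt q0 := mul_le_mul_of_nonneg_left hwq hβ.le
      obtain ⟨m, Qs, R, h1, h2, h3, h4⟩ := ih (U \ (cell q0 ∩ U)) (hU.diff hR0)
        (fun q hq => (measureReal_mono (Set.inter_subset_inter_right _ Set.sdiff_subset)).trans (hfl q hq))
        (by rw [hmass]; push_cast at hn; linarith)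
      refine ⟨m + 1, Fin.cons q0 Qs, Fin.cons (cell q0 ∩ U) R, ?_, ?_, ?_, ?_⟩
      · intro a
        refine Fin.cases ?_ (fun a => ?_) a
        · simp only [Fin.cons_zero]
          exact ⟨hR0, Set.inter_subset_left, Set.inter_subset_right⟩
        · simp only [Fin.cons_succ]
          exact ⟨(h1 a).1, (h1 a).2.1, (h1 a).2.2.trans Set.sdiff_subset⟩
      · have hd : ∀ a, Disjoint (cell q0 ∩ U) (R a) := by
          intro a
          refine Set.disjoint_left.2 fun x hx hxa => ?_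
          exact ((h1 a).2.2 hxa).2 hx
        intro a a'
        refine Fin.cases ?_ (fun a => ?_) a
        · refine Fin.cases ?_ (fun a' => ?_) a'
          · intro h; exact absurd rfl h
          · intro _
            simp only [Fin.cons_zero, Fin.cons_succ]
            exact hd a'
        · refine Fin.cases ?_ (fun a' => ?_) a'
          · intro _
            simp only [Fin.cons_zero, Fin.cons_succ]
            exact (hd a).symm
          · intro h
            simp only [Fin.cons_succ]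
            exact h2 a a' (fun e => h (by rw [e]))
      · intro a
        refine Fin.cases ?_ (fun a => ?_) a
        · simp only [Fin.cons_zero]
          exact hq0
        · simp only [Fin.cons_succ]
          exact h3 a
      · intro q
        have e : U \ ⋃ a : Fin (m + 1), (Fin.cons (cell q0 ∩ U) R : Fin (m + 1) → Set X) a = (U \ (cell q0 ∩ U)) \ ⋃ a, R a := by
          ext x
          simp only [Set.mem_sdiff, Set.mem_iUnion, Fin.exists_fin_succ, Fin.cons_zero, Fin.cons_succ, not_or]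
          tauto
        rw [e]
        exact h4 q
    · push Not at hex
      refine ⟨0, Fin.elim0, Fin.elim0, fun a => a.elim0, fun a => a.elim0, fun a => a.elim0, fun q => ?_⟩
      exact (measureReal_mono (Set.inter_subset_inter_right _ Set.sdiff_subset)).trans (hex q)

/-- **one threshold** of the greedy removal.   `U` = what is left.  PLAN: strong induction on `N` with `μ.real U ≤ N * (β * wmin)`: if some `q` has `β wt q < μ (cell q ∩ U)`, then `wmin ≤ wt q`,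
remove `R = cell q ∩ U` (mass `> β wmin`) and apply the induction hypothesis to `U \ R`; otherwise `S = ∅`, `m = 0`. -/
theorem gn_peel_step {X : Type} [MeasurableSpace X] (μ : Measure X) [IsFiniteMeasure μ] {Q : Type} (cell : Q → Set X) (wt : Q → ℝ)
    (hc : ∀ q, MeasurableSet (cell q)) (hw : ∀ q, 0 < wt q) (β wmin : ℝ) (hβ : 0 < β) (hwm : 0 < wmin) (U : Set X) (hU : MeasurableSet U)
    (hfl : ∀ q, wt q < wmin → μ.real (cell q ∩ U) ≤ β * wt q) :
    ∃ (m : ℕ) (Qs : Fin m → Q) (R : Fin m → Set X), (∀ a, MeasurableSet (R a) ∧ R a ⊆ cell (Qs a) ∧ R a ⊆ U) ∧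
      (∀ a a', a ≠ a' → Disjoint (R a) (R a')) ∧ (∀ a, β * wt (Qs a) < μ.real (R a)) ∧
      ∀ q, μ.real (cell q ∩ (U \ ⋃ a, R a)) ≤ β * wt q := by
  obtain ⟨n, hn⟩ := exists_nat_ge (μ.real U / (β * wmin))
  refine gn_peel_step_aux μ cell wt hc hw β wmin hβ hwm n U hU hfl ?_
  rwa [div_le_iff₀ (mul_pos hβ hwm)] at hn

/-- **all thresholds**.   PLAN: recursion on `j`: `U 0 = univ`, `S j` = the union removed by `gn_peel_step` from `U j` at `β_j = 2^-(j+1) κ1`, `U (j+1) = U j \ S j`; `S J := U J`, `S j := ∅` for `j > J`.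
Invariant: `μ (cell q ∩ U j) ≤ 2^-j κ1 wt q`. -/
theorem gn_peel_abs {X : Type} [MeasurableSpace X] (μ : Measure X) [IsFiniteMeasure μ] {Q : Type} (cell : Q → Set X) (wt : Q → ℝ)
    (hc : ∀ q, MeasurableSet (cell q)) (hw : ∀ q, 0 < wt q) (κ1 wmin : ℝ) (J : ℕ) (hκ : 0 < κ1) (hwm : 0 < wmin)
    (hreg : ∀ q, μ.real (cell q) ≤ κ1 * wt q)
    (hfl : ∀ q, wt q < wmin → μ.real (cell q) ≤ (2 : ℝ)⁻¹ ^ J * κ1 * wt q) :
    ∃ S : ℕ → Set X, (∀ j, MeasurableSet (S j)) ∧ (∀ j j', j ≠ j' → Disjoint (S j) (S j')) ∧ (⋃ j ∈ Finset.range (J + 1), S j) = Set.univ ∧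
      (∀ j < J, (∀ q, μ.real (cell q ∩ S j) ≤ 2 * ((2 : ℝ)⁻¹ ^ (j + 1) * κ1) * wt q) ∧
        ∃ (m : ℕ) (Qs : Fin m → Q) (R : Fin m → Set X), (∀ a, MeasurableSet (R a) ∧ R a ⊆ cell (Qs a)) ∧
          (∀ a a', a ≠ a' → Disjoint (R a) (R a')) ∧ S j = ⋃ a, R a ∧ ∀ a, (2 : ℝ)⁻¹ ^ (j + 1) * κ1 * wt (Qs a) < μ.real (R a)) ∧
      ∀ q, μ.real (cell q ∩ S J) ≤ (2 : ℝ)⁻¹ ^ J * κ1 * wt q := by
  classical
  have step : ∀ (j : ℕ) (U : Set X), (MeasurableSet U ∧ (j ≤ J → ∀ q, μ.real (cell q ∩ U) ≤ (2 : ℝ)⁻¹ ^ j * κ1 * wt q)) →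
      ∃ U' : Set X, (MeasurableSet U' ∧ (j + 1 ≤ J → ∀ q, μ.real (cell q ∩ U') ≤ (2 : ℝ)⁻¹ ^ (j + 1) * κ1 * wt q)) ∧ U' ⊆ U ∧
        (j < J → ∃ (m : ℕ) (Qs : Fin m → Q) (R : Fin m → Set X), (∀ a, MeasurableSet (R a) ∧ R a ⊆ cell (Qs a)) ∧
          (∀ a a', a ≠ a' → Disjoint (R a) (R a')) ∧ U \ U' = ⋃ a, R a ∧
          ∀ a, (2 : ℝ)⁻¹ ^ (j + 1) * κ1 * wt (Qs a) < μ.real (R a)) := by
    rintro j U ⟨hU, -⟩
    by_cases hj : j < J
    · obtain ⟨m, Qs, R, h1, h2, h3, h4⟩ := gn_peel_step μ cell wt hc hw ((2 : ℝ)⁻¹ ^ (j + 1) * κ1) wmin (by positivity) hwm U hU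
        (fun q hq => by
          have p1 : (2 : ℝ)⁻¹ ^ J ≤ (2 : ℝ)⁻¹ ^ (j + 1) := pow_le_pow_of_le_one (by norm_num) (by norm_num) hj
          calc μ.real (cell q ∩ U) ≤ μ.real (cell q) := measureReal_mono Set.inter_subset_left
            _ ≤ (2 : ℝ)⁻¹ ^ J * κ1 * wt q := hfl q hq
            _ ≤ (2 : ℝ)⁻¹ ^ (j + 1) * κ1 * wt q :=
              mul_le_mul_of_nonneg_right (mul_le_mul_of_nonneg_right p1 hκ.le) (hw q).le)
      refine ⟨U \ ⋃ a, R a, ⟨hU.diff (MeasurableSet.iUnion fun a => (h1 a).1), fun _ q => h4 q⟩, Set.sdiff_subset,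
        fun _ => ⟨m, Qs, R, fun a => ⟨(h1 a).1, (h1 a).2.1⟩, h2, ?_, h3⟩⟩
      ext x
      simp only [Set.mem_sdiff, not_and, not_not]
      constructor
      · rintro ⟨hx, hx'⟩
        exact hx' hx
      · intro hx
        obtain ⟨a, ha⟩ := Set.mem_iUnion.1 hx
        exact ⟨(h1 a).2.2 ha, fun _ => hx⟩
    · exact ⟨U, ⟨hU, fun h => absurd h (by omega)⟩, subset_rfl, fun h => absurd h hj⟩
  choose! next hnext using step
  obtain ⟨U, hU0, hUs⟩ : ∃ U : ℕ → Set X, U 0 = Set.univ ∧ ∀ j, U (j + 1) = next j (U j) :=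
    ⟨fun j => Nat.rec Set.univ (fun j V => next j V) j, rfl, fun _ => rfl⟩
  have hinv : ∀ j, MeasurableSet (U j) ∧ (j ≤ J → ∀ q, μ.real (cell q ∩ U j) ≤ (2 : ℝ)⁻¹ ^ j * κ1 * wt q) := by
    intro j
    induction j with
    | zero => exact ⟨by rw [hU0]; exact MeasurableSet.univ, fun _ q => by rw [hU0, Set.inter_univ]; simpa using hreg q⟩
    | succ j ih => rw [hUs]; exact (hnext j (U j) ih).1
  have hsub : ∀ j, U (j + 1) ⊆ U j := fun j => by rw [hUs]; exact (hnext j (U j) (hinv j)).2.1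
  have hanti : Antitone U := antitone_nat_of_succ_le hsub
  obtain ⟨S, hS1, hS2, hS3⟩ : ∃ S : ℕ → Set X, (∀ j < J, S j = U j \ U (j + 1)) ∧ S J = U J ∧ ∀ j, J < j → S j = ∅ := by
    refine ⟨fun j => if j < J then U j \ U (j + 1) else if j = J then U J else ∅, fun j hj => ?_, ?_, fun j hj => ?_⟩
    · simp only [if_pos hj]
    · simp
    · have h1 : ¬ j < J := by omega
      have h2 : ¬ j = J := by omega
      simp only [if_neg h1, if_neg h2]
  have hSsub : ∀ j, S j ⊆ U j := by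
    intro j
    rcases lt_trichotomy j J with h | h | h
    · rw [hS1 j h]; exact Set.sdiff_subset
    · rw [h, hS2]
    · rw [hS3 j h]; exact Set.empty_subset _
  have hdis : ∀ j j', j < j' → Disjoint (S j) (S j') := by
    intro j j' hjj
    by_cases hJ : J < j'
    · rw [hS3 j' hJ]; exact Set.disjoint_empty _
    · have hj : j < J := by omega
      rw [hS1 j hj]
      exact Set.disjoint_left.2 fun x hx hx' => hx.2 (hanti (by omega : j + 1 ≤ j') (hSsub j' hx'))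
  refine ⟨S, fun j => ?_, fun j j' hne => ?_, ?_, fun j hj => ⟨fun q => ?_, ?_⟩, fun q => ?_⟩
  · rcases lt_trichotomy j J with h | h | h
    · rw [hS1 j h]; exact (hinv j).1.diff (hinv (j + 1)).1
    · rw [h, hS2]; exact (hinv J).1
    · rw [hS3 j h]; exact MeasurableSet.empty
  · rcases lt_or_gt_of_ne hne with h | h
    · exact hdis j j' h
    · exact (hdis j' j h).symm
  · refine Set.eq_univ_of_forall fun x => ?_
    have key : ∀ k ≤ J, x ∈ U k ∨ ∃ j < k, x ∈ S j := by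
      intro k
      induction k with
      | zero => intro _; left; rw [hU0]; trivial
      | succ k ih =>
        intro hk
        rcases ih (by omega) with h | ⟨j, hj, hx⟩
        · by_cases hx : x ∈ U (k + 1)
          · exact Or.inl hx
          · right
            refine ⟨k, by omega, ?_⟩
            rw [hS1 k (by omega)]
            exact ⟨h, hx⟩
        · exact Or.inr ⟨j, by omega, hx⟩
    simp only [Set.mem_iUnion, Finset.mem_range]
    rcases key J le_rfl with h | ⟨j, hj, hx⟩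
    · exact ⟨J, by omega, by rw [hS2]; exact h⟩
    · exact ⟨j, by omega, hx⟩
  · calc μ.real (cell q ∩ S j) ≤ μ.real (cell q ∩ U j) := measureReal_mono (Set.inter_subset_inter_right _ (hSsub j))
      _ ≤ (2 : ℝ)⁻¹ ^ j * κ1 * wt q := (hinv j).2 hj.le q
      _ = 2 * ((2 : ℝ)⁻¹ ^ (j + 1) * κ1) * wt q := by rw [pow_succ]; ring
  · have := (hnext j (U j) (hinv j)).2.2 hj
    rw [← hUs, ← hS1 j hj] at this
    exact this
  · rw [hS2]
    exact (hinv J).2 le_rfl q

/-- **PEEL** (02 l.375-405, 07 l.300-320): thresholds `β_j = 2^-(j+1) κ1`, `j < J`; remainder `S J` at the floor `2^-J κ1`.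
`wmin`: tests lighter than `wmin` are below the floor (from `Mdl.Floor`), which makes the greedy removal finite.
PLAN: `gn_peel_abs` with `μ = P.mu T k b ψ` (`gn_mu_finite`, `gn_ms_eq_mu`), `Q = {q : P.Tst // P.ok q k}`. -/
theorem gn_peel {P : PkSys} (hT : P.Tight) (T : ℝ) (k b : ℕ) (ψ : P.Kc) (κ1 wmin : ℝ) (J : ℕ) (hκ : 0 < κ1) (hw : 0 < wmin)
    (hreg : P.Reg T k b κ1 ψ)
    (hfl : ∀ Q, P.ok Q k → P.wt Q < wmin → P.ms T k b (P.cell Q T k) ψ ≤ (2 : ℝ)⁻¹ ^ J * κ1 * P.wt Q) :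
    ∃ S : ℕ → Set P.X, (∀ j, MeasurableSet (S j)) ∧ (∀ j j', j ≠ j' → Disjoint (S j) (S j')) ∧ (⋃ j ∈ Finset.range (J + 1), S j) = Set.univ ∧
      (∀ j < J, IsLvl P T k b ψ ((2 : ℝ)⁻¹ ^ (j + 1) * κ1) (S j)) ∧
      ∀ Q, P.ok Q k → P.ms T k b (P.cell Q T k ∩ S J) ψ ≤ (2 : ℝ)⁻¹ ^ J * κ1 * P.wt Q := by
  have := gn_mu_finite (P := P) T k b ψ
  obtain ⟨S, h1, h2, h3, h4, h5⟩ := gn_peel_abs (P.mu T k b ψ) (Q := {q : P.Tst // P.ok q k}) (fun q => P.cell q.1 T k) (fun q => P.wt q.1)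
    (fun q => hT.cellM q.1 T k) (fun q => hT.wt_pos q.1 k q.2) κ1 wmin J hκ hw
    (fun q => by rw [← gn_ms_eq_mu T k b (hT.cellM q.1 T k)]; exact hreg q.1 q.2)
    (fun q hq => by rw [← gn_ms_eq_mu T k b (hT.cellM q.1 T k)]; exact hfl q.1 q.2 hq)
  refine ⟨S, h1, h2, h3, fun j hj => ?_, fun Q hQ => ?_⟩
  · obtain ⟨r1, m, Qs, R, s1, s2, s3, s4⟩ := h4 j hj
    refine ⟨h1 j, fun Q hQ => ?_, m, fun a => (Qs a).1, R, fun a => ⟨(Qs a).2, (s1 a).1, (s1 a).2⟩, s2, s3, fun a => ?_⟩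
    · rw [gn_ms_eq_mu T k b ((hT.cellM Q T k).inter (h1 j))]
      exact r1 ⟨Q, hQ⟩
    · rw [gn_ms_eq_mu T k b (s1 a).1]
      exact s4 a
  · rw [gn_ms_eq_mu T k b ((hT.cellM Q T k).inter (h1 J))]
    exact h5 ⟨Q, hQ⟩

end Claimed.Agent.R256
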