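-- KEEP
import Claimed.Agent.R256.Gen.BasC

/-!
# Row 256, GENERIC THEORY : TOTAL, FIN, PICK          (statements helper207; architect helper199; prefix `gn_`)

Paper free (all on `Gen/Bas{A,B,C}.lean`).
-/

set_option autoImplicit false

namespace Claimed.Agent.R256

open MeasureTheory

/-- **TOTAL**.   PLAN: `tm = Σ_{i ∈ ivs k0 i0 kf} Σ_l [iv l = i] m l` (`Valid.iv_in`, `gn_mem_ivs`), each inner sum `≤ ‖fin i‖² ≤ ‖v‖² ≤ e` (`gn_m_sum_iv`, `gn_run_norm_le`),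
`card = 2^n` (`gn_ivs_card`, `kf - k0 = n`). -/
theorem gn_total {P : PkSys} (hT : P.Tight) (E : Xp P) (hE : E.Valid) : E.tm ≤ 2 ^ E.n * E.e := by
  classical
  unfold Xp.tm
  have h1 : ∑ l, E.m l = ∑ i ∈ ivs E.k0 E.i0 E.kf, ∑ l, (if E.iv l = i then E.m l else 0) := by
    rw [Finset.sum_comm]
    refine Finset.sum_congr rfl fun l _ => ?_
    rw [Finset.sum_ite_eq]
    rw [if_pos]
    rw [gn_mem_ivs]
    exact hE.iv_in l
  rw [h1]
  have h2 : ∀ i ∈ ivs E.k0 E.i0 E.kf, ∑ l, (if E.iv l = i then E.m l else 0) ≤ E.e := by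
    intro i _
    refine (gn_m_sum_iv hT E hE i).trans (le_trans ?_ hE.budget)
    have := gn_run_norm_le hT E.kf i E.st (gn_valid_stm E hE) E.v
    unfold Xp.fin
    gcongr
  refine (Finset.sum_le_sum h2).trans ?_
  rw [Finset.sum_const, gn_ivs_card, nsmul_eq_mul]
  have : E.kf - E.k0 = E.n := by unfold Xp.kf; omega
  rw [this]
  push_cast
  exact le_refl _

/-- masses are nonnegative -/
theorem gn_m_nonneg {P : PkSys} (E : Xp P) (hE : E.Valid) (l : Fin E.L) : 0 ≤ E.m l :=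
  gn_m_nonneg' E hE l

/-- a uniform bound `m ≤ ρ κ w` gives `val ≤ 2^(3n/2) √ρ`.   PLAN: `gn_tr_le` with `ρ κ`, `gn_total`, `√(ρκ) = √ρ √κ`. -/
theorem gn_val_le_ratio {P : PkSys} (hT : P.Tight) (E : Xp P) (hE : E.Valid) {ρ : ℝ} (hρ : 0 ≤ ρ) (h : ∀ l, E.m l ≤ ρ * (E.ka * E.w l)) :
    E.val ≤ 2 ^ (3 * (E.n : ℝ) / 2) * Real.sqrt ρ := by
  have he := hE.e_pos
  have hk : 0 < Real.sqrt E.ka := Real.sqrt_pos.mpr hE.ka_pos
  have h1 : E.rd ≤ Real.sqrt (ρ * E.ka) * (2 ^ E.n * E.e) := by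
    rw [gn_rd_eq]
    calc ∑ l, E.tr l ≤ ∑ l, Real.sqrt (ρ * E.ka) * E.m l :=
          Finset.sum_le_sum fun l _ => gn_tr_le E hE l (by rw [mul_assoc]; exact h l)
      _ = Real.sqrt (ρ * E.ka) * E.tm := by rw [← Finset.mul_sum]; rfl
      _ ≤ Real.sqrt (ρ * E.ka) * (2 ^ E.n * E.e) := by
          have := gn_total hT E hE
          gcongr
  unfold Xp.val
  calc 2 ^ ((E.n : ℝ) / 2) / (E.e * Real.sqrt E.ka) * E.rd
      ≤ 2 ^ ((E.n : ℝ) / 2) / (E.e * Real.sqrt E.ka) * (Real.sqrt (ρ * E.ka) * (2 ^ E.n * E.e)) := by gcongr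
    _ = 2 ^ (3 * (E.n : ℝ) / 2) * Real.sqrt ρ := by
      rw [Real.sqrt_mul hρ, ← gn_two_nat, show 3 * (E.n : ℝ) / 2 = (E.n : ℝ) / 2 + E.n by ring, gn_two_add]
      field_simp

/-- **FIN**: `Γ ≤ 3/2 - g/2`.   PLAN: `hG.sgl C C ε` gives `Cs`; `gn_val_le_ratio` with `ρ = max Cs 1 * 2^((ε - g) n)`; `gn_absorb` for `√(max Cs 1) ≤ 2^(ε n / 2)`. -/
theorem gn_fin (M : Mdl) (g : ℝ) (hG : M.Gen g) : M.Rate (3 / 2 - g / 2) := by
  intro C ε hε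
  obtain ⟨Cs, hCs⟩ := hG.sgl C C ε hε
  obtain ⟨n0, hn0⟩ := gn_absorb (Real.sqrt (max Cs 1)) (ε / 2) (by positivity)
  refine ⟨0, n0, fun p E hn hE => ?_⟩
  have hV := hE.2.1
  have hT := hG.tight p hE.1
  have hρ : 0 ≤ max Cs 1 * 2 ^ ((ε - g) * E.n) := by positivity
  have h1 : ∀ l, E.m l ≤ max Cs 1 * 2 ^ ((ε - g) * E.n) * (E.ka * E.w l) := by
    intro l
    have h2 := hCs p E hE.1 hV hE.2.2.1 hE.2.2.2.1 l
    have h3 : 0 ≤ E.ka * E.w l := mul_nonneg hV.ka_pos.le (hV.w_pos l).le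
    calc E.m l ≤ Cs * 2 ^ (ε * E.n) * (E.ka * E.w l) * 2 ^ (-(g * E.n)) := h2
      _ = Cs * (2 ^ (ε * E.n) * 2 ^ (-(g * E.n))) * (E.ka * E.w l) := by ring
      _ = Cs * 2 ^ ((ε - g) * E.n) * (E.ka * E.w l) := by rw [← gn_two_add]; congr 3; ring
      _ ≤ max Cs 1 * 2 ^ ((ε - g) * E.n) * (E.ka * E.w l) := by
        have := le_max_left Cs 1
        have := gn_two_pos ((ε - g) * E.n)
        gcongr
  refine (gn_val_le_ratio hT E hV hρ h1).trans ?_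
  rw [Real.sqrt_mul (by positivity), gn_two_sqrt]
  calc 2 ^ (3 * (E.n : ℝ) / 2) * (Real.sqrt (max Cs 1) * 2 ^ ((ε - g) * E.n / 2))
      ≤ 2 ^ (3 * (E.n : ℝ) / 2) * (2 ^ (ε / 2 * E.n) * 2 ^ ((ε - g) * E.n / 2)) := by
        have := hn0 E.n hn
        have := gn_two_pos ((ε - g) * E.n / 2)
        have := gn_two_pos (3 * (E.n : ℝ) / 2)
        gcongr
    _ = 2 ^ ((3 / 2 - g / 2 + ε) * E.n) := by
      rw [← gn_two_add, ← gn_two_add]
      congr 1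
      ring

theorem gn_rate_gam (M : Mdl) (g : ℝ) (hG : M.Gen g) : M.Rate M.Gam :=
  M.bs_rate_gam (le_max_left 0 (3 / 2 - g / 2)) (M.bs_rate_mono (gn_fin M g hG) (le_max_right _ _))

/-- **PICK**: validity -/
theorem gn_pick_valid {P : PkSys} (E : Xp P) (hE : E.Valid) {L' : ℕ} (φ : Fin L' → Fin E.L) (hφ : Function.Injective φ) :
    (E.pick φ).Valid :=
  gn_pick_valid' E hE φ hφ

/-- **PICK**: masses and weights -/
theorem gn_pick_m {P : PkSys} (E : Xp P) {L' : ℕ} (φ : Fin L' → Fin E.L) (l : Fin L') :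
    (E.pick φ).m l = E.m (φ l) ∧ (E.pick φ).w l = E.w (φ l) :=
  ⟨(gn_pick_m' E φ l).1, (gn_pick_m' E φ l).2.1⟩

/-- **PICK**: every set of labels is picked; `rd` is additive.   PLAN: `φ1 = E.sel (univ.filter S)`, `φ2 = E.sel (univ.filter S)ᶜ` (classical), `gn_sel_*`, `gn_pick_sel_rd`, `gn_rd_eq`. -/
theorem gn_pick_split {P : PkSys} (E : Xp P) (S : Fin E.L → Prop) :
    ∃ (L1 L2 : ℕ) (φ1 : Fin L1 → Fin E.L) (φ2 : Fin L2 → Fin E.L), Function.Injective φ1 ∧ Function.Injective φ2 ∧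
      (∀ l, S l ↔ l ∈ Set.range φ1) ∧ (∀ l, ¬ S l ↔ l ∈ Set.range φ2) ∧ E.rd = (E.pick φ1).rd + (E.pick φ2).rd := by
  classical
  refine ⟨_, _, E.sel (Finset.univ.filter S), E.sel (Finset.univ.filter S)ᶜ, gn_sel_inj _ _, gn_sel_inj _ _, fun l => ?_, fun l => ?_, ?_⟩
  · rw [gn_sel_range]; simp
  · rw [gn_sel_range]; simp
  · rw [gn_pick_sel_rd, gn_pick_sel_rd, Finset.sum_add_sum_compl, gn_rd_eq]

end Claimed.Agent.R256
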