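-- KEEP
import Claimed.Agent.R256.Gen.Tot

/-!
# Row 256, GENERIC THEORY : the TAIL and PREFIX experiments          (architect helper199; prefix `gn_`)

Paper free.   `E.tl k i ψ e' κ' b' st2 S` (`Gen/Ops.lean`) is the experiment with root interval `i` of depth `k`, root state `ψ`, stack `st2`, labels `S` (a set of labels of `E` below `i`).
NOTE `(E.tl ..).kf = k + (E.kf - k)`, equal to `E.kf` only propositionally: rewrite with `gn_tl_kf` inside `P.en`, `tmL`, `Xp.run`, `ancI` (all are functions of a natural number; no cast is needed).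
-/

set_option autoImplicit false

namespace Claimed.Agent.R256

open MeasureTheory

variable {P : PkSys}

/-- the labels of `E` below the interval `i` of depth `k` -/
def Xp.below (E : Xp P) (k i : ℕ) : Finset (Fin E.L) := Finset.univ.filter fun l => ancI E.kf k (E.iv l) = i

/-- the budget of a tail piece: `max (‖ψ‖², s^(C+1) e)` -/
noncomputable def Xp.eb (E : Xp P) (C : ℕ) (ψ : P.Kc) : ℝ := max (‖ψ‖ ^ 2) (E.s ^ ((C : ℝ) + 1) * E.e)

theorem gn_cons_eqns_cite : True := by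
  have := @Xp.below.eq_1
  have := @Xp.eb.eq_1
  trivial

theorem gn_tl_kf (E : Xp P) {k : ℕ} (hk : k ≤ E.kf) (i : ℕ) (ψ : P.Kc) (e' κ' : ℝ) (b' : ℕ) (st2 : List (Stg P)) (S : Finset (Fin E.L)) :
    (E.tl k i ψ e' κ' b' st2 S).kf = E.kf :=
  Nat.add_sub_of_le hk

/-- **validity of a tail** -/
theorem gn_tl_valid (E : Xp P) (hE : E.Valid) {k : ℕ} {st1 st2 : List (Stg P)} (hc : E.CutAt k st1 st2) (i : ℕ) (ψ : P.Kc) (e' κ' : ℝ) (b' : ℕ)
    (S : Finset (Fin E.L)) (hS : S ⊆ E.below k i) (he : 0 < e') (hκ : 0 < κ') (hb : ‖ψ‖ ^ 2 ≤ e') (hpl : ψ ∈ P.Pl b') (hreg : P.Reg (tmL k i) k b' κ' ψ) :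
    (E.tl k i ψ e' κ' b' st2 S).Valid := by
  classical
  have hkf := gn_tl_kf E hc.2.2.2.2 i ψ e' κ' b' st2 S
  have hmem : ∀ σ ∈ st2, σ ∈ E.st := fun σ hσ => by rw [hc.1]; exact List.mem_append_right _ hσ
  refine
    { e_pos := he, ka_pos := hκ, budget := hb, plat := hpl, reg := hreg,
      st_dep := fun σ hσ => ⟨hc.2.2.1 σ hσ, by rw [hkf]; exact (hE.st_dep σ (hmem σ hσ)).2⟩,
      st_mono := ?_,
      st_meas := fun σ hσ => hE.st_meas σ (hmem σ hσ),
      st_bd := fun σ hσ => hE.st_bd σ (hmem σ hσ),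
      iv_in := fun l => ?_,
      ts_ok := fun l => by rw [hkf]; exact hE.ts_ok _,
      w_pos := fun l => hE.w_pos _,
      th_meas := fun l => hE.th_meas _,
      th_nn := fun l => hE.th_nn _,
      th_supp := fun l => by rw [hkf]; exact hE.th_supp _,
      th_sum := fun i' x => ?_ }
  · have := hE.st_mono
    rw [hc.1] at this
    exact (List.pairwise_append.1 this).2.1
  · rw [hkf]
    have := hS (gn_sel_mem E S l)
    unfold Xp.below at this
    rw [Finset.mem_filter] at this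
    exact this.2
  · exact (gn_pick_valid' E hE (E.sel S) (gn_sel_inj E S)).th_sum i' x

/-- **masses of a tail** whose root state is the state of `E` at the cut.   PLAN: `gn_tl_kf`, `gn_fin_cut`, `S ⊆ below`. -/
theorem gn_tl_m (E : Xp P) {k : ℕ} {st1 st2 : List (Stg P)} (hc : E.CutAt k st1 st2) (i : ℕ) (e' κ' : ℝ) (b' : ℕ)
    (S : Finset (Fin E.L)) (hS : S ⊆ E.below k i) (a : Fin S.card) :
    (E.tl k i (E.at' k i st1) e' κ' b' st2 S).m a = E.m (E.sel S a) ∧ (E.tl k i (E.at' k i st1) e' κ' b' st2 S).w a = E.w (E.sel S a) ∧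
      (E.tl k i (E.at' k i st1) e' κ' b' st2 S).tr a = E.tr (E.sel S a) := by
  have hkf := gn_tl_kf E hc.2.2.2.2 i (E.at' k i st1) e' κ' b' st2 S
  have hm : (E.tl k i (E.at' k i st1) e' κ' b' st2 S).m a = E.m (E.sel S a) := by
    have h1 : ancI E.kf k (E.iv (E.sel S a)) = i := by
      have := hS (gn_sel_mem E S a)
      unfold Xp.below at this
      rw [Finset.mem_filter] at this
      exact this.2
    unfold Xp.m Xp.fin
    rw [hkf]
    have h2 := gn_fin_cut E hc (E.iv (E.sel S a))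
    unfold Xp.fin at h2
    rw [h2, h1]
    rfl
  refine ⟨hm, rfl, ?_⟩
  unfold Xp.tr
  rw [hm]
  rfl

theorem gn_tl_rd (E : Xp P) {k : ℕ} {st1 st2 : List (Stg P)} (hc : E.CutAt k st1 st2) (i : ℕ) (e' κ' : ℝ) (b' : ℕ)
    (S : Finset (Fin E.L)) (hS : S ⊆ E.below k i) : (E.tl k i (E.at' k i st1) e' κ' b' st2 S).rd = ∑ l ∈ S, E.tr l := by
  rw [gn_rd_eq, ← gn_sel_sum E S E.tr]
  exact Finset.sum_congr rfl fun a _ => (gn_tl_m E hc i e' κ' b' S hS a).2.2

/-- the labels are partitioned by their ancestors at the cut.   PLAN: `Finset.sum_fiberwise_of_maps_to` with `gn_iv_anc`. -/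
theorem gn_sum_below (E : Xp P) (hE : E.Valid) {k : ℕ} (h0 : E.k0 ≤ k) (h1 : k ≤ E.kf) (S : Finset (Fin E.L)) (f : Fin E.L → ℝ) :
    ∑ l ∈ S, f l = ∑ i ∈ ivs E.k0 E.i0 k, ∑ l ∈ S ∩ E.below k i, f l := by
  classical
  rw [← Finset.sum_fiberwise_of_maps_to (g := fun l => ancI E.kf k (E.iv l)) (fun l _ => gn_iv_anc E hE h0 h1 l)]
  refine Finset.sum_congr rfl fun i _ => Finset.sum_congr ?_ fun _ _ => rfl
  ext l
  unfold Xp.below
  simp

/-- the budgets: positivity, domination, bounds, sum -/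
theorem gn_eb_facts (hT : P.Tight) (E : Xp P) (hE : E.Valid) (C : ℕ) {k : ℕ} {st1 st2 : List (Stg P)} (hc : E.CutAt k st1 st2) :
    (∀ i, 0 < E.eb C (E.at' k i st1) ∧ ‖E.at' k i st1‖ ^ 2 ≤ E.eb C (E.at' k i st1) ∧ E.s ^ ((C : ℝ) + 1) * E.e ≤ E.eb C (E.at' k i st1) ∧
      E.eb C (E.at' k i st1) ≤ E.e) ∧
    ∑ i ∈ ivs E.k0 E.i0 k, E.eb C (E.at' k i st1) ≤ ∑ i ∈ ivs E.k0 E.i0 k, ‖E.at' k i st1‖ ^ 2 + E.s ^ (C : ℝ) * E.e := by
  have he := hE.e_pos
  have hs := gn_s_pos E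
  have hpos : 0 < E.s ^ ((C : ℝ) + 1) * E.e := mul_pos (Real.rpow_pos_of_pos hs _) he
  constructor
  · intro i
    refine ⟨lt_of_lt_of_le hpos (le_max_right _ _), le_max_left _ _, le_max_right _ _, max_le (gn_at_norm_le hT E hE hc i) ?_⟩
    have : E.s ^ ((C : ℝ) + 1) ≤ 1 := Real.rpow_le_one hs.le (gn_s_le_one E) (by positivity)
    nlinarith
  · have h1 : ∀ i ∈ ivs E.k0 E.i0 k, E.eb C (E.at' k i st1) ≤ ‖E.at' k i st1‖ ^ 2 + E.s ^ ((C : ℝ) + 1) * E.e := by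
      intro i _
      exact max_le (by linarith) (by nlinarith [sq_nonneg ‖E.at' k i st1‖])
    refine (Finset.sum_le_sum h1).trans ?_
    rw [Finset.sum_add_distrib, Finset.sum_const, gn_ivs_card, nsmul_eq_mul]
    have h2 : ((2 ^ (k - E.k0) : ℕ) : ℝ) * E.s ^ ((C : ℝ) + 1) ≤ E.s ^ (C : ℝ) := by
      rw [gn_s_rpow, gn_s_rpow]
      push_cast
      rw [← gn_two_nat, ← gn_two_add]
      apply gn_two_mono
      have h3 : ((k - E.k0 : ℕ) : ℝ) ≤ E.n := by
        have : k - E.k0 ≤ E.n := by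
          have := hc.2.2.2.2
          unfold Xp.kf at this
          omega
        exact_mod_cast this
      nlinarith
    have := mul_le_mul_of_nonneg_right h2 he.le
    linarith

/-- **a tail is a tail piece** (`Mdl.IsTail` with the package `C + 1`) -/
theorem gn_tl_istail (hT : P.Tight) (E : Xp P) (hE : E.Valid) (C : ℕ) (hlen : E.st.length ≤ C) (hgen : E.GenLe C) {k : ℕ} {st1 st2 : List (Stg P)}
    (hc : E.CutAt k st1 st2) {i : ℕ} (hi : i ∈ ivs E.k0 E.i0 k) (κ' : ℝ) (b' : ℕ) (S : Finset (Fin E.L))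
    (h1 : E.s ^ (C : ℝ) * E.ka ≤ κ') (h2 : κ' ≤ E.s ^ (-(C : ℝ)) * E.ka) :
    Mdl.IsTail (C + 1) E (E.tl k i (E.at' k i st1) (E.eb C (E.at' k i st1)) κ' b' st2 S) := by
  have hf := (gn_eb_facts hT E hE C hc).1 i
  have hmem : ∀ σ ∈ st1, σ ∈ E.st := fun σ hσ => by rw [hc.1]; exact List.mem_append_left _ hσ
  have hk := hE.ka_pos
  refine
    { k_lo := hc.2.2.2.1, k_hi := (gn_tl_kf E hc.2.2.2.2 _ _ _ _ _ _ _).le, anc := (gn_mem_ivs _ _ _ _).1 hi,
      st := ⟨st1, ⟨?_, fun σ hσ => ⟨(hE.st_dep σ (hmem σ hσ)).1, hc.2.1 σ hσ⟩, ?_, fun σ hσ => (hgen.2.2 σ (hmem σ hσ)).trans (Nat.le_succ _),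
        (gn_cut_stm E hE hc).1⟩, rfl⟩,
      e_lo := by push_cast; exact hf.2.2.1, e_hi := hf.2.2.2, ka_lo := ?_, ka_hi := ?_ }
  · have : st1.length ≤ E.st.length := by rw [hc.1, List.length_append]; omega
    omega
  · have := hE.st_mono
    rw [hc.1] at this
    exact (List.pairwise_append.1 this).1
  · refine le_trans ?_ h1
    have : E.s ^ (((C + 1 : ℕ) : ℝ)) ≤ E.s ^ (C : ℝ) := gn_s_anti E (by push_cast; linarith)
    exact mul_le_mul_of_nonneg_right this hk.le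
  · refine h2.trans ?_
    have : E.s ^ (-(C : ℝ)) ≤ E.s ^ (-((C + 1 : ℕ) : ℝ)) := gn_s_anti E (by push_cast; linarith)
    exact mul_le_mul_of_nonneg_right this hk.le

/-- **summation of the tails**: a common bound `B` for the normalised functionals of all tails bounds the readout of the labels `S`.
PLAN: `gn_sum_below`, `gn_tl_rd`, `gn_rd_of_val` for each tail (valid by `gn_tl_valid`), `gn_eb_facts`. -/
theorem gn_tail_sum (hT : P.Tight) (E : Xp P) (hE : E.Valid) (C : ℕ) {k : ℕ} {st1 st2 : List (Stg P)} (hc : E.CutAt k st1 st2) (κ' : ℝ) (hκ : 0 < κ') (b' : ℕ)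
    (hst : ∀ i ∈ ivs E.k0 E.i0 k, E.at' k i st1 ∈ P.Pl b' ∧ P.Reg (tmL k i) k b' κ' (E.at' k i st1)) (S : Finset (Fin E.L)) (B : ℝ) (hB : 0 ≤ B)
    (h : ∀ i ∈ ivs E.k0 E.i0 k, (E.tl k i (E.at' k i st1) (E.eb C (E.at' k i st1)) κ' b' st2 (S ∩ E.below k i)).val ≤ B) :
    ∑ l ∈ S, E.tr l ≤ B * 2 ^ (-(((E.kf - k : ℕ) : ℝ) / 2)) * Real.sqrt κ' * (∑ i ∈ ivs E.k0 E.i0 k, ‖E.at' k i st1‖ ^ 2 + E.s ^ (C : ℝ) * E.e) := by
  classical
  have hf := gn_eb_facts hT E hE C hc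
  rw [gn_sum_below E hE hc.2.2.2.1 hc.2.2.2.2 S]
  have h1 : ∀ i ∈ ivs E.k0 E.i0 k, ∑ l ∈ S ∩ E.below k i, E.tr l ≤ B * 2 ^ (-(((E.kf - k : ℕ) : ℝ) / 2)) * Real.sqrt κ' * E.eb C (E.at' k i st1) := by
    intro i hi
    have hV := gn_tl_valid E hE hc i (E.at' k i st1) (E.eb C (E.at' k i st1)) κ' b' (S ∩ E.below k i) Finset.inter_subset_right
      (hf.1 i).1 hκ (hf.1 i).2.1 (hst i hi).1 (hst i hi).2
    rw [← gn_tl_rd E hc i (E.eb C (E.at' k i st1)) κ' b' (S ∩ E.below k i) Finset.inter_subset_right, gn_rd_of_val _ hV]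
    have h2 := h i hi
    have h3 : (0 : ℝ) ≤ 2 ^ (-(((E.kf - k : ℕ) : ℝ) / 2)) * (E.eb C (E.at' k i st1) * Real.sqrt κ') :=
      mul_nonneg (gn_two_pos _).le (mul_nonneg (hf.1 i).1.le (Real.sqrt_nonneg _))
    calc _ ≤ 2 ^ (-(((E.kf - k : ℕ) : ℝ) / 2)) * (E.eb C (E.at' k i st1) * Real.sqrt κ') * B := mul_le_mul_of_nonneg_left h2 h3
      _ = _ := by ring
  refine (Finset.sum_le_sum h1).trans ?_
  rw [← Finset.mul_sum]
  exact mul_le_mul_of_nonneg_left hf.2 (by have := gn_two_pos (-(((E.kf - k : ℕ) : ℝ) / 2)); positivity)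

/-! ## prefix -/

/-- **validity of a prefix** -/
theorem gn_pre_valid (E : Xp P) (hE : E.Valid) {k : ℕ} {st1 st2 : List (Stg P)} (hc : E.CutAt k st1 st2) (bT' : ℕ) {L' : ℕ} (iv' : Fin L' → ℕ)
    (ts' : Fin L' → P.Tst) (th' : Fin L' → P.X → ℝ) (hiv : ∀ l, iv' l ∈ ivs E.k0 E.i0 k) (hok : ∀ l, P.ok (ts' l) k) (hw : ∀ l, 0 < P.wt (ts' l))
    (hm : ∀ l, Measurable (th' l)) (h0 : ∀ l x, 0 ≤ th' l x) (hsupp : ∀ l x, th' l x ≠ 0 → x ∈ P.cell (ts' l) (tmL k (iv' l)) k)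
    (hsum : ∀ i x, ∑ l, (if iv' l = i then th' l x else 0) ≤ 1) :
    (E.pre (k - E.k0) st1 bT' iv' ts' th').Valid := by
  have hkf : (E.pre (k - E.k0) st1 bT' iv' ts' th').kf = k := Nat.add_sub_of_le hc.2.2.2.1
  have hmem : ∀ σ ∈ st1, σ ∈ E.st := fun σ hσ => by rw [hc.1]; exact List.mem_append_left _ hσ
  refine
    { e_pos := hE.e_pos, ka_pos := hE.ka_pos, budget := hE.budget, plat := hE.plat, reg := hE.reg,
      st_dep := fun σ hσ => ⟨(hE.st_dep σ (hmem σ hσ)).1, by rw [hkf]; exact hc.2.1 σ hσ⟩,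
      st_mono := ?_,
      st_meas := fun σ hσ => hE.st_meas σ (hmem σ hσ),
      st_bd := fun σ hσ => hE.st_bd σ (hmem σ hσ),
      iv_in := fun l => by rw [hkf]; exact (gn_mem_ivs _ _ _ _).1 (hiv l),
      ts_ok := fun l => by rw [hkf]; exact hok l,
      w_pos := hw, th_meas := hm, th_nn := h0,
      th_supp := fun l => by rw [hkf]; exact hsupp l,
      th_sum := hsum }
  have := hE.st_mono
  rw [hc.1] at this
  exact (List.pairwise_append.1 this).1

/-- masses of a prefix -/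
theorem gn_pre_m (E : Xp P) {k : ℕ} (hk : E.k0 ≤ k) (st1 : List (Stg P)) (bT' : ℕ) {L' : ℕ} (iv' : Fin L' → ℕ)
    (ts' : Fin L' → P.Tst) (th' : Fin L' → P.X → ℝ) (l : Fin L') :
    (E.pre (k - E.k0) st1 bT' iv' ts' th').m l = P.en (tmL k (iv' l)) k bT' (th' l) (E.at' k (iv' l) st1) ∧
      (E.pre (k - E.k0) st1 bT' iv' ts' th').w l = P.wt (ts' l) := by
  have hkf : (E.pre (k - E.k0) st1 bT' iv' ts' th').kf = k := Nat.add_sub_of_le hk
  refine ⟨?_, rfl⟩
  unfold Xp.m Xp.fin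
  rw [hkf]
  rfl

/-- **the heavy tests of a peel level are the labels of a prefix experiment**.
PLAN: `choose` the data of `IsLvl.suc` for every `i ∈ ivs`; index type `Σ i : ivs .., Fin (m i)`, enumerated by `Fintype.equivFin`; `th' = 1_{R a}`; `gn_pre_valid`, `gn_pre_m`;
`raw = Σ_i ms (S i) = Σ_i Σ_a ms (R a)` (`gn_ms_iUnion`; `(1_S)^2 = 1_S`);  `ms (R a) ≤ ms (cell ∩ S) ≤ 2 β w` (`IsLvl.reg`). -/
theorem gn_lvl_pre (hT : P.Tight) (E : Xp P) (hE : E.Valid) {st1 st2 : List (Stg P)} {σ : Stg P} {β : ℝ} (h : E.LvlAt st1 σ st2 β) :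
    ∃ (L' : ℕ) (iv' : Fin L' → ℕ) (ts' : Fin L' → P.Tst) (th' : Fin L' → P.X → ℝ), (E.pre (σ.k - E.k0) st1 σ.b iv' ts' th').Valid ∧
      (∀ l, β * (E.pre (σ.k - E.k0) st1 σ.b iv' ts' th').w l < (E.pre (σ.k - E.k0) st1 σ.b iv' ts' th').m l ∧
        (E.pre (σ.k - E.k0) st1 σ.b iv' ts' th').m l ≤ 2 * β * (E.pre (σ.k - E.k0) st1 σ.b iv' ts' th').w l) ∧
      (E.pre (σ.k - E.k0) st1 σ.b iv' ts' th').tm = E.raw st1 σ := by
  classical
  set I := ivs E.k0 E.i0 σ.k with hI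
  -- choose the data
  have hex : ∀ i : I, ∃ (S : Set P.X) (m : ℕ) (Qs : Fin m → P.Tst) (R : Fin m → Set P.X),
      IsLvl P (tmL σ.k i) σ.k σ.b (E.at' σ.k i st1) β S ∧ σ.M i = S.indicator (fun _ => 1) ∧
      (∀ a, P.ok (Qs a) σ.k ∧ MeasurableSet (R a) ∧ R a ⊆ P.cell (Qs a) (tmL σ.k i) σ.k) ∧
      (∀ a a', a ≠ a' → Disjoint (R a) (R a')) ∧ S = ⋃ a, R a ∧ ∀ a, β * P.wt (Qs a) < P.ms (tmL σ.k i) σ.k σ.b (R a) (E.at' σ.k i st1) := by
    intro i
    obtain ⟨S, hS, hM⟩ := h.lvl i i.2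
    obtain ⟨m, Qs, R, h1, h2, h3, h4⟩ := hS.suc
    exact ⟨S, m, Qs, R, hS, hM, h1, h2, h3, h4⟩
  choose S m Qs R hS hM h1 h2 h3 h4 using hex
  let e := Fintype.equivFin (Σ i : I, Fin (m i))
  let iv' : Fin (Fintype.card (Σ i : I, Fin (m i))) → ℕ := fun l => ((e.symm l).1 : ℕ)
  let ts' : Fin (Fintype.card (Σ i : I, Fin (m i))) → P.Tst := fun l => Qs (e.symm l).1 (e.symm l).2
  let th' : Fin (Fintype.card (Σ i : I, Fin (m i))) → P.X → ℝ := fun l => (R (e.symm l).1 (e.symm l).2).indicator fun _ => 1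
  have hcut : E.CutAt σ.k st1 (σ :: st2) := h.cut
  have hm' : ∀ l, (E.pre (σ.k - E.k0) st1 σ.b iv' ts' th').m l = P.ms (tmL σ.k (iv' l)) σ.k σ.b (R (e.symm l).1 (e.symm l).2) (E.at' σ.k (iv' l) st1) :=
    fun l => (gn_pre_m E hcut.2.2.2.1 st1 σ.b iv' ts' th' l).1
  refine ⟨_, iv', ts', th', ?_, fun l => ⟨?_, ?_⟩, ?_⟩
  · refine gn_pre_valid E hE hcut σ.b iv' ts' th' (fun l => (e.symm l).1.2) (fun l => (h1 _ _).1) (fun l => hT.wt_pos _ _ (h1 _ _).1)
      (fun l => (gn_mask_ind (h1 _ _).2.1).1) (fun l x => ((gn_mask_ind (h1 _ _).2.1).2 x).1) (fun l x hx => ?_) (fun i x => ?_)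
    · apply (h1 _ _).2.2
      by_contra hx'
      exact hx (Set.indicator_of_notMem hx' _)
    · -- sum over labels of one interval
      have hsw : ∑ l, (if iv' l = i then th' l x else 0) = ∑ z : (Σ i : I, Fin (m i)), (if (z.1 : ℕ) = i then (R z.1 z.2).indicator (fun _ => (1 : ℝ)) x else 0) :=
        Equiv.sum_comp e.symm (fun z : (Σ i : I, Fin (m i)) => if (z.1 : ℕ) = i then (R z.1 z.2).indicator (fun _ => (1 : ℝ)) x else 0)
      rw [hsw, Fintype.sum_sigma]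
      by_cases hi : i ∈ I
      · rw [Finset.sum_eq_single (⟨i, hi⟩ : I)]
        · simp only [if_true]
          -- disjoint indicators
          have : ∑ a, (R ⟨i, hi⟩ a).indicator (fun _ => (1 : ℝ)) x = (⋃ a, R ⟨i, hi⟩ a).indicator (fun _ => (1 : ℝ)) x := by
            by_cases hx : x ∈ ⋃ a, R ⟨i, hi⟩ a
            · obtain ⟨a, ha⟩ := Set.mem_iUnion.1 hx
              rw [Set.indicator_of_mem hx, Finset.sum_eq_single a]
              · exact Set.indicator_of_mem ha _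
              · intro a' _ hne
                apply Set.indicator_of_notMem
                intro ha'
                exact (Set.disjoint_left.1 (h2 _ a' a hne) ha') ha
              · intro hh; exact absurd (Finset.mem_univ _) hh
            · rw [Set.indicator_of_notMem hx]
              apply Finset.sum_eq_zero
              intro a _
              apply Set.indicator_of_notMem
              intro ha
              exact hx (Set.mem_iUnion.2 ⟨a, ha⟩)
          rw [this]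
          by_cases hx : x ∈ ⋃ a, R ⟨i, hi⟩ a
          · rw [Set.indicator_of_mem hx]
          · rw [Set.indicator_of_notMem hx]; exact zero_le_one
        · intro i' _ hne
          apply Finset.sum_eq_zero
          intro a _
          rw [if_neg]
          intro hh
          exact hne (Subtype.ext hh)
        · intro hh; exact absurd (Finset.mem_univ _) hh
      · rw [Finset.sum_eq_zero]
        · exact zero_le_one
        · intro i' _
          apply Finset.sum_eq_zero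
          intro a _
          rw [if_neg]
          intro hh
          exact hi (hh ▸ i'.2)
  · rw [hm']
    exact h4 _ _
  · rw [hm']
    have hl := hS (e.symm l).1
    refine le_trans ?_ (hl.reg _ (h1 (e.symm l).1 (e.symm l).2).1)
    refine gn_ms_mono _ _ _ (h1 _ _).2.1 ((hT.cellM _ _ _).inter hl.meas) ?_ _
    intro x hx
    refine ⟨(h1 _ _).2.2 hx, ?_⟩
    rw [h3]
    exact Set.mem_iUnion.2 ⟨_, hx⟩
  · unfold Xp.tm Xp.raw
    simp_rw [hm']
    have hsw : ∑ l, P.ms (tmL σ.k (iv' l)) σ.k σ.b (R (e.symm l).1 (e.symm l).2) (E.at' σ.k (iv' l) st1)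
        = ∑ z : (Σ i : I, Fin (m i)), P.ms (tmL σ.k (z.1 : ℕ)) σ.k σ.b (R z.1 z.2) (E.at' σ.k (z.1 : ℕ) st1) :=
      Equiv.sum_comp e.symm (fun z : (Σ i : I, Fin (m i)) => P.ms (tmL σ.k (z.1 : ℕ)) σ.k σ.b (R z.1 z.2) (E.at' σ.k (z.1 : ℕ) st1))
    refine hsw.trans ?_
    rw [Fintype.sum_sigma]
    rw [← Finset.sum_coe_sort I]
    refine Finset.sum_congr rfl fun i _ => ?_
    show ∑ a, P.ms (tmL σ.k (i : ℕ)) σ.k σ.b (R i a) (E.at' σ.k (i : ℕ) st1) = _
    rw [← gn_ms_iUnion _ _ _ _ (fun a => (h1 i a).2.1) (h2 i), ← h3, hM]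
    unfold PkSys.ms
    congr 1
    ext x
    by_cases hx : x ∈ S i <;> simp [hx]

end Claimed.Agent.R256
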