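-- KEEP
import Claimed.Agent.R256.Gen.Cons

/-!
# Row 256, GENERIC THEORY : PREFIX, TAIL          (statements helper207; architect helper199; prefix `gn_`)

Paper free.
-/

set_option autoImplicit false

namespace Claimed.Agent.R256

open MeasureTheory

/-- **prefix experiments stay in the class** (package `C' ≥ C / a0`, same tail order).   PLAN: `C' = ⌈C / a0⌉₊ + C`; `hS C A C' A p E E'` needs `C n ≤ C' n'` (from `a0 n ≤ n'`) and `A n' ≤ A n`. -/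
theorem gn_prefix_cls (M : Mdl) (hS : M.AdmScale) (C : ℕ) (a0 : ℝ) (ha : 0 < a0) :
    ∃ C' : ℕ, C ≤ C' ∧ ∀ (A : ℕ) (p : M.Par) (E E' : Xp (M.sys p)), M.Cls C A p E → E'.Valid → Mdl.SameRoot E E' → E'.st.length ≤ C →
      E'.GenLe C → a0 * E.n ≤ E'.n → E'.n ≤ E.n → M.Cls C' A p E' := by
  refine ⟨⌈(C : ℝ) / a0⌉₊ + C, Nat.le_add_left _ _, fun A p E E' hE hV hR hl hg h1 h2 => ?_⟩
  have hC : C ≤ ⌈(C : ℝ) / a0⌉₊ + C := Nat.le_add_left _ _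
  refine ⟨hE.1, hV, hl.trans hC, ⟨hg.1.trans hC, hg.2.1.trans hC, fun σ hσ => (hg.2.2 σ hσ).trans hC⟩, ?_⟩
  refine hS C A _ A p E E' hE.1 hE.2.2.2.2 hR ?_ (Nat.mul_le_mul_left _ h2)
  have h3 : (C : ℝ) * E.n ≤ ((⌈(C : ℝ) / a0⌉₊ + C : ℕ) : ℝ) * E'.n := by
    have h4 : (C : ℝ) / a0 ≤ ⌈(C : ℝ) / a0⌉₊ := Nat.le_ceil _
    have h5 : (C : ℝ) * E.n = (C : ℝ) / a0 * (a0 * E.n) := by field_simp
    push_cast
    have h6 : (0 : ℝ) ≤ E'.n := Nat.cast_nonneg _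
    have h7 : (0 : ℝ) ≤ (C : ℝ) / a0 := by positivity
    have h8 : (0 : ℝ) ≤ C := Nat.cast_nonneg _
    calc (C : ℝ) * E.n = (C : ℝ) / a0 * (a0 * E.n) := h5
      _ ≤ (C : ℝ) / a0 * E'.n := by gcongr
      _ ≤ ⌈(C : ℝ) / a0⌉₊ * E'.n := by gcongr
      _ ≤ (⌈(C : ℝ) / a0⌉₊ + C) * E'.n := by nlinarith
  exact_mod_cast h3

/-- **PREFIX, class form** (for `gn_comp`, `gn_pminK`): a bound on a class `Pr` of experiments passes to the prefixes that belong to `Pr`.   PLAN: as `gn_prefix`.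
(`gn_prefix`, `gn_prefix_min` are the cases `Pr = True`, `Pr = (≤ K stages, heavy labels)`.) -/
theorem gn_prefix_on (M : Mdl) (hS : M.AdmScale) (γ : ℝ) (Pr : (p : M.Par) → Xp (M.sys p) → Prop)
    (hγ : ∀ (C : ℕ) (ε : ℝ), 0 < ε → ∃ A n0 : ℕ, ∀ (p : M.Par) (E : Xp (M.sys p)), n0 ≤ E.n → M.Cls C A p E → Pr p E → E.val ≤ 2 ^ ((γ + ε) * E.n))
    (C : ℕ) (a0 ε : ℝ) (ha : 0 < a0) (hε : 0 < ε) :
    ∃ A n0 : ℕ, ∀ (p : M.Par) (E E' : Xp (M.sys p)), n0 ≤ E.n → M.Cls C A p E → E'.Valid → Mdl.SameRoot E E' → E'.st.length ≤ C →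
      E'.GenLe C → a0 * E.n ≤ E'.n → E'.n ≤ E.n → Pr p E' → E'.val ≤ 2 ^ ((γ + ε) * E'.n) := by
  obtain ⟨C', -, hC'⟩ := gn_prefix_cls M hS C a0 ha
  obtain ⟨A, n0, H⟩ := hγ C' ε hε
  refine ⟨A, ⌈(n0 : ℝ) / a0⌉₊, fun p E E' hn hE hV hR hl hg h1 h2 hP => H p E' ?_ (hC' A p E E' hE hV hR hl hg h1 h2) hP⟩
  have h3 : (n0 : ℝ) / a0 ≤ E.n := (Nat.le_ceil _).trans (by exact_mod_cast hn)
  rw [div_le_iff₀ ha] at h3
  have : (n0 : ℝ) ≤ E'.n := by linarith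
  exact_mod_cast this

/-- **PREFIX**: the rate on experiments with the same root and a shorter relative length `≥ a0 n`.   PLAN: `gn_prefix_cls`, `hγ C' ε` gives `A, n0'`; `n0 = ⌈n0' / a0⌉₊`. -/
theorem gn_prefix (M : Mdl) (hS : M.AdmScale) (γ : ℝ) (hγ : M.Rate γ) (C : ℕ) (a0 ε : ℝ) (ha : 0 < a0) (hε : 0 < ε) :
    ∃ A n0 : ℕ, ∀ (p : M.Par) (E E' : Xp (M.sys p)), n0 ≤ E.n → M.Cls C A p E → E'.Valid → Mdl.SameRoot E E' → E'.st.length ≤ C →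
      E'.GenLe C → a0 * E.n ≤ E'.n → E'.n ≤ E.n → E'.val ≤ 2 ^ ((γ + ε) * E'.n) := by
  obtain ⟨A, n0, H⟩ := gn_prefix_on M hS γ (fun _ _ => True) (fun C ε hε => by
    obtain ⟨A, n0, H⟩ := hγ C ε hε
    exact ⟨A, n0, fun p E hn hE _ => H p E hn hE⟩) C a0 ε ha hε
  exact ⟨A, n0, fun p E E' hn hE hV hR hl hg h1 h2 => H p E E' hn hE hV hR hl hg h1 h2 trivial⟩

/-- **tails stay in the class**.   PLAN: `hG.tail (C+1) a0` gives `C1`; `C' = max C1 (C+1)`; given `A'`, it gives `A, n0`.   `Cls (C+1) A p E` by `gn_cls_mono`; `gn_tl_valid` (`gn_eb_facts`), `gn_tl_istail`;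
`adm C1 A'` of the tail, then `adm C' A'` by `hG.scale` (same experiment); `st2.length ≤ C`, generations `≤ C`. -/
theorem gn_tail_cls (M : Mdl) (g : ℝ) (hG : M.Gen g) (C : ℕ) (a0 : ℝ) (ha : 0 < a0) :
    ∃ C' : ℕ, ∀ A' : ℕ, ∃ A n0 : ℕ, ∀ (p : M.Par) (E : Xp (M.sys p)), n0 ≤ E.n → M.Cls C A p E →
      ∀ (k b' i : ℕ) (st1 st2 : List (Stg (M.sys p))) (κ' : ℝ) (S : Finset (Fin E.L)), E.CutAt k st1 st2 → a0 * E.n ≤ ((E.kf - k : ℕ) : ℝ) → b' ≤ C →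
        E.s ^ (C : ℝ) * E.ka ≤ κ' → κ' ≤ E.s ^ (-(C : ℝ)) * E.ka → i ∈ ivs E.k0 E.i0 k →
        E.at' k i st1 ∈ (M.sys p).Pl b' → (M.sys p).Reg (tmL k i) k b' κ' (E.at' k i st1) → S ⊆ E.below k i →
        M.Cls C' A' p (E.tl k i (E.at' k i st1) (E.eb C (E.at' k i st1)) κ' b' st2 S) := by
  obtain ⟨C1, H1⟩ := hG.tail (C + 1) a0 ha
  refine ⟨max C1 (C + 1), fun A' => ?_⟩
  obtain ⟨A, n0, H⟩ := H1 A'
  refine ⟨A, n0, fun p E hn hE k b' i st1 st2 κ' S hc hk hb h1 h2 hi hpl hreg hS => ?_⟩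
  have hT := hG.tight p hE.1
  have hV := hE.2.1
  have hf := (gn_eb_facts hT E hV C hc).1 i
  have hκ : 0 < κ' := lt_of_lt_of_le (mul_pos (Real.rpow_pos_of_pos (gn_s_pos E) _) hV.ka_pos) h1
  have hV' := gn_tl_valid E hV hc i (E.at' k i st1) (E.eb C (E.at' k i st1)) κ' b' S hS hf.1 hκ hf.2.1 hpl hreg
  have hadm := H p E _ hn (gn_cls_mono M hG.scale (Nat.le_succ C) hE) hV' (gn_tl_istail hT E hV C hE.2.2.1 hE.2.2.2.1 hc hi κ' b' S h1 h2) hk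
  have hC : C ≤ max C1 (C + 1) := (Nat.le_succ C).trans (le_max_right _ _)
  have hmem : ∀ σ ∈ st2, σ ∈ E.st := fun σ hσ => by rw [hc.1]; exact List.mem_append_right _ hσ
  refine ⟨hE.1, hV', ?_, ⟨hb.trans hC, hE.2.2.2.1.2.1.trans hC, fun σ hσ => (hE.2.2.2.1.2.2 σ (hmem σ hσ)).trans hC⟩, ?_⟩
  · have : st2.length ≤ E.st.length := by rw [hc.1, List.length_append]; omega
    exact (this.trans hE.2.2.1).trans hC
  · exact hG.scale C1 A' _ A' p _ _ hE.1 hadm ⟨rfl, rfl, rfl, rfl, rfl, rfl⟩ (Nat.mul_le_mul_right _ (le_max_left _ _)) (le_refl _)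

/-- **TAIL, class form** (for `gn_comp`, `gn_comp_on`, `gn_pminK`): a bound `2^((γ+ε) n)` on a class `Th` of experiments passes to the labels `S` of `E` if all the tails at the cut belong to `Th`.
PLAN: as `gn_tail` (`gn_tail_cls`, `gn_tail_sum`).   (`gn_tail`, `gn_tail_min` are special cases.) -/
theorem gn_tail_on (M : Mdl) (g : ℝ) (hG : M.Gen g) (γ : ℝ) (Th : (p : M.Par) → Xp (M.sys p) → Prop)
    (hγ : ∀ (C : ℕ) (ε : ℝ), 0 < ε → ∃ A n0 : ℕ, ∀ (p : M.Par) (E : Xp (M.sys p)), n0 ≤ E.n → M.Cls C A p E → Th p E → E.val ≤ 2 ^ ((γ + ε) * E.n))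
    (C : ℕ) (a0 ε : ℝ) (ha : 0 < a0) (hε : 0 < ε) :
    ∃ A n0 : ℕ, ∀ (p : M.Par) (E : Xp (M.sys p)), n0 ≤ E.n → M.Cls C A p E →
      ∀ (k b' : ℕ) (st1 st2 : List (Stg (M.sys p))) (κ' : ℝ) (S : Finset (Fin E.L)), E.CutAt k st1 st2 → a0 * E.n ≤ ((E.kf - k : ℕ) : ℝ) → b' ≤ C →
        E.s ^ (C : ℝ) * E.ka ≤ κ' → κ' ≤ E.s ^ (-(C : ℝ)) * E.ka →
        (∀ i ∈ ivs E.k0 E.i0 k, E.at' k i st1 ∈ (M.sys p).Pl b' ∧ (M.sys p).Reg (tmL k i) k b' κ' (E.at' k i st1)) →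
        (∀ i ∈ ivs E.k0 E.i0 k, Th p (E.tl k i (E.at' k i st1) (E.eb C (E.at' k i st1)) κ' b' st2 (S ∩ E.below k i))) →
        ∑ l ∈ S, E.tr l ≤ 2 ^ (-((1 / 2 - γ - ε) * ((E.kf - k : ℕ) : ℝ))) * Real.sqrt κ' *
          (∑ i ∈ ivs E.k0 E.i0 k, ‖E.at' k i st1‖ ^ 2 + E.s ^ (C : ℝ) * E.e) := by
  obtain ⟨C', HC⟩ := gn_tail_cls M g hG C a0 ha
  obtain ⟨A', n0', H⟩ := hγ C' ε hε
  obtain ⟨A, n0, HA⟩ := HC A'
  refine ⟨A, max n0 ⌈(n0' : ℝ) / a0⌉₊, fun p E hn hE k b' st1 st2 κ' S hc hk hb h1 h2 hst hTh => ?_⟩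
  have hT := hG.tight p hE.1
  have hV := hE.2.1
  have hκ : 0 < κ' := lt_of_lt_of_le (mul_pos (Real.rpow_pos_of_pos (gn_s_pos E) _) hV.ka_pos) h1
  have hn' : n0' ≤ E.kf - k := by
    have h3 : (n0' : ℝ) / a0 ≤ E.n := (Nat.le_ceil _).trans (by exact_mod_cast (le_max_right _ _).trans hn)
    rw [div_le_iff₀ ha] at h3
    have : (n0' : ℝ) ≤ ((E.kf - k : ℕ) : ℝ) := by linarith
    exact_mod_cast this
  have hval : ∀ i ∈ ivs E.k0 E.i0 k, (E.tl k i (E.at' k i st1) (E.eb C (E.at' k i st1)) κ' b' st2 (S ∩ E.below k i)).val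
      ≤ 2 ^ ((γ + ε) * ((E.kf - k : ℕ) : ℝ)) := fun i hi =>
    H p _ hn' (HA p E ((le_max_left _ _).trans hn) hE k b' i st1 st2 κ' _ hc hk hb h1 h2 hi (hst i hi).1 (hst i hi).2 Finset.inter_subset_right) (hTh i hi)
  refine (gn_tail_sum hT E hV C hc κ' hκ b' hst S _ (gn_two_pos _).le hval).trans (le_of_eq ?_)
  rw [← gn_two_add]
  congr 3
  ring

/-- **TAIL**: the rate on all tails at a cut `k` with `kf - k ≥ a0 n`; the states at the cut are `κ'`-regular at a plateau generation `b'`.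
PLAN: `gn_tail_cls` gives `C'`; `hγ C' ε` gives `A', n0'`; then `A, n0`; every tail (labels `univ ∩ below k i`) has `val ≤ 2^((γ+ε) n')`, `n' = kf - k ≥ a0 n ≥ n0'`; `gn_tail_sum` with `S = univ`, `gn_rd_eq`. -/
theorem gn_tail (M : Mdl) (g : ℝ) (hG : M.Gen g) (γ : ℝ) (hγ : M.Rate γ) (C : ℕ) (a0 ε : ℝ) (ha : 0 < a0) (hε : 0 < ε) :
    ∃ A n0 : ℕ, ∀ (p : M.Par) (E : Xp (M.sys p)), n0 ≤ E.n → M.Cls C A p E →
      ∀ (k b' : ℕ) (st1 st2 : List (Stg (M.sys p))) (κ' : ℝ), E.CutAt k st1 st2 → a0 * E.n ≤ ((E.kf - k : ℕ) : ℝ) → b' ≤ C →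
        E.s ^ (C : ℝ) * E.ka ≤ κ' → κ' ≤ E.s ^ (-(C : ℝ)) * E.ka →
        (∀ i ∈ ivs E.k0 E.i0 k, E.at' k i st1 ∈ (M.sys p).Pl b' ∧ (M.sys p).Reg (tmL k i) k b' κ' (E.at' k i st1)) →
        E.rd ≤ 2 ^ (-((1 / 2 - γ - ε) * ((E.kf - k : ℕ) : ℝ))) * Real.sqrt κ' *
          (∑ i ∈ ivs E.k0 E.i0 k, ‖E.at' k i st1‖ ^ 2 + E.s ^ (C : ℝ) * E.e) := by
  obtain ⟨A, n0, H⟩ := gn_tail_on M g hG γ (fun _ _ => True) (fun C ε hε => by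
    obtain ⟨A, n0, H⟩ := hγ C ε hε
    exact ⟨A, n0, fun p E hn hE _ => H p E hn hE⟩) C a0 ε ha hε
  refine ⟨A, n0, fun p E hn hE k b' st1 st2 κ' hc hk hb h1 h2 hst => ?_⟩
  rw [gn_rd_eq]
  exact H p E hn hE k b' st1 st2 κ' Finset.univ hc hk hb h1 h2 hst fun _ _ => trivial

/-- **TAIL, minimal form**: if all labels of `S` have mass exponent `≤ p0 - ξ` RELATIVE TO THE TAILS (`m ≥ κ' w (2^-(kf-k))^(p0-ξ)`), the tails lose a package free power `τ`.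
PLAN: as `gn_tail` with `hmin ξ` (`hmin : M.PMin K p`; the tails have the stack `st2`, `≤ K` stages) in place of `hγ`; masses of the tails by `gn_tl_m`; `(tl).s = 2⁻¹^(kf-k)`. -/
theorem gn_tail_min (M : Mdl) (g : ℝ) (hG : M.Gen g) (K : ℕ∞) (p : ℝ) (hmin : M.PMin K p) (ξ : ℝ) (hξ : 0 < ξ) :
    ∃ τ : ℝ, 0 < τ ∧ ∀ (C : ℕ) (a0 : ℝ), 0 < a0 → ∃ A n0 : ℕ, ∀ (q : M.Par) (E : Xp (M.sys q)), n0 ≤ E.n → M.Cls C A q E →
      ∀ (k b' : ℕ) (st1 st2 : List (Stg (M.sys q))) (κ' : ℝ) (S : Finset (Fin E.L)), E.CutAt k st1 st2 → (st2.length : ℕ∞) ≤ K →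
        a0 * E.n ≤ ((E.kf - k : ℕ) : ℝ) → b' ≤ C →
        E.s ^ (C : ℝ) * E.ka ≤ κ' → κ' ≤ E.s ^ (-(C : ℝ)) * E.ka →
        (∀ i ∈ ivs E.k0 E.i0 k, E.at' k i st1 ∈ (M.sys q).Pl b' ∧ (M.sys q).Reg (tmL k i) k b' κ' (E.at' k i st1)) →
        (∀ l ∈ S, κ' * E.w l * 2 ^ (-((p - ξ) * ((E.kf - k : ℕ) : ℝ))) ≤ E.m l) →
        ∑ l ∈ S, E.tr l ≤ 2 ^ (-((1 / 2 - M.Gam + τ) * ((E.kf - k : ℕ) : ℝ))) * Real.sqrt κ' *
          (∑ i ∈ ivs E.k0 E.i0 k, ‖E.at' k i st1‖ ^ 2 + E.s ^ (C : ℝ) * E.e) := by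
  obtain ⟨τ, hτ, H⟩ := hmin ξ hξ
  refine ⟨τ / 2, by positivity, fun C a0 ha => ?_⟩
  obtain ⟨A, n0, HA⟩ := gn_tail_on M g hG (M.Gam - τ)
    (fun q E => (E.st.length : ℕ∞) ≤ K ∧ ∀ l, E.ka * E.w l * E.s ^ (p - ξ) ≤ E.m l) (fun C ε hε => by
      obtain ⟨A, n0, H'⟩ := H C
      refine ⟨A, n0, fun q E hn hE hTh => (H' q E hn hE hTh.1 hTh.2).trans (gn_two_mono ?_)⟩
      have : (0 : ℝ) ≤ E.n := Nat.cast_nonneg _
      nlinarith) C a0 (τ / 2) ha (by positivity)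
  refine ⟨A, n0, fun q E hn hE k b' st1 st2 κ' S hc hK hk hb h1 h2 hst hl => ?_⟩
  have := HA q E hn hE k b' st1 st2 κ' S hc hk hb h1 h2 hst (fun i hi => ⟨hK, fun a => ?_⟩)
  · refine this.trans (le_of_eq ?_)
    congr 4
    ring
  · have hm := gn_tl_m E hc i (E.eb C (E.at' k i st1)) κ' b' (S ∩ E.below k i) Finset.inter_subset_right a
    rw [hm.1, hm.2.1, gn_s_rpow]
    exact hl _ (Finset.mem_inter.1 (gn_sel_mem E _ a)).1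

/-- **PREFIX, minimal form**.   PLAN: as `gn_prefix` with `hmin ξ`. -/
theorem gn_prefix_min (M : Mdl) (hS : M.AdmScale) (K : ℕ∞) (p : ℝ) (hmin : M.PMin K p) (ξ : ℝ) (hξ : 0 < ξ) :
    ∃ τ : ℝ, 0 < τ ∧ ∀ (C : ℕ) (a0 : ℝ), 0 < a0 → ∃ A n0 : ℕ, ∀ (q : M.Par) (E E' : Xp (M.sys q)), n0 ≤ E.n → M.Cls C A q E → E'.Valid →
      Mdl.SameRoot E E' → E'.st.length ≤ C → (E'.st.length : ℕ∞) ≤ K → E'.GenLe C → a0 * E.n ≤ E'.n → E'.n ≤ E.n →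
      (∀ l, E'.ka * E'.w l * E'.s ^ (p - ξ) ≤ E'.m l) → E'.val ≤ 2 ^ ((M.Gam - τ) * E'.n) := by
  obtain ⟨τ, hτ, H⟩ := hmin ξ hξ
  refine ⟨τ / 2, by positivity, fun C a0 ha => ?_⟩
  obtain ⟨A, n0, HA⟩ := gn_prefix_on M hS (M.Gam - τ)
    (fun q E => (E.st.length : ℕ∞) ≤ K ∧ ∀ l, E.ka * E.w l * E.s ^ (p - ξ) ≤ E.m l) (fun C ε hε => by
      obtain ⟨A, n0, H'⟩ := H C
      refine ⟨A, n0, fun q E hn hE hTh => (H' q E hn hE hTh.1 hTh.2).trans (gn_two_mono ?_)⟩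
      have : (0 : ℝ) ≤ E.n := Nat.cast_nonneg _
      nlinarith) C a0 (τ / 2) ha (by positivity)
  refine ⟨A, n0, fun q E E' hn hE hV hR hl hK hg h1 h2 hh => (HA q E E' hn hE hV hR hl hg h1 h2 ⟨hK, hh⟩).trans (le_of_eq ?_)⟩
  congr 2
  ring

end Claimed.Agent.R256
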