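-- KEEP
import Claimed.Agent.R256.Gen.BasC

/-!
# Row 256, GENERIC THEORY : TRI, SPLIT          (statements helper207; architect helper199; prefix `gn_`)

Paper free.   `rd^{1/3}` is a weighted `ℓ³` norm of Hilbert seminorms of the states at a cut.
-/

set_option autoImplicit false

namespace Claimed.Agent.R256

open MeasureTheory

theorem gn_l3_aux_pow (u c : ℝ) (hu : 0 ≤ u) (hc : 0 ≤ c) : (u * c ^ (1 / 3 : ℝ)) ^ (3 : ℝ) = u ^ 3 * c := by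
  rw [Real.mul_rpow hu (Real.rpow_nonneg hc _), ← Real.rpow_mul hc]
  norm_num

theorem gn_l3_aux_add {L : ℕ} (c : Fin L → ℝ) (hc : ∀ l, 0 ≤ c l) (u v : Fin L → ℝ) (hu : ∀ l, 0 ≤ u l) (hv : ∀ l, 0 ≤ v l) :
    (∑ l, (u l + v l) ^ 3 * c l) ^ (1 / 3 : ℝ) ≤ (∑ l, u l ^ 3 * c l) ^ (1 / 3 : ℝ) + (∑ l, v l ^ 3 * c l) ^ (1 / 3 : ℝ) := by
  have key := Real.Lp_add_le_of_nonneg (Finset.univ : Finset (Fin L)) (f := fun l => u l * c l ^ (1 / 3 : ℝ))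
    (g := fun l => v l * c l ^ (1 / 3 : ℝ)) (p := 3) (by norm_num)
    (fun l _ => mul_nonneg (hu l) (Real.rpow_nonneg (hc l) _)) (fun l _ => mul_nonneg (hv l) (Real.rpow_nonneg (hc l) _))
  have e1 : ∀ l, (u l * c l ^ (1 / 3 : ℝ) + v l * c l ^ (1 / 3 : ℝ)) ^ (3 : ℝ) = (u l + v l) ^ 3 * c l := by
    intro l
    rw [← add_mul]
    exact gn_l3_aux_pow _ _ (add_nonneg (hu l) (hv l)) (hc l)
  simp only [e1, gn_l3_aux_pow _ _ (hu _) (hc _), gn_l3_aux_pow _ _ (hv _) (hc _)] at key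
  exact key

/-- Minkowski in weighted `ℓ³`, finite sums.   PLAN: induction on `J` from `Real.Lp_add_le_of_nonneg` (`p = 3`) applied to `x j l * c l ^ (1/3)`; monotonicity of `t ↦ t^3`. -/
theorem gn_l3 {L : ℕ} (c : Fin L → ℝ) (hc : ∀ l, 0 ≤ c l) {ι : Type} (J : Finset ι) (a : Fin L → ℝ) (x : ι → Fin L → ℝ)
    (ha : ∀ l, 0 ≤ a l) (hx : ∀ j l, 0 ≤ x j l) (h : ∀ l, a l ≤ ∑ j ∈ J, x j l) :
    (∑ l, a l ^ 3 * c l) ^ (1 / 3 : ℝ) ≤ ∑ j ∈ J, (∑ l, x j l ^ 3 * c l) ^ (1 / 3 : ℝ) := by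
  classical
  have step1 : (∑ l, a l ^ 3 * c l) ^ (1 / 3 : ℝ) ≤ (∑ l, (∑ j ∈ J, x j l) ^ 3 * c l) ^ (1 / 3 : ℝ) := by
    refine Real.rpow_le_rpow (Finset.sum_nonneg fun l _ => mul_nonneg (pow_nonneg (ha l) 3) (hc l)) ?_ (by norm_num)
    exact Finset.sum_le_sum fun l _ => mul_le_mul_of_nonneg_right (pow_le_pow_left₀ (ha l) (h l) 3) (hc l)
  refine step1.trans ?_
  clear step1 h ha a
  induction J using Finset.induction_on with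
  | empty => simp
  | insert j J hj ih =>
    simp only [Finset.sum_insert hj]
    refine (gn_l3_aux_add c hc (x j) (fun l => ∑ i ∈ J, x i l) (hx j) (fun l => Finset.sum_nonneg fun i _ => hx i l)).trans ?_
    exact add_le_add le_rfl ih

/-- the cubic readout as a function of the states `Ψ i` at the intervals `i` of depth `k`, followed by the stack `st2` -/
noncomputable def Xp.rdc {P : PkSys} (E : Xp P) (k : ℕ) (st2 : List (Stg P)) (Ψ : ℕ → P.Kc) : ℝ :=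
  ∑ l, P.en (tmL E.kf (E.iv l)) E.kf E.bT (E.th l) (Xp.run E.kf (E.iv l) st2 (Ψ (ancI E.kf k (E.iv l)))) ^ (3 / 2 : ℝ) / Real.sqrt (E.w l)

theorem gn_rdc_eqns_cite : True := by
  have := @Xp.rdc.eq_1
  trivial

/-- PLAN: `gn_fin_cut`. -/
theorem gn_rd_eq_rdc {P : PkSys} (E : Xp P) {k : ℕ} {st1 st2 : List (Stg P)} (hc : E.CutAt k st1 st2) :
    E.rd = E.rdc k st2 fun i => E.at' k i st1 := by
  unfold Xp.rd Xp.rdc
  refine Finset.sum_congr rfl fun l _ => ?_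
  unfold Xp.m
  rw [gn_fin_cut E hc]

/-- PLAN: `gn_iv_anc`. -/
theorem gn_rdc_congr {P : PkSys} (E : Xp P) (hE : E.Valid) {k : ℕ} (h0 : E.k0 ≤ k) (h1 : k ≤ E.kf) (st2 : List (Stg P)) {Ψ Ψ' : ℕ → P.Kc}
    (h : ∀ i ∈ ivs E.k0 E.i0 k, Ψ i = Ψ' i) : E.rdc k st2 Ψ = E.rdc k st2 Ψ' := by
  unfold Xp.rdc
  refine Finset.sum_congr rfl fun l _ => ?_
  rw [h _ (gn_iv_anc E hE h0 h1 l)]

/-- **the triangle inequality at a cut**.   PLAN: `t^(3/2) = (√t)^3`, `gn_run_sum`, `gn_en_tri_sum`, `gn_l3` with `c l = 1/√(w l)`. -/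
theorem gn_rdc_tri {P : PkSys} (E : Xp P) (hE : E.Valid) (k : ℕ) (st2 : List (Stg P)) (h2 : StM st2) {ι : Type} (J : Finset ι) (Ψ : ι → ℕ → P.Kc) :
    (E.rdc k st2 fun i => ∑ j ∈ J, Ψ j i) ^ (1 / 3 : ℝ) ≤ ∑ j ∈ J, (E.rdc k st2 (Ψ j)) ^ (1 / 3 : ℝ) := by
  have hpow : ∀ t : ℝ, 0 ≤ t → t ^ (3 / 2 : ℝ) = Real.sqrt t ^ 3 := by
    intro t ht
    rw [Real.sqrt_eq_rpow, ← Real.rpow_natCast, ← Real.rpow_mul ht]
    norm_num
  have hen : ∀ (l : Fin E.L) (u : P.Kc), 0 ≤ P.en (tmL E.kf (E.iv l)) E.kf E.bT (E.th l) u := fun l u => gn_en_nonneg _ _ _ (hE.th_nn l) u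
  have hr : ∀ Φ : ℕ → P.Kc, E.rdc k st2 Φ = ∑ l, Real.sqrt (P.en (tmL E.kf (E.iv l)) E.kf E.bT (E.th l)
      (Xp.run E.kf (E.iv l) st2 (Φ (ancI E.kf k (E.iv l))))) ^ 3 * (Real.sqrt (E.w l))⁻¹ := by
    intro Φ
    unfold Xp.rdc
    refine Finset.sum_congr rfl fun l _ => ?_
    rw [hpow _ (hen l _), div_eq_mul_inv]
  rw [hr]
  simp_rw [hr (Ψ _)]
  refine gn_l3 (fun l => (Real.sqrt (E.w l))⁻¹) (fun l => by positivity) J _ _ (fun l => Real.sqrt_nonneg _) (fun j l => Real.sqrt_nonneg _) fun l => ?_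
  rw [gn_run_sum _ _ _ h2]
  exact gn_en_tri_sum _ _ _ (gn_th_mask E hE l) J _

/-- **TRI**: `rd^{1/3}` is subadditive in the root state.   PLAN: `(E.withV u).rd = E.rdc E.k0 E.st (fun _ => u)` by `rfl`/`unfold`, then `gn_rdc_tri`. -/
theorem gn_tri {P : PkSys} (hT : P.Tight) (E : Xp P) (hE : E.Valid) {ι : Type} (J : Finset ι) (u : ι → P.Kc) :
    (E.withV (∑ j ∈ J, u j)).rd ^ (1 / 3 : ℝ) ≤ ∑ j ∈ J, (E.withV (u j)).rd ^ (1 / 3 : ℝ) :=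
  gn_rdc_tri E hE E.k0 E.st (gn_valid_stm E hE) J fun j _ => u j

/-- **SPLIT**: a partition of unity on the rows at a cut, inserted as a stage of a plateau generation.
PLAN: `gn_rd_eq_rdc`; `(E.withSt (st1 ++ ⟨k,b,Mk j⟩ :: st2)).rd = E.rdc k st2 (fun i => P.tz (tmL k i) k b (Mk j i) (E.at' k i st1))` (`gn_run_append`, `gn_run_anc`, `gn_anc_self`);
`gn_tz_part` + `gn_rdc_congr`; `gn_rdc_tri`. -/
theorem gn_split {P : PkSys} (hT : P.Tight) (E : Xp P) (hE : E.Valid) (k b : ℕ) (st1 st2 : List (Stg P)) (hc : E.CutAt k st1 st2)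
    (hpl : ∀ i ∈ ivs E.k0 E.i0 k, E.at' k i st1 ∈ P.Pl b) {ι : Type} (J : Finset ι) (Mk : ι → ℕ → P.X → ℝ)
    (hM : ∀ j ∈ J, ∀ i, IsMask (Mk j i)) (hsum : ∀ i x, ∑ j ∈ J, Mk j i x = 1) :
    E.rd ^ (1 / 3 : ℝ) ≤ ∑ j ∈ J, (E.withSt (st1 ++ ⟨k, b, Mk j⟩ :: st2)).rd ^ (1 / 3 : ℝ) := by
  have h1 : ∀ j, (E.withSt (st1 ++ ⟨k, b, Mk j⟩ :: st2)).rd = E.rdc k st2 (fun i => P.tz (tmL k i) k b (Mk j i) (E.at' k i st1)) := by
    intro j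
    unfold Xp.rd Xp.rdc
    refine Finset.sum_congr rfl fun l _ => ?_
    have : (E.withSt (st1 ++ ⟨k, b, Mk j⟩ :: st2)).fin (E.iv l)
        = Xp.run E.kf (E.iv l) st2 (P.tz (tmL k (ancI E.kf k (E.iv l))) k b (Mk j (ancI E.kf k (E.iv l))) (E.at' k (ancI E.kf k (E.iv l)) st1)) := by
      show Xp.run E.kf (E.iv l) (st1 ++ ⟨k, b, Mk j⟩ :: st2) E.v = _
      rw [gn_run_append, gn_run_anc hc.2.2.2.2 _ st1 hc.2.1]
      rfl
    show P.en _ _ _ _ ((E.withSt (st1 ++ ⟨k, b, Mk j⟩ :: st2)).fin (E.iv l)) ^ (3 / 2 : ℝ) / _ = _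
    rw [this]
    rfl
  simp_rw [h1]
  rw [gn_rd_eq_rdc E hc, gn_rdc_congr E hE hc.2.2.2.1 hc.2.2.2.2 st2 (Ψ' := fun i => ∑ j ∈ J, P.tz (tmL k i) k b (Mk j i) (E.at' k i st1))
    (fun i hi => (gn_tz_part hT _ _ _ (hpl i hi) J (fun j => Mk j i) (fun j hj => hM j hj i) (hsum i)).symm)]
  exact gn_rdc_tri E hE k st2 (gn_cut_stm E hE hc).2 J _

end Claimed.Agent.R256
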