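-- KEEP
import Claimed.Agent.R256.Gen.Tail
import Claimed.Agent.R256.Gen.Tri
import Claimed.Agent.R256.Gen.Peel

/-!
# Row 256, GENERIC THEORY : ONE PEEL LEVEL; THE PEELED DECOMPOSITION AT A CUT          (architects helper199, helper207; prefix `gn_`)

Paper free.   First part: moved verbatim from `Gen/SS2a.lean` (facts on `E.LvlAt st1 σ st2 β` that do not use minimality).   Second part: `gn_dec`, `gn_lvl_ps`.
`ψ_i = E.at' σ.k i st1` (before the stage), `φ_i = E.at' σ.k i (st1 ++ [σ])` (after).   `raw = Σ_i ms (S_i) ψ_i`, `post = Σ_i ‖φ_i‖²`.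
-/

set_option autoImplicit false

namespace Claimed.Agent.R256

open MeasureTheory

variable {P : PkSys}

/-- the cut after the stage -/
theorem gn_lvl_cut (E : Xp P) {st1 st2 : List (Stg P)} {σ : Stg P} {β : ℝ} (h : E.LvlAt st1 σ st2 β) : E.CutAt σ.k (st1 ++ [σ]) st2 := by
  obtain ⟨h1, h2, h3, h4, h5⟩ := h.cut
  refine ⟨by rw [h1]; simp, fun σ' hσ' => ?_, fun σ' hσ' => h3 σ' (List.mem_cons_of_mem _ hσ'), h4, h5⟩
  rcases List.mem_append.1 hσ' with h' | h'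
  · exact h2 σ' h'
  · rw [List.mem_singleton.1 h']

/-- the state after the stage -/
theorem gn_lvl_at (E : Xp P) (st1 : List (Stg P)) (σ : Stg P) (i : ℕ) :
    E.at' σ.k i (st1 ++ [σ]) = P.tz (tmL σ.k i) σ.k σ.b (σ.M i) (E.at' σ.k i st1) := by
  unfold Xp.at'
  rw [gn_run_append]
  simp only [Xp.run]
  rw [gn_anc_self]

theorem gn_lvl_mask (E : Xp P) (hE : E.Valid) {st1 st2 : List (Stg P)} {σ : Stg P} {β : ℝ} (h : E.LvlAt st1 σ st2 β) (i : ℕ) : IsMask (σ.M i) :=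
  gn_valid_stm E hE σ (by rw [h.cut.1]; simp) i

/-- synthesis is a contraction.   PLAN: `gn_lvl_at`, `gn_tz_normsq_le`. -/
theorem gn_post_le_raw (hT : P.Tight) (E : Xp P) (hE : E.Valid) {st1 st2 : List (Stg P)} {σ : Stg P} {β : ℝ} (h : E.LvlAt st1 σ st2 β) :
    E.post st1 σ ≤ E.raw st1 σ := by
  unfold Xp.post Xp.raw
  refine Finset.sum_le_sum fun i _ => ?_
  rw [gn_lvl_at]
  exact gn_tz_normsq_le hT _ _ _ (gn_lvl_mask E hE h i) _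

/-- `post ≤ 2^j e`.   PLAN: `gn_at_norm_le` for the cut `gn_lvl_cut`, `gn_ivs_card`. -/
theorem gn_post_le (hT : P.Tight) (E : Xp P) (hE : E.Valid) {st1 st2 : List (Stg P)} {σ : Stg P} {β : ℝ} (h : E.LvlAt st1 σ st2 β) :
    E.post st1 σ ≤ 2 ^ (σ.k - E.k0) * E.e := by
  unfold Xp.post
  refine (Finset.sum_le_sum fun i _ => gn_at_norm_le hT E hE (gn_lvl_cut E h) i).trans ?_
  rw [Finset.sum_const, gn_ivs_card, nsmul_eq_mul]
  push_cast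
  exact le_refl _

/-- a nonzero readout needs a nonzero post energy.   PLAN: if `post ≤ 0` all `φ_i = 0` (`i ∈ ivs`), `gn_fin_cut` + `gn_iv_anc` + `gn_run_zero` + `gn_en_zero`: all `m l = 0`, `rd = 0`. -/
theorem gn_post_pos (E : Xp P) (hE : E.Valid) {st1 st2 : List (Stg P)} {σ : Stg P} {β : ℝ} (h : E.LvlAt st1 σ st2 β) (hrd : 0 < E.rd) :
    0 < E.post st1 σ := by
  by_contra hcon
  have hc := gn_lvl_cut E h
  have h0 : ∀ i ∈ ivs E.k0 E.i0 σ.k, E.at' σ.k i (st1 ++ [σ]) = 0 := by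
    intro i hi
    have h1 : E.post st1 σ = 0 := le_antisymm (not_lt.1 hcon) (Finset.sum_nonneg fun _ _ => by positivity)
    unfold Xp.post at h1
    have h2 := (Finset.sum_eq_zero_iff_of_nonneg (fun _ _ => by positivity)).1 h1 i hi
    exact norm_eq_zero.1 (pow_eq_zero_iff (by norm_num) |>.1 h2)
  have h3 : E.rd = 0 := by
    rw [gn_rd_eq]
    refine Finset.sum_eq_zero fun l _ => ?_
    unfold Xp.tr Xp.m
    rw [gn_fin_cut E hc, h0 _ (gn_iv_anc E hE hc.2.2.2.1 hc.2.2.2.2 l), gn_run_zero, gn_en_zero, Real.zero_rpow (by norm_num), zero_div]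
  linarith

/-- a level with a nonzero raw energy has a positive threshold.   PLAN: `gn_lvl_pre`: `tm = raw > 0` gives a label `l`; `β w < m ≤ 2 β w`, `w > 0`. -/
theorem gn_lvl_beta_pos (hT : P.Tight) (E : Xp P) (hE : E.Valid) {st1 st2 : List (Stg P)} {σ : Stg P} {β : ℝ} (h : E.LvlAt st1 σ st2 β)
    (hraw : 0 < E.raw st1 σ) : 0 < β := by
  obtain ⟨L', iv', ts', th', hV, hl, htm⟩ := gn_lvl_pre hT E hE h
  rw [← htm] at hraw
  unfold Xp.tm at hraw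
  obtain ⟨l, -, -⟩ := Finset.exists_ne_zero_of_sum_ne_zero hraw.ne'
  have h1 := hl l
  have h2 := hV.w_pos l
  by_contra hβ
  have h3 : β ≤ 0 := not_lt.1 hβ
  nlinarith [h1.1, h1.2]

/-- **a row projection**: if the energy measure of `ψ` restricted to `S` is `κ'`-regular, then `tz 1_S ψ` is `Cr κ'`-regular AT EVERY GENERATION `b' ≤ C + 1`.
PLAN: `hG.rep (C+1)` gives `Cr`; `tz = adjoint (An) F`, `F = mulR (1_S) (An ψ)`; `∫_{cell Q} |F|² = ms (cell Q ∩ S) ψ` (`gn_mulR_ind_setInt`, `gn_ms_eq`); `gn_tz_pl`. -/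
theorem gn_ind_reg (M : Mdl) (g : ℝ) (hG : M.Gen g) (C : ℕ) :
    ∃ Cr : ℝ, 1 ≤ Cr ∧ ∀ (p : M.Par), M.gd p → ∀ (T : ℝ) (k c b' : ℕ) (κ' : ℝ) (S : Set (M.sys p).X) (ψ : (M.sys p).Kc), MeasurableSet S → c ≤ C → b' ≤ C + 1 →
      (∀ Q, (M.sys p).ok Q k → (M.sys p).ms T k c ((M.sys p).cell Q T k ∩ S) ψ ≤ κ' * (M.sys p).wt Q) →
      (M.sys p).tz T k c (S.indicator fun _ => 1) ψ ∈ (M.sys p).Pl (c + 1) ∧ (M.sys p).Reg T k b' (Cr * κ') ((M.sys p).tz T k c (S.indicator fun _ => 1) ψ) := by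
  obtain ⟨Cr, hCr, H⟩ := hG.rep (C + 1)
  refine ⟨Cr, hCr, fun p hp T k c b' κ' S ψ hS hc hb h => ⟨gn_tz_pl (hG.tight p hp) _ _ _ _ _, ?_⟩⟩
  refine H p T k c b' κ' _ hp (hc.trans (Nat.le_succ _)) hb fun Q hQ => ?_
  have hcell := (hG.tight p hp).cellM Q T k
  rw [gn_mulR_ind_setInt k hS hcell, ← gn_ms_eq T k c (hcell.inter hS)]
  exact h Q hQ

/-- one more stage at the same cut keeps plateau and regularity: `tz` of a `κ'`-regular state is `Cr κ'`-regular.   PLAN: `hG.rep (C+1)`; `∫_cell |M An ψ|² ≤ ms cell ψ` (`gn_mulR_setInt_le`, `gn_ms_eq`). -/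
theorem gn_rep_stage (M : Mdl) (g : ℝ) (hG : M.Gen g) (C : ℕ) :
    ∃ Cr : ℝ, 1 ≤ Cr ∧ ∀ (p : M.Par), M.gd p → ∀ (T : ℝ) (k c b' : ℕ) (κ' : ℝ) (Mk : (M.sys p).X → ℝ) (ψ : (M.sys p).Kc), IsMask Mk → c ≤ C → b' ≤ C + 1 →
      (M.sys p).Reg T k c κ' ψ → (M.sys p).tz T k c Mk ψ ∈ (M.sys p).Pl (c + 1) ∧ (M.sys p).Reg T k b' (Cr * κ') ((M.sys p).tz T k c Mk ψ) := by
  obtain ⟨Cr, hCr, H⟩ := hG.rep (C + 1)
  refine ⟨Cr, hCr, fun p hp T k c b' κ' Mk ψ hM hc hb h => ⟨gn_tz_pl (hG.tight p hp) _ _ _ _ _, ?_⟩⟩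
  refine H p T k c b' κ' _ hp (hc.trans (Nat.le_succ _)) hb fun Q hQ => ?_
  have hcell := (hG.tight p hp).cellM Q T k
  refine (gn_mulR_setInt_le k hM hcell _).trans ?_
  rw [← gn_ms_eq T k c hcell]
  exact h Q hQ

/-- **the states after a peel level**: plateau class `σ.b + 1`, regularity `Cr · 2β` AT EVERY GENERATION `b' ≤ C + 1` (the next stage analyses at its own generation).
PLAN: `gn_ind_reg`, `gn_lvl_at`, `IsLvl.reg`; `σ.b ≤ C` from `GenLe` (`σ ∈ E.st`). -/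
theorem gn_lvl_post_reg (M : Mdl) (g : ℝ) (hG : M.Gen g) (C : ℕ) :
    ∃ Cr : ℝ, 1 ≤ Cr ∧ ∀ (p : M.Par) (E : Xp (M.sys p)), M.gd p → E.Valid → E.GenLe C →
      ∀ (st1 st2 : List (Stg (M.sys p))) (σ : Stg (M.sys p)) (β : ℝ), E.LvlAt st1 σ st2 β → ∀ i ∈ ivs E.k0 E.i0 σ.k,
        E.at' σ.k i (st1 ++ [σ]) ∈ (M.sys p).Pl (σ.b + 1) ∧
          ∀ b' ≤ C + 1, (M.sys p).Reg (tmL σ.k i) σ.k b' (Cr * (2 * β)) (E.at' σ.k i (st1 ++ [σ])) := by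
  obtain ⟨Cr, hCr, H⟩ := gn_ind_reg M g hG C
  refine ⟨Cr, hCr, fun p E hp hV hg st1 st2 σ β h i hi => ?_⟩
  obtain ⟨S, hS, hM⟩ := h.lvl i hi
  have hσ : σ.b ≤ C := hg.2.2 σ (by rw [h.cut.1]; simp)
  rw [gn_lvl_at, hM]
  exact ⟨(H p hp _ _ _ 0 _ S _ hS.meas hσ (Nat.zero_le _) hS.reg).1, fun b' hb => (H p hp _ _ _ b' _ S _ hS.meas hσ hb hS.reg).2⟩

theorem gn_cut_stok (E : Xp P) (hE : E.Valid) {C : ℕ} (hlen : E.st.length ≤ C) (hgen : E.GenLe C) {k : ℕ} {st1 st2 : List (Stg P)} (hc : E.CutAt k st1 st2) :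
    StOk E.k0 k C C st1 := by
  have hmem : ∀ σ ∈ st1, σ ∈ E.st := fun σ hσ => by rw [hc.1]; exact List.mem_append_left _ hσ
  refine ⟨?_, fun σ hσ => ⟨(hE.st_dep σ (hmem σ hσ)).1, hc.2.1 σ hσ⟩, ?_, fun σ hσ => hgen.2.2 σ (hmem σ hσ), (gn_cut_stm E hE hc).1⟩
  · have : st1.length ≤ E.st.length := by rw [hc.1, List.length_append]; omega
    omega
  · have := hE.st_mono
    rw [hc.1] at this
    exact (List.pairwise_append.1 this).1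

/-- **regularity of the states at a cut** (from `Sgl`): `Cs κ`, `Cs = Cs(C)`.
PLAN: `hG.sgl C C 1` (`ε = 1 ≤ g`) for the prefix `E.pre (k - k0) st1 b` with the single label `(i, Q, 1_cell)` (`gn_pre_valid`, `gn_pre_m`); `2^((1 - g) j) ≤ 1`; `Cs := max Cs 1`. -/
theorem gn_cut_reg (M : Mdl) (g : ℝ) (hG : M.Gen g) (C : ℕ) :
    ∃ Cs : ℝ, 1 ≤ Cs ∧ ∀ (p : M.Par) (E : Xp (M.sys p)), M.gd p → E.Valid → E.st.length ≤ C → E.GenLe C →
      ∀ (k b : ℕ) (st1 st2 : List (Stg (M.sys p))), E.CutAt k st1 st2 → b ≤ C → ∀ i ∈ ivs E.k0 E.i0 k,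
        (M.sys p).Reg (tmL k i) k b (Cs * E.ka) (E.at' k i st1) := by
  obtain ⟨Cs, hCs⟩ := hG.sgl C C 1 one_pos
  refine ⟨max Cs 1, le_max_right _ _, fun p E hp hV hl hg k b st1 st2 hc hb i hi Q hQ => ?_⟩
  have hT := hG.tight p hp
  have hcell := hT.cellM Q (tmL k i) k
  have hw := hT.wt_pos Q k hQ
  have hok := gn_cut_stok E hV hl hg hc
  set E' := E.pre (k - E.k0) st1 b (fun _ : Fin 1 => i) (fun _ => Q) (fun _ => ((M.sys p).cell Q (tmL k i) k).indicator fun _ => 1) with hE'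
  have hV' : E'.Valid := by
    refine gn_pre_valid E hV hc b _ _ _ (fun _ => hi) (fun _ => hQ) (fun _ => hw) (fun _ => (gn_mask_ind hcell).1)
      (fun _ x => ((gn_mask_ind hcell).2 x).1) (fun _ x hx => ?_) (fun i' x => ?_)
    · by_contra hx'
      exact hx (Set.indicator_of_notMem hx' _)
    · simp only [Finset.univ_unique, Finset.sum_singleton]
      split_ifs
      · exact ((gn_mask_ind hcell).2 x).2
      · exact zero_le_one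
  have h1 := hCs p E' hp hV' hok.len ⟨hg.1, hb, hok.gen⟩ (0 : Fin 1)
  rw [(gn_pre_m E hc.2.2.2.1 st1 b _ _ _ (0 : Fin 1)).1, (gn_pre_m E hc.2.2.2.1 st1 b _ _ _ (0 : Fin 1)).2] at h1
  have h2 : (2 : ℝ) ^ (1 * (E'.n : ℝ)) * 2 ^ (-(g * E'.n)) ≤ 1 := by
    rw [← gn_two_add]
    have : (1 : ℝ) = 2 ^ (0 : ℝ) := (Real.rpow_zero 2).symm
    rw [this]
    apply gn_two_mono
    have h3 : (0 : ℝ) ≤ E'.n := Nat.cast_nonneg _
    have := hG.g_pos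
    nlinarith
  have h3 : 0 < (2 : ℝ) ^ (1 * (E'.n : ℝ)) * 2 ^ (-(g * E'.n)) := mul_pos (gn_two_pos _) (gn_two_pos _)
  have h4 : 0 < E.ka * (M.sys p).wt Q := mul_pos hV.ka_pos hw
  show (M.sys p).en _ _ _ _ _ ≤ _
  calc _ ≤ Cs * 2 ^ (1 * (E'.n : ℝ)) * (E'.ka * (M.sys p).wt Q) * 2 ^ (-(g * E'.n)) := h1
    _ = Cs * ((2 : ℝ) ^ (1 * (E'.n : ℝ)) * 2 ^ (-(g * E'.n))) * (E.ka * (M.sys p).wt Q) := by
      show Cs * 2 ^ (1 * (E'.n : ℝ)) * (E.ka * (M.sys p).wt Q) * 2 ^ (-(g * E'.n)) = _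
      ring
    _ ≤ max Cs 1 * ((2 : ℝ) ^ (1 * (E'.n : ℝ)) * 2 ^ (-(g * E'.n))) * (E.ka * (M.sys p).wt Q) := by
      have := le_max_left Cs 1
      gcongr
    _ ≤ max Cs 1 * 1 * (E.ka * (M.sys p).wt Q) := by
      have : (0 : ℝ) < max Cs 1 := lt_of_lt_of_le one_pos (le_max_right _ _)
      gcongr
    _ = max Cs 1 * E.ka * (M.sys p).wt Q := by ring

theorem gn_s_pow (E : Xp P) (D : ℕ) : E.s ^ (D : ℝ) = (2 : ℝ)⁻¹ ^ (D * E.n) := by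
  rw [Real.rpow_natCast]
  unfold Xp.s
  rw [← pow_mul, mul_comm]

theorem gn_ind_part {X : Type} (S : ℕ → Set X) (J : ℕ) (hd : ∀ j j', j ≠ j' → Disjoint (S j) (S j')) (hu : (⋃ j ∈ Finset.range (J + 1), S j) = Set.univ) (x : X) :
    ∑ j ∈ Finset.range (J + 1), (S j).indicator (fun _ => (1 : ℝ)) x = 1 := by
  have hx : x ∈ ⋃ j ∈ Finset.range (J + 1), S j := by rw [hu]; exact Set.mem_univ x
  simp only [Set.mem_iUnion] at hx
  obtain ⟨j0, hj0, hx0⟩ := hx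
  rw [Finset.sum_eq_single j0]
  · exact Set.indicator_of_mem hx0 _
  · intro j _ hne
    apply Set.indicator_of_notMem
    intro hxj
    exact (Set.disjoint_left.1 (hd j j0 hne) hxj) hx0
  · intro h; exact absurd hj0 h

/-- **DEC : the peeled decomposition of an experiment at a cut**, floor `s^D`.   `J = D n` levels with thresholds `2^-(j+1) κ1`, `κ1 = Cs κ`, and the remainder `j = J`.
PLAN: `κ1` from `gn_cut_reg`; `hG.floor C D` gives `D'`, `wmin = s^D' e / κ`; for `i ∈ ivs`: `gn_peel` for `ψ_i` with `J = D n` (`2⁻¹^J = s^D`, `κ ≤ κ1`), `Mk j i = 1_{S j}`;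
for `i ∉ ivs`: `Mk 0 i = 1`, `Mk j i = 0`.   The sum is `1` since the `S j`, `j ≤ J`, partition the rows. -/
theorem gn_dec (M : Mdl) (g : ℝ) (hG : M.Gen g) (C D : ℕ) :
    ∃ Cs : ℝ, 1 ≤ Cs ∧ ∃ A n0 : ℕ, ∀ (p : M.Par) (E : Xp (M.sys p)), n0 ≤ E.n → M.Cls C A p E →
      ∀ (k b : ℕ) (st1 st2 : List (Stg (M.sys p))), E.CutAt k st1 st2 → b ≤ C → (∀ i ∈ ivs E.k0 E.i0 k, E.at' k i st1 ∈ (M.sys p).Pl b) →
      ∃ Mk : ℕ → ℕ → (M.sys p).X → ℝ, (∀ j i, IsMask (Mk j i)) ∧ (∀ i x, ∑ j ∈ Finset.range (D * E.n + 1), Mk j i x = 1) ∧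
        (∀ j < D * E.n, (E.withSt (st1 ++ ⟨k, b, Mk j⟩ :: st2)).LvlAt st1 ⟨k, b, Mk j⟩ st2 ((2 : ℝ)⁻¹ ^ (j + 1) * (Cs * E.ka))) ∧
        ∀ i ∈ ivs E.k0 E.i0 k, ∃ S : Set (M.sys p).X, MeasurableSet S ∧ Mk (D * E.n) i = S.indicator (fun _ => 1) ∧
          ∀ Q, (M.sys p).ok Q k → (M.sys p).ms (tmL k i) k b ((M.sys p).cell Q (tmL k i) k ∩ S) (E.at' k i st1) ≤ E.s ^ (D : ℝ) * (Cs * E.ka) * (M.sys p).wt Q := by
  classical
  obtain ⟨Cs, hCs, Hreg⟩ := gn_cut_reg M g hG C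
  obtain ⟨D', A, n0, Hfl⟩ := hG.floor C D
  refine ⟨Cs, hCs, A, n0, fun p E hn hE k b st1 st2 hc hb hpl => ?_⟩
  have hT := hG.tight p hE.1
  have hV := hE.2.1
  have hκ := hV.ka_pos
  have hκ1 : 0 < Cs * E.ka := by positivity
  have hs := gn_s_pos E
  set J := D * E.n with hJ
  have hwm : 0 < E.s ^ (D' : ℝ) * E.e / E.ka := div_pos (mul_pos (Real.rpow_pos_of_pos hs _) hV.e_pos) hκ
  have hex : ∀ i, ∃ S : ℕ → Set (M.sys p).X, (∀ j, MeasurableSet (S j)) ∧ (∀ j j', j ≠ j' → Disjoint (S j) (S j')) ∧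
      (⋃ j ∈ Finset.range (J + 1), S j) = Set.univ ∧ (i ∈ ivs E.k0 E.i0 k →
      (∀ j < J, IsLvl (M.sys p) (tmL k i) k b (E.at' k i st1) ((2 : ℝ)⁻¹ ^ (j + 1) * (Cs * E.ka)) (S j)) ∧
      ∀ Q, (M.sys p).ok Q k → (M.sys p).ms (tmL k i) k b ((M.sys p).cell Q (tmL k i) k ∩ S J) (E.at' k i st1) ≤ (2 : ℝ)⁻¹ ^ J * (Cs * E.ka) * (M.sys p).wt Q) := by
    intro i
    by_cases hi : i ∈ ivs E.k0 E.i0 k
    · obtain ⟨S, h1, h2, h3, h4, h5⟩ := gn_peel hT (tmL k i) k b (E.at' k i st1) (Cs * E.ka) (E.s ^ (D' : ℝ) * E.e / E.ka) J hκ1 hwm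
        (Hreg p E hE.1 hV hE.2.2.1 hE.2.2.2.1 k b st1 st2 hc hb i hi) (fun Q hQ hw => by
          by_contra hcon
          have hwq := hT.wt_pos Q k hQ
          have h6 : E.s ^ (D : ℝ) * (E.ka * (M.sys p).wt Q) < (M.sys p).ms (tmL k i) k b ((M.sys p).cell Q (tmL k i) k) (Xp.run k i st1 E.v) := by
            refine lt_of_le_of_lt ?_ (not_le.1 hcon)
            rw [gn_s_pow E D]
            have : (0 : ℝ) < (2 : ℝ)⁻¹ ^ (D * E.n) := by positivity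
            have h7 : E.ka * (M.sys p).wt Q ≤ Cs * E.ka * (M.sys p).wt Q := by
              have : 0 < E.ka * (M.sys p).wt Q := mul_pos hκ hwq
              nlinarith
            calc (2 : ℝ)⁻¹ ^ (D * E.n) * (E.ka * (M.sys p).wt Q) ≤ (2 : ℝ)⁻¹ ^ (D * E.n) * (Cs * E.ka * (M.sys p).wt Q) := by gcongr
              _ = _ := by ring
          have h8 := Hfl p E hn hE k i b st1 Q hc.2.2.2.1 hc.2.2.2.2 ((gn_mem_ivs _ _ _ _).1 hi) hb (gn_cut_stok E hV hE.2.2.1 hE.2.2.2.1 hc) hQ h6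
          rw [lt_div_iff₀ hκ] at hw
          linarith)
      exact ⟨S, h1, h2, h3, fun _ => ⟨h4, h5⟩⟩
    · refine ⟨fun j => if j = 0 then Set.univ else ∅, fun j => ?_, fun j j' hne => ?_, ?_, fun h => absurd h hi⟩
      · by_cases h0 : j = 0
        · simp [h0]
        · simp [h0]
      · by_cases h0 : j = 0
        · have : j' ≠ 0 := fun h => hne (h0.trans h.symm)
          simp [this]
        · simp [h0]
      · apply Set.eq_univ_of_forall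
        intro x
        simp only [Set.mem_iUnion]
        exact ⟨0, by simp, by simp⟩
  choose S h1 h2 h3 h4 using hex
  refine ⟨fun j i => (S i j).indicator fun _ => 1, fun j i => gn_mask_ind (h1 i j), fun i x => gn_ind_part (S i) J (h2 i) (h3 i) x, fun j hj => ?_, fun i hi => ?_⟩
  · refine ⟨⟨rfl, hc.2.1, fun σ' hσ' => ?_, hc.2.2.2.1, hc.2.2.2.2⟩, hpl, fun i hi => ⟨S i j, (h4 i hi).1 j hj, rfl⟩⟩
    rcases List.mem_cons.1 hσ' with h' | h'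
    · rw [h']
    · exact hc.2.2.1 σ' h'
  · refine ⟨S i J, h1 i J, rfl, fun Q hQ => ?_⟩
    rw [gn_s_pow E D]
    exact (h4 i hi).2 Q hQ

/-- **(PS), class form**: the bound of a class `Pr` on the heavy tests of a level: `raw √(β/κ) ≤ e 2^((γ + ε - 1/2) j)`, if all prefixes whose labels are heavier than `β w` belong to `Pr`.
PLAN: `E'` from `gn_lvl_pre`; `gn_prefix_on`: `E'.val ≤ 2^((γ+ε) j)`; `gn_le_tr` (`ρ = β`): `√β · raw ≤ E'.rd`; `E'.val = 2^(j/2)/(e √κ) E'.rd`. -/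
theorem gn_lvl_ps (M : Mdl) (g : ℝ) (hG : M.Gen g) (γ : ℝ) (Pr : (p : M.Par) → Xp (M.sys p) → Prop)
    (hγ : ∀ (C : ℕ) (ε : ℝ), 0 < ε → ∃ A n0 : ℕ, ∀ (p : M.Par) (E : Xp (M.sys p)), n0 ≤ E.n → M.Cls C A p E → Pr p E → E.val ≤ 2 ^ ((γ + ε) * E.n))
    (C : ℕ) (a0 ε : ℝ) (ha : 0 < a0) (hε : 0 < ε) :
    ∃ A n0 : ℕ, ∀ (p : M.Par) (E : Xp (M.sys p)), n0 ≤ E.n → M.Cls C A p E →
      ∀ (st1 st2 : List (Stg (M.sys p))) (σ : Stg (M.sys p)) (β : ℝ), E.LvlAt st1 σ st2 β → 0 < β → a0 * E.n ≤ ((σ.k - E.k0 : ℕ) : ℝ) →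
        (∀ (L' : ℕ) (iv' : Fin L' → ℕ) (ts' : Fin L' → (M.sys p).Tst) (th' : Fin L' → (M.sys p).X → ℝ),
          (∀ l, β * (E.pre (σ.k - E.k0) st1 σ.b iv' ts' th').w l < (E.pre (σ.k - E.k0) st1 σ.b iv' ts' th').m l) →
          Pr p (E.pre (σ.k - E.k0) st1 σ.b iv' ts' th')) →
        E.raw st1 σ * Real.sqrt (β / E.ka) ≤ E.e * 2 ^ ((γ + ε - 1 / 2) * ((σ.k - E.k0 : ℕ) : ℝ)) := by
  obtain ⟨A, n0, H⟩ := gn_prefix_on M hG.scale γ Pr hγ C a0 ε ha hε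
  refine ⟨A, n0, fun p E hn hE st1 st2 σ β h hβ hj hPr => ?_⟩
  have hT := hG.tight p hE.1
  have hV := hE.2.1
  obtain ⟨L', iv', ts', th', hV', hl, htm⟩ := gn_lvl_pre hT E hV h
  set E' := E.pre (σ.k - E.k0) st1 σ.b iv' ts' th' with hE'
  have hok := gn_cut_stok E hV hE.2.2.1 hE.2.2.2.1 h.cut
  have hσ : σ.b ≤ C := hE.2.2.2.1.2.2 σ (by rw [h.cut.1]; simp)
  have hnn : σ.k - E.k0 ≤ E.n := by
    have := h.cut.2.2.2.2
    unfold Xp.kf at this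
    omega
  have hval : E'.val ≤ 2 ^ ((γ + ε) * ((σ.k - E.k0 : ℕ) : ℝ)) :=
    H p E E' hn hE hV' ⟨rfl, rfl, rfl, rfl, rfl, rfl⟩ hok.len ⟨hE.2.2.2.1.1, hσ, hok.gen⟩ hj hnn (hPr L' iv' ts' th' fun l => (hl l).1)
  have hrd : Real.sqrt β * E.raw st1 σ ≤ E'.rd := by
    rw [← htm, gn_rd_eq]
    unfold Xp.tm
    rw [Finset.mul_sum]
    exact Finset.sum_le_sum fun l _ => gn_le_tr E' hV' l hβ.le (hl l).1.le
  rw [gn_rd_of_val E' hV'] at hrd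
  have hk : 0 < Real.sqrt E.ka := Real.sqrt_pos.mpr hV.ka_pos
  have he := hV.e_pos
  rw [Real.sqrt_div hβ.le]
  have h5 : Real.sqrt β * E.raw st1 σ ≤ 2 ^ (-(((σ.k - E.k0 : ℕ) : ℝ) / 2)) * (E.e * Real.sqrt E.ka) * 2 ^ ((γ + ε) * ((σ.k - E.k0 : ℕ) : ℝ)) := by
    refine hrd.trans ?_
    have : (0 : ℝ) ≤ 2 ^ (-(((σ.k - E.k0 : ℕ) : ℝ) / 2)) * (E.e * Real.sqrt E.ka) := by
      have := gn_two_pos (-(((σ.k - E.k0 : ℕ) : ℝ) / 2))
      positivity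
    exact mul_le_mul_of_nonneg_left hval this
  calc E.raw st1 σ * (Real.sqrt β / Real.sqrt E.ka) = Real.sqrt β * E.raw st1 σ / Real.sqrt E.ka := by ring
    _ ≤ 2 ^ (-(((σ.k - E.k0 : ℕ) : ℝ) / 2)) * (E.e * Real.sqrt E.ka) * 2 ^ ((γ + ε) * ((σ.k - E.k0 : ℕ) : ℝ)) / Real.sqrt E.ka := by gcongr
    _ = E.e * (2 ^ (-(((σ.k - E.k0 : ℕ) : ℝ) / 2)) * 2 ^ ((γ + ε) * ((σ.k - E.k0 : ℕ) : ℝ))) := by field_simp
    _ = E.e * 2 ^ ((γ + ε - 1 / 2) * ((σ.k - E.k0 : ℕ) : ℝ)) := by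
      rw [← gn_two_add]
      congr 2
      ring

end Claimed.Agent.R256
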