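-- KEEP
import Claimed.Agent.R256.Gen.Lvl

/-!
# Row 256, GENERIC THEORY : AN INSERTED ROW PROJECTION          (architect helper199; prefix `gn_`)

Paper free.   `E.ins k b st1 st2 Mk` = `E` with the stage `⟨k,b,Mk⟩` inserted at the cut `(st1 | st2)`.
`E.InsAt k b st1 st2a st2b Mk κ''`: the stack of `E` is `st1 ++ st2a ++ st2b`, `st2a` = AT MOST ONE stage of `E` AT the depth `k` of the cut; `Mk i = 1_{S_i}` and the energy measure of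
`ψ_i = E.at' k i st1` restricted to `S_i` is `κ''`-regular.   (Peel level: `κ'' = 2β`.   Remainder of `gn_dec`: `κ'' = s^D Cs κ`.)
States after the projection and `st2a`: `φ_i = E.at' k i (st1 ++ ⟨k,b,Mk⟩ :: st2a)`.   The tails start at the generation `C + 1` (`Pl (c+1) ⊆ Pl (C+1)`).
NOTE `(E.ins ..).at' = E.at'`, `(E.ins ..).raw = E.raw`, `(E.ins ..).below = E.below`, `(E.ins ..).eb = E.eb`, `(E.ins ..).tl = E.tl`, `(E.ins ..).w = E.w` BY `rfl` (they do not see the stack).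
-/

set_option autoImplicit false

namespace Claimed.Agent.R256

open MeasureTheory

/-- `E` with the stage `⟨k,b,Mk⟩` inserted at a cut -/
def Xp.ins {P : PkSys} (E : Xp P) (k b : ℕ) (st1 st2 : List (Stg P)) (Mk : ℕ → P.X → ℝ) : Xp P := E.withSt (st1 ++ ⟨k, b, Mk⟩ :: st2)

theorem gn_ins_eqns_cite : True := by
  have := @Xp.ins.eq_1
  trivial

/-- the inserted stage is a row projection with `κ''`-regular restricted energy measures -/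
structure Xp.InsAt {P : PkSys} (E : Xp P) (k b : ℕ) (st1 st2a st2b : List (Stg P)) (Mk : ℕ → P.X → ℝ) (κ'' : ℝ) : Prop where
  cut : E.CutAt k st1 (st2a ++ st2b)
  same : ∀ σ ∈ st2a, σ.k = k
  len : st2a.length ≤ 1
  msk : ∀ i, IsMask (Mk i)
  ind : ∀ i ∈ ivs E.k0 E.i0 k, ∃ S : Set P.X, MeasurableSet S ∧ Mk i = S.indicator (fun _ => 1) ∧
    ∀ Q, P.ok Q k → P.ms (tmL k i) k b (P.cell Q (tmL k i) k ∩ S) (E.at' k i st1) ≤ κ'' * P.wt Q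

variable {P : PkSys}

/-- PLAN: only the four fields on the stack change; `List.pairwise_append`, `List.pairwise_cons`. -/
theorem gn_ins_valid (E : Xp P) (hE : E.Valid) {k : ℕ} {st1 st2 : List (Stg P)} (hc : E.CutAt k st1 st2) (b : ℕ) {Mk : ℕ → P.X → ℝ} (hM : ∀ i, IsMask (Mk i)) :
    (E.ins k b st1 st2 Mk).Valid := by
  have hmem : ∀ σ ∈ st1 ++ (⟨k, b, Mk⟩ : Stg P) :: st2, σ = ⟨k, b, Mk⟩ ∨ σ ∈ E.st := by
    intro σ hσ
    rw [hc.1]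
    rcases List.mem_append.1 hσ with h | h
    · exact Or.inr (List.mem_append_left _ h)
    · rcases List.mem_cons.1 h with h | h
      · exact Or.inl h
      · exact Or.inr (List.mem_append_right _ h)
  refine
    { e_pos := hE.e_pos, ka_pos := hE.ka_pos, budget := hE.budget, plat := hE.plat, reg := hE.reg,
      st_dep := fun σ hσ => ?_,
      st_mono := ?_,
      st_meas := fun σ hσ => ?_,
      st_bd := fun σ hσ => ?_,
      iv_in := hE.iv_in, ts_ok := hE.ts_ok, w_pos := hE.w_pos, th_meas := hE.th_meas, th_nn := hE.th_nn, th_supp := hE.th_supp, th_sum := hE.th_sum }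
  · rcases hmem σ hσ with h | h
    · rw [h]; exact ⟨hc.2.2.2.1, hc.2.2.2.2⟩
    · exact hE.st_dep σ h
  · have h0 := hE.st_mono
    rw [hc.1] at h0
    obtain ⟨h1, h2, h3⟩ := List.pairwise_append.1 h0
    show List.Pairwise _ (st1 ++ (⟨k, b, Mk⟩ : Stg P) :: st2)
    refine List.pairwise_append.2 ⟨h1, List.pairwise_cons.2 ⟨fun σ' hσ' => hc.2.2.1 σ' hσ', h2⟩, fun σ hσ σ' hσ' => ?_⟩
    rcases List.mem_cons.1 hσ' with h | h
    · rw [h]; exact hc.2.1 σ hσ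
    · exact h3 σ hσ σ' h
  · rcases hmem σ hσ with h | h
    · rw [h]; exact fun i => (hM i).1
    · exact hE.st_meas σ h
  · rcases hmem σ hσ with h | h
    · rw [h]; exact fun i => (hM i).2
    · exact hE.st_bd σ h

/-- PLAN: `gn_ins_valid`; `hG.root` (same root, same `n`), then `gn_cls_mono`-type enlargement of the package by `hG.scale`. -/
theorem gn_ins_cls (M : Mdl) (g : ℝ) (hG : M.Gen g) {C A : ℕ} {p : M.Par} {E : Xp (M.sys p)} (hE : M.Cls C A p E) {k : ℕ} {st1 st2 : List (Stg (M.sys p))}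
    (hc : E.CutAt k st1 st2) {b : ℕ} (hb : b ≤ C + 1) {Mk : ℕ → (M.sys p).X → ℝ} (hM : ∀ i, IsMask (Mk i)) : M.Cls (C + 1) A p (E.ins k b st1 st2 Mk) := by
  have hC := Nat.le_succ C
  refine ⟨hE.1, gn_ins_valid E hE.2.1 hc b hM, ?_, ⟨hE.2.2.2.1.1.trans hC, hE.2.2.2.1.2.1.trans hC, fun σ hσ => ?_⟩, ?_⟩
  · have h1 := hE.2.2.1
    rw [hc.1, List.length_append] at h1
    show (st1 ++ (⟨k, b, Mk⟩ : Stg (M.sys p)) :: st2).length ≤ C + 1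
    rw [List.length_append, List.length_cons]
    omega
  · have hσ' : σ ∈ st1 ++ (⟨k, b, Mk⟩ : Stg (M.sys p)) :: st2 := hσ
    rcases List.mem_append.1 hσ' with h | h
    · exact (hE.2.2.2.1.2.2 σ (by rw [hc.1]; exact List.mem_append_left _ h)).trans hC
    · rcases List.mem_cons.1 h with h | h
      · rw [h]; exact hb
      · exact (hE.2.2.2.1.2.2 σ (by rw [hc.1]; exact List.mem_append_right _ h)).trans hC
  · exact hG.scale C A (C + 1) A p E _ hE.1 hE.2.2.2.2 ⟨rfl, rfl, rfl, rfl, rfl, rfl⟩ (Nat.mul_le_mul_right _ hC) (le_refl _)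

/-- the cut of `E.ins` behind the inserted stage and `st2a` -/
theorem gn_ins_cut (E : Xp P) {k b : ℕ} {st1 st2a st2b : List (Stg P)} {Mk : ℕ → P.X → ℝ} {κ'' : ℝ} (h : E.InsAt k b st1 st2a st2b Mk κ'') :
    (E.ins k b st1 (st2a ++ st2b) Mk).CutAt k (st1 ++ ⟨k, b, Mk⟩ :: st2a) st2b := by
  obtain ⟨h1, h2, h3, h4, h5⟩ := h.cut
  refine ⟨?_, fun σ hσ => ?_, fun σ hσ => h3 σ (List.mem_append_right _ hσ), h4, h5⟩
  · show st1 ++ (⟨k, b, Mk⟩ : Stg P) :: (st2a ++ st2b) = _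
    simp
  · rcases List.mem_append.1 hσ with h' | h'
    · exact h2 σ h'
    · rcases List.mem_cons.1 h' with h' | h'
      · rw [h']
      · exact (h.same σ h').le

/-- a peel level is an inserted projection with `κ'' = 2β` -/
theorem gn_lvl_insAt (E : Xp P) {k b : ℕ} {st1 st2a st2b : List (Stg P)} {Mk : ℕ → P.X → ℝ} {β : ℝ} (hc : E.CutAt k st1 (st2a ++ st2b))
    (h : (E.ins k b st1 (st2a ++ st2b) Mk).LvlAt st1 ⟨k, b, Mk⟩ (st2a ++ st2b) β) (hs : ∀ σ ∈ st2a, σ.k = k) (hl : st2a.length ≤ 1) (hM : ∀ i, IsMask (Mk i)) :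
    E.InsAt k b st1 st2a st2b Mk (2 * β) := by
  refine ⟨hc, hs, hl, hM, fun i hi => ?_⟩
  obtain ⟨S, hS, hMk⟩ := h.lvl i hi
  exact ⟨S, hS.meas, hMk, hS.reg⟩

/-- **the states behind an inserted projection**: plateau `C + 1`, regularity `Cr κ''` at the generation `C + 1`, energy `≤` raw energy.
PLAN: `st2a = []`: `gn_ind_reg` (`b' = C+1`), `gn_pl_mono`, `gn_tz_normsq_le`.   `st2a = [σ1]` (`σ1.k = k`, `gn_anc_self`): `gn_ind_reg` with `b' = σ1.b`, then `gn_rep_stage` (`c = σ1.b`, `b' = C+1`), `gn_tz_norm_le`.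
`Cr` := product of the two constants. -/
theorem gn_ins_states (M : Mdl) (g : ℝ) (hG : M.Gen g) (C : ℕ) :
    ∃ Cr : ℝ, 1 ≤ Cr ∧ ∀ (p : M.Par) (E : Xp (M.sys p)), M.gd p → E.Valid → E.GenLe C →
      ∀ (k b : ℕ) (st1 st2a st2b : List (Stg (M.sys p))) (Mk : ℕ → (M.sys p).X → ℝ) (κ'' : ℝ), E.InsAt k b st1 st2a st2b Mk κ'' → b ≤ C → 0 ≤ κ'' →
        ∀ i ∈ ivs E.k0 E.i0 k, E.at' k i (st1 ++ ⟨k, b, Mk⟩ :: st2a) ∈ (M.sys p).Pl (C + 1) ∧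
          (M.sys p).Reg (tmL k i) k (C + 1) (Cr * κ'') (E.at' k i (st1 ++ ⟨k, b, Mk⟩ :: st2a)) ∧
          ‖E.at' k i (st1 ++ ⟨k, b, Mk⟩ :: st2a)‖ ^ 2 ≤ (M.sys p).en (tmL k i) k b (fun x => Mk i x ^ 2) (E.at' k i st1) := by
  obtain ⟨C1, hC1, H1⟩ := gn_ind_reg M g hG C
  obtain ⟨C2, hC2, H2⟩ := gn_rep_stage M g hG C
  refine ⟨C2 * C1, by nlinarith, fun p E hp hV hg k b st1 st2a st2b Mk κ'' h hb hκ i hi => ?_⟩
  have hT := hG.tight p hp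
  obtain ⟨S, hS, hMk, hreg⟩ := h.ind i hi
  have hat : ∀ l : List (Stg (M.sys p)), E.at' k i (st1 ++ ⟨k, b, Mk⟩ :: l) = Xp.run k i l ((M.sys p).tz (tmL k i) k b (Mk i) (E.at' k i st1)) := by
    intro l
    unfold Xp.at'
    rw [gn_run_append]
    simp only [Xp.run]
    rw [gn_anc_self]
  have hn := gn_tz_normsq_le hT (tmL k i) k b (h.msk i) (E.at' k i st1)
  rw [hat]
  match st2a, h with
  | [], h =>
    simp only [Xp.run]
    have h3 := H1 p hp (tmL k i) k b (C + 1) κ'' S (E.at' k i st1) hS hb (le_refl _) hreg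
    rw [← hMk] at h3
    refine ⟨gn_pl_mono hT (Nat.succ_le_succ hb) h3.1, gn_reg_mono hT h3.2 ?_, hn⟩
    have h5 : 0 ≤ C1 * κ'' := by positivity
    nlinarith
  | [σ1], h =>
    have hk1 : σ1.k = k := h.same σ1 (by simp)
    have hb1 : σ1.b ≤ C := hg.2.2 σ1 (by rw [h.cut.1]; simp)
    have hm1 : IsMask (σ1.M i) := gn_valid_stm E hV σ1 (by rw [h.cut.1]; simp) i
    simp only [Xp.run]
    rw [hk1, gn_anc_self]
    have h3 := H1 p hp (tmL k i) k b σ1.b κ'' S (E.at' k i st1) hS hb (hb1.trans (Nat.le_succ _)) hreg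
    rw [← hMk] at h3
    have h4 := H2 p hp (tmL k i) k σ1.b (C + 1) (C1 * κ'') (σ1.M i) _ hm1 hb1 (le_refl _) h3.2
    refine ⟨gn_pl_mono hT (Nat.succ_le_succ hb1) h4.1, ?_, ?_⟩
    · rw [mul_assoc]; exact h4.2
    · refine le_trans ?_ hn
      have := gn_tz_norm_le hT (tmL k i) k σ1.b hm1 ((M.sys p).tz (tmL k i) k b (Mk i) (E.at' k i st1))
      gcongr
  | _ :: _ :: _, h =>
    exact absurd h.len (by simp)

/-- `raw ≤ 2^j e`.   PLAN: `gn_en_le` (`gn_mask_sq`), `gn_at_norm_le`, `gn_ivs_card`. -/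
theorem gn_raw_le (hT : P.Tight) (E : Xp P) (hE : E.Valid) {k : ℕ} {st1 st2 : List (Stg P)} (hc : E.CutAt k st1 st2) (b : ℕ) {Mk : ℕ → P.X → ℝ} (hM : ∀ i, IsMask (Mk i)) :
    E.raw st1 ⟨k, b, Mk⟩ ≤ 2 ^ (k - E.k0) * E.e := by
  unfold Xp.raw
  refine (Finset.sum_le_sum fun i _ => (gn_en_le hT _ _ _ (gn_mask_sq (hM i)) _).trans (gn_at_norm_le hT E hE hc i)).trans ?_
  rw [Finset.sum_const, gn_ivs_card, nsmul_eq_mul]
  push_cast
  exact le_refl _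

theorem gn_raw_nonneg (E : Xp P) (st1 : List (Stg P)) (σ : Stg P) : 0 ≤ E.raw st1 σ :=
  Finset.sum_nonneg fun i _ => gn_en_nonneg _ _ _ (fun x => by positivity) _

theorem gn_ins_len (E : Xp P) {C : ℕ} (hl : E.st.length ≤ C) {k : ℕ} {st1 st2 : List (Stg P)} (hc : E.CutAt k st1 st2) (b : ℕ) (Mk : ℕ → P.X → ℝ) :
    (E.ins k b st1 st2 Mk).st.length ≤ C + 1 := by
  rw [hc.1, List.length_append] at hl
  show (st1 ++ (⟨k, b, Mk⟩ : Stg P) :: st2).length ≤ C + 1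
  rw [List.length_append, List.length_cons]
  omega

theorem gn_ins_gen (E : Xp P) {C : ℕ} (hg : E.GenLe C) {k : ℕ} {st1 st2 : List (Stg P)} (hc : E.CutAt k st1 st2) {b : ℕ} (hb : b ≤ C + 1) (Mk : ℕ → P.X → ℝ) :
    (E.ins k b st1 st2 Mk).GenLe (C + 1) := by
  have hC := Nat.le_succ C
  refine ⟨hg.1.trans hC, hg.2.1.trans hC, fun σ hσ => ?_⟩
  have hσ' : σ ∈ st1 ++ (⟨k, b, Mk⟩ : Stg P) :: st2 := hσ
  rcases List.mem_append.1 hσ' with h | h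
  · exact (hg.2.2 σ (by rw [hc.1]; exact List.mem_append_left _ h)).trans hC
  · rcases List.mem_cons.1 h with h | h
    · rw [h]; exact hb
    · exact (hg.2.2 σ (by rw [hc.1]; exact List.mem_append_right _ h)).trans hC

/-- **the single time bound on the tails at a cut**: no setup is needed.
PLAN: for the label `l`, `i = ancI kf k (iv l)`: the tail `E.tl k i ψ_i (‖ψ_i‖² + 1) κ' b' st2 {l}` is valid (`gn_tl_valid`); `hG.sgl C C 1`: `m ≤ Cs 2^n' κ' w 2^(-g n') ≤ Cs κ' w` (`1 ≤ g`); `gn_tl_m`. -/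
theorem gn_cut_m_le (M : Mdl) (g : ℝ) (hG : M.Gen g) (C : ℕ) :
    ∃ Cs : ℝ, 1 ≤ Cs ∧ ∀ (p : M.Par) (E : Xp (M.sys p)), M.gd p → E.Valid → E.st.length ≤ C → E.GenLe C →
      ∀ (k b' : ℕ) (st1 st2 : List (Stg (M.sys p))) (κ' : ℝ), E.CutAt k st1 st2 → b' ≤ C → 0 < κ' →
        (∀ i ∈ ivs E.k0 E.i0 k, E.at' k i st1 ∈ (M.sys p).Pl b' ∧ (M.sys p).Reg (tmL k i) k b' κ' (E.at' k i st1)) →
        ∀ l, E.m l ≤ Cs * κ' * E.w l := by
  classical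
  obtain ⟨Cs, hCs⟩ := hG.sgl C C 1 one_pos
  refine ⟨max Cs 1, le_max_right _ _, fun p E hp hV hl hg k b' st1 st2 κ' hc hb hκ hst l => ?_⟩
  set i := ancI E.kf k (E.iv l) with hi
  have hii : i ∈ ivs E.k0 E.i0 k := gn_iv_anc E hV hc.2.2.2.1 hc.2.2.2.2 l
  have hS : ({l} : Finset (Fin E.L)) ⊆ E.below k i := by
    intro l' hl'
    rw [Finset.mem_singleton.1 hl']
    unfold Xp.below
    simp [hi]
  set E' := E.tl k i (E.at' k i st1) (‖E.at' k i st1‖ ^ 2 + 1) κ' b' st2 {l} with hE'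
  have hV' : E'.Valid := gn_tl_valid E hV hc i _ _ κ' b' {l} hS (by positivity) hκ (by linarith) (hst i hii).1 (hst i hii).2
  have hmem : ∀ σ ∈ st2, σ ∈ E.st := fun σ hσ => by rw [hc.1]; exact List.mem_append_right _ hσ
  have hlen : E'.st.length ≤ C := by
    have : st2.length ≤ E.st.length := by rw [hc.1, List.length_append]; omega
    exact this.trans hl
  have a : Fin ({l} : Finset (Fin E.L)).card := ⟨0, by simp⟩
  have h1 := hCs p E' hp hV' hlen ⟨hb, hg.2.1, fun σ hσ => hg.2.2 σ (hmem σ hσ)⟩ a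
  have hm := gn_tl_m E hc i (‖E.at' k i st1‖ ^ 2 + 1) κ' b' {l} hS a
  have hsel : E.sel {l} a = l := Finset.mem_singleton.1 (gn_sel_mem E {l} a)
  rw [hm.1, hm.2.1, hsel] at h1
  have h2 : (2 : ℝ) ^ (1 * (E'.n : ℝ)) * 2 ^ (-(g * E'.n)) ≤ 1 := by
    rw [← gn_two_add]
    have : (1 : ℝ) = 2 ^ (0 : ℝ) := (Real.rpow_zero 2).symm
    rw [this]
    apply gn_two_mono
    have h3 : (0 : ℝ) ≤ E'.n := Nat.cast_nonneg _
    have := hG.g_pos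
    nlinarith
  have h3 : 0 < (2 : ℝ) ^ (1 * (E'.n : ℝ)) * 2 ^ (-(g * E'.n)) := mul_pos (gn_two_pos _) (gn_two_pos _)
  have h4 : 0 < κ' * E.w l := mul_pos hκ (hV.w_pos l)
  calc E.m l ≤ Cs * 2 ^ (1 * (E'.n : ℝ)) * (E'.ka * E.w l) * 2 ^ (-(g * E'.n)) := h1
    _ = Cs * ((2 : ℝ) ^ (1 * (E'.n : ℝ)) * 2 ^ (-(g * E'.n))) * (κ' * E.w l) := by
      show Cs * 2 ^ (1 * (E'.n : ℝ)) * (κ' * E.w l) * 2 ^ (-(g * E'.n)) = _
      ring
    _ ≤ max Cs 1 * ((2 : ℝ) ^ (1 * (E'.n : ℝ)) * 2 ^ (-(g * E'.n))) * (κ' * E.w l) := by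
      have := le_max_left Cs 1
      gcongr
    _ ≤ max Cs 1 * 1 * (κ' * E.w l) := by
      have : (0 : ℝ) < max Cs 1 := lt_of_lt_of_le one_pos (le_max_right _ _)
      gcongr
    _ = max Cs 1 * κ' * E.w l := by ring

/-- the labels below one interval of a cut read at most `2^n'` times the energy of the state there.
PLAN: `Σ_{l ∈ below k i} m l = Σ_{i' ∈ ivs k i kf} Σ_l [iv l = i'] m l` , `gn_m_sum_iv`, `gn_fin_cut`, `gn_run_norm_le`, `gn_ivs_card`. -/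
theorem gn_below_total (hT : P.Tight) (E : Xp P) (hE : E.Valid) {k : ℕ} {st1 st2 : List (Stg P)} (hc : E.CutAt k st1 st2) (i : ℕ) :
    ∑ l ∈ E.below k i, E.m l ≤ 2 ^ (E.kf - k) * ‖E.at' k i st1‖ ^ 2 := by
  classical
  have h1 : ∑ l ∈ E.below k i, E.m l = ∑ i' ∈ ivs k i E.kf, ∑ l, (if E.iv l = i' then E.m l else 0) := by
    rw [Finset.sum_comm]
    unfold Xp.below
    rw [Finset.sum_filter]
    refine Finset.sum_congr rfl fun l _ => ?_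
    rw [Finset.sum_ite_eq]
    simp only [gn_mem_ivs]
  rw [h1]
  have h2 : ∀ i' ∈ ivs k i E.kf, ∑ l, (if E.iv l = i' then E.m l else 0) ≤ ‖E.at' k i st1‖ ^ 2 := by
    intro i' hi'
    refine (gn_m_sum_iv hT E hE i').trans ?_
    rw [gn_fin_cut E hc, (gn_mem_ivs _ _ _ _).1 hi']
    have := gn_run_norm_le hT E.kf i' st2 (gn_cut_stm E hE hc).2 (E.at' k i st1)
    gcongr
  refine (Finset.sum_le_sum h2).trans ?_
  rw [Finset.sum_const, gn_ivs_card, nsmul_eq_mul]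
  push_cast
  exact le_refl _

/-- **the crude bound on the tails**: no setup is needed, no lower bound on the length of the tails.   PLAN: `gn_cut_m_le`, `gn_tr_le` (`ρ = Cs κ'`), `gn_sum_below`, `gn_below_total`; `√Cs ≤ Cs`, `2^n' ≤ 2^(2n')`. -/
theorem gn_crude (M : Mdl) (g : ℝ) (hG : M.Gen g) (C : ℕ) :
    ∃ Cs : ℝ, 1 ≤ Cs ∧ ∀ (p : M.Par) (E : Xp (M.sys p)), M.gd p → E.Valid → E.st.length ≤ C → E.GenLe C →
      ∀ (k b' : ℕ) (st1 st2 : List (Stg (M.sys p))) (κ' : ℝ), E.CutAt k st1 st2 → b' ≤ C → 0 < κ' →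
        (∀ i ∈ ivs E.k0 E.i0 k, E.at' k i st1 ∈ (M.sys p).Pl b' ∧ (M.sys p).Reg (tmL k i) k b' κ' (E.at' k i st1)) →
        E.rd ≤ Cs * 2 ^ (2 * ((E.kf - k : ℕ) : ℝ)) * Real.sqrt κ' * ∑ i ∈ ivs E.k0 E.i0 k, ‖E.at' k i st1‖ ^ 2 := by
  classical
  obtain ⟨Cs, hCs, H⟩ := gn_cut_m_le M g hG C
  refine ⟨Cs, hCs, fun p E hp hV hl hg k b' st1 st2 κ' hc hb hκ hst => ?_⟩
  have hT := hG.tight p hp
  have hm := H p E hp hV hl hg k b' st1 st2 κ' hc hb hκ hst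
  have hsq : Real.sqrt (Cs * κ') ≤ Cs * Real.sqrt κ' := by
    rw [Real.sqrt_mul (by linarith)]
    have : Real.sqrt Cs ≤ Cs := by
      rw [Real.sqrt_le_left (by linarith)]
      nlinarith
    have := Real.sqrt_nonneg κ'
    gcongr
  have hsum : (0 : ℝ) ≤ ∑ i ∈ ivs E.k0 E.i0 k, ‖E.at' k i st1‖ ^ 2 := Finset.sum_nonneg fun _ _ => by positivity
  have h2 : (2 : ℝ) ^ (E.kf - k) ≤ 2 ^ (2 * ((E.kf - k : ℕ) : ℝ)) := by
    rw [← gn_two_nat]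
    apply gn_two_mono
    have : (0 : ℝ) ≤ ((E.kf - k : ℕ) : ℝ) := Nat.cast_nonneg _
    linarith
  rw [gn_rd_eq]
  calc ∑ l, E.tr l ≤ ∑ l, Real.sqrt (Cs * κ') * E.m l := Finset.sum_le_sum fun l _ => gn_tr_le E hV l (hm l)
    _ = Real.sqrt (Cs * κ') * ∑ l, E.m l := by rw [Finset.mul_sum]
    _ = Real.sqrt (Cs * κ') * ∑ i ∈ ivs E.k0 E.i0 k, ∑ l ∈ Finset.univ ∩ E.below k i, E.m l := by
      rw [← gn_sum_below E hV hc.2.2.2.1 hc.2.2.2.2 Finset.univ]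
    _ ≤ Real.sqrt (Cs * κ') * ∑ i ∈ ivs E.k0 E.i0 k, 2 ^ (E.kf - k) * ‖E.at' k i st1‖ ^ 2 := by
      refine mul_le_mul_of_nonneg_left (Finset.sum_le_sum fun i _ => ?_) (Real.sqrt_nonneg _)
      rw [Finset.univ_inter]
      exact gn_below_total hT E hV hc i
    _ = Real.sqrt (Cs * κ') * 2 ^ (E.kf - k) * ∑ i ∈ ivs E.k0 E.i0 k, ‖E.at' k i st1‖ ^ 2 := by rw [← Finset.mul_sum]; ring
    _ ≤ (Cs * Real.sqrt κ') * 2 ^ (2 * ((E.kf - k : ℕ) : ℝ)) * ∑ i ∈ ivs E.k0 E.i0 k, ‖E.at' k i st1‖ ^ 2 := by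
      have := Real.sqrt_nonneg κ'
      gcongr
    _ = _ := by ring

/-- **masses behind an inserted projection**: `m' ≤ Cs κ'' w`.   PLAN: `gn_ins_states`, `gn_ins_cut`, `gn_ins_valid`, `gn_cut_m_le` with the package `C + 1`. -/
theorem gn_ins_m_le (M : Mdl) (g : ℝ) (hG : M.Gen g) (C : ℕ) :
    ∃ Cs : ℝ, 1 ≤ Cs ∧ ∀ (p : M.Par) (E : Xp (M.sys p)), M.gd p → E.Valid → E.st.length ≤ C → E.GenLe C →
      ∀ (k b : ℕ) (st1 st2a st2b : List (Stg (M.sys p))) (Mk : ℕ → (M.sys p).X → ℝ) (κ'' : ℝ), E.InsAt k b st1 st2a st2b Mk κ'' → b ≤ C → 0 < κ'' →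
        ∀ l, (E.ins k b st1 (st2a ++ st2b) Mk).m l ≤ Cs * κ'' * E.w l := by
  obtain ⟨Cr, hCr, H1⟩ := gn_ins_states M g hG C
  obtain ⟨Cs, hCs, H2⟩ := gn_cut_m_le M g hG (C + 1)
  refine ⟨Cs * Cr, by nlinarith, fun p E hp hV hl hg k b st1 st2a st2b Mk κ'' h hb hκ l => ?_⟩
  have h1 := H1 p E hp hV hg k b st1 st2a st2b Mk κ'' h hb hκ.le
  have h2 := H2 p (E.ins k b st1 (st2a ++ st2b) Mk) hp (gn_ins_valid E hV h.cut b h.msk) (gn_ins_len E hl h.cut b Mk)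
    (gn_ins_gen E hg h.cut (hb.trans (Nat.le_succ _)) Mk) k (C + 1) _ st2b (Cr * κ'') (gn_ins_cut E h) (le_refl _) (by positivity)
    (fun i hi => ⟨(h1 i hi).1, (h1 i hi).2.1⟩) l
  rw [mul_assoc Cs Cr]
  exact h2

theorem gn_ins_sum_le (M : Mdl) (g : ℝ) (hG : M.Gen g) (C : ℕ) :
    ∃ Cr : ℝ, 1 ≤ Cr ∧ ∀ (p : M.Par) (E : Xp (M.sys p)), M.gd p → E.Valid → E.GenLe C →
      ∀ (k b : ℕ) (st1 st2a st2b : List (Stg (M.sys p))) (Mk : ℕ → (M.sys p).X → ℝ) (κ'' : ℝ), E.InsAt k b st1 st2a st2b Mk κ'' → b ≤ C → 0 ≤ κ'' →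
        (∀ i ∈ ivs E.k0 E.i0 k, E.at' k i (st1 ++ ⟨k, b, Mk⟩ :: st2a) ∈ (M.sys p).Pl (C + 1) ∧
          (M.sys p).Reg (tmL k i) k (C + 1) (Cr * κ'') (E.at' k i (st1 ++ ⟨k, b, Mk⟩ :: st2a))) ∧
          ∑ i ∈ ivs E.k0 E.i0 k, ‖E.at' k i (st1 ++ ⟨k, b, Mk⟩ :: st2a)‖ ^ 2 ≤ E.raw st1 ⟨k, b, Mk⟩ := by
  obtain ⟨Cr, hCr, H1⟩ := gn_ins_states M g hG C
  refine ⟨Cr, hCr, fun p E hp hV hg k b st1 st2a st2b Mk κ'' h hb hκ => ?_⟩
  have h1 := H1 p E hp hV hg k b st1 st2a st2b Mk κ'' h hb hκ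
  exact ⟨fun i hi => ⟨(h1 i hi).1, (h1 i hi).2.1⟩, Finset.sum_le_sum fun i hi => (h1 i hi).2.2⟩

/-- **the crude bound behind an inserted projection**: `rd' ≤ Cs 2^(2n') √κ'' raw`.   PLAN: `gn_ins_states`, `gn_crude` with the package `C + 1`; `Σ_i ‖φ_i‖² ≤ raw`. -/
theorem gn_ins_crude (M : Mdl) (g : ℝ) (hG : M.Gen g) (C : ℕ) :
    ∃ Cs : ℝ, 1 ≤ Cs ∧ ∀ (p : M.Par) (E : Xp (M.sys p)), M.gd p → E.Valid → E.st.length ≤ C → E.GenLe C →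
      ∀ (k b : ℕ) (st1 st2a st2b : List (Stg (M.sys p))) (Mk : ℕ → (M.sys p).X → ℝ) (κ'' : ℝ), E.InsAt k b st1 st2a st2b Mk κ'' → b ≤ C → 0 < κ'' →
        (E.ins k b st1 (st2a ++ st2b) Mk).rd ≤ Cs * 2 ^ (2 * ((E.kf - k : ℕ) : ℝ)) * Real.sqrt κ'' * E.raw st1 ⟨k, b, Mk⟩ := by
  obtain ⟨Cr, hCr, H1⟩ := gn_ins_sum_le M g hG C
  obtain ⟨Cs, hCs, H2⟩ := gn_crude M g hG (C + 1)
  refine ⟨Cs * Cr, by nlinarith, fun p E hp hV hl hg k b st1 st2a st2b Mk κ'' h hb hκ => ?_⟩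
  have h1 := H1 p E hp hV hg k b st1 st2a st2b Mk κ'' h hb hκ.le
  have h2 := H2 p (E.ins k b st1 (st2a ++ st2b) Mk) hp (gn_ins_valid E hV h.cut b h.msk) (gn_ins_len E hl h.cut b Mk)
    (gn_ins_gen E hg h.cut (hb.trans (Nat.le_succ _)) Mk) k (C + 1) _ st2b (Cr * κ'') (gn_ins_cut E h) (le_refl _) (by positivity) h1.1
  refine h2.trans ?_
  have hsq : Real.sqrt (Cr * κ'') ≤ Cr * Real.sqrt κ'' := by
    rw [Real.sqrt_mul (by linarith)]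
    have : Real.sqrt Cr ≤ Cr := by
      rw [Real.sqrt_le_left (by linarith)]
      nlinarith
    have := Real.sqrt_nonneg κ''
    gcongr
  have h3 := gn_two_pos (2 * ((E.kf - k : ℕ) : ℝ))
  have h4 := Real.sqrt_nonneg κ''
  have h5 : (0 : ℝ) ≤ ∑ i ∈ ivs E.k0 E.i0 k, ‖E.at' k i (st1 ++ ⟨k, b, Mk⟩ :: st2a)‖ ^ 2 := Finset.sum_nonneg fun _ _ => by positivity
  calc Cs * 2 ^ (2 * ((E.kf - k : ℕ) : ℝ)) * Real.sqrt (Cr * κ'') * ∑ i ∈ ivs E.k0 E.i0 k, ‖E.at' k i (st1 ++ ⟨k, b, Mk⟩ :: st2a)‖ ^ 2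
      ≤ Cs * 2 ^ (2 * ((E.kf - k : ℕ) : ℝ)) * (Cr * Real.sqrt κ'') * E.raw st1 ⟨k, b, Mk⟩ := by
        have := h1.2
        gcongr
    _ = _ := by ring

/-- **the tail bound of a class `Th` behind an inserted projection**; package `D ≥ C + 1`; `κ' = Cr κ''`, `Cr` = the constant of this lemma.
PLAN: `Cr` from `gn_ins_states`; `gn_tail_on` with the package `D` for `E.ins ..` (`gn_ins_cls`, `gn_cls_mono`), the cut `gn_ins_cut`, `b' = C + 1`; `Σ_i ‖φ_i‖² ≤ raw`. -/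
theorem gn_ins_tail_on (M : Mdl) (g : ℝ) (hG : M.Gen g) (γ : ℝ) (Th : (p : M.Par) → Xp (M.sys p) → Prop)
    (hγ : ∀ (C : ℕ) (ε : ℝ), 0 < ε → ∃ A n0 : ℕ, ∀ (p : M.Par) (E : Xp (M.sys p)), n0 ≤ E.n → M.Cls C A p E → Th p E → E.val ≤ 2 ^ ((γ + ε) * E.n))
    (C D : ℕ) (hD : C + 1 ≤ D) (a0 ε : ℝ) (ha : 0 < a0) (hε : 0 < ε) :
    ∃ Cr : ℝ, 1 ≤ Cr ∧ ∃ A n0 : ℕ, ∀ (p : M.Par) (E : Xp (M.sys p)), n0 ≤ E.n → M.Cls C A p E →
      ∀ (k b : ℕ) (st1 st2a st2b : List (Stg (M.sys p))) (Mk : ℕ → (M.sys p).X → ℝ) (κ'' : ℝ) (S : Finset (Fin E.L)), E.InsAt k b st1 st2a st2b Mk κ'' → b ≤ C →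
        a0 * E.n ≤ ((E.kf - k : ℕ) : ℝ) → E.s ^ (D : ℝ) * E.ka ≤ Cr * κ'' → Cr * κ'' ≤ E.s ^ (-(D : ℝ)) * E.ka →
        (∀ i ∈ ivs E.k0 E.i0 k, Th p (E.tl k i (E.at' k i (st1 ++ ⟨k, b, Mk⟩ :: st2a)) (E.eb D (E.at' k i (st1 ++ ⟨k, b, Mk⟩ :: st2a))) (Cr * κ'') (C + 1) st2b
          (S ∩ E.below k i))) →
        ∑ l ∈ S, (E.ins k b st1 (st2a ++ st2b) Mk).tr l ≤ 2 ^ (-((1 / 2 - γ - ε) * ((E.kf - k : ℕ) : ℝ))) * Real.sqrt (Cr * κ'') *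
          (E.raw st1 ⟨k, b, Mk⟩ + E.s ^ (D : ℝ) * E.e) := by
  obtain ⟨Cr, hCr, H1⟩ := gn_ins_sum_le M g hG C
  obtain ⟨A, n0, H⟩ := gn_tail_on M g hG γ Th hγ D a0 ε ha hε
  refine ⟨Cr, hCr, A, n0, fun p E hn hE k b st1 st2a st2b Mk κ'' S h hb hk hlo hhi hTh => ?_⟩
  have hV := hE.2.1
  have hκ : 0 < κ'' := by
    have h1 : 0 < E.s ^ (D : ℝ) * E.ka := mul_pos (Real.rpow_pos_of_pos (gn_s_pos E) _) hV.ka_pos
    have h2 : 0 < Cr * κ'' := lt_of_lt_of_le h1 hlo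
    exact (mul_pos_iff_of_pos_left (by linarith)).1 h2
  have h1 := H1 p E hE.1 hV hE.2.2.2.1 k b st1 st2a st2b Mk κ'' h hb hκ.le
  have hcls : M.Cls D A p (E.ins k b st1 (st2a ++ st2b) Mk) :=
    gn_cls_mono M hG.scale hD (gn_ins_cls M g hG hE h.cut (hb.trans (Nat.le_succ _)) h.msk)
  have h2 := H p (E.ins k b st1 (st2a ++ st2b) Mk) hn hcls k (C + 1) _ st2b (Cr * κ'') S (gn_ins_cut E h) hk hD hlo hhi h1.1 hTh
  refine h2.trans ?_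
  have h3 : (0 : ℝ) ≤ 2 ^ (-((1 / 2 - γ - ε) * ((E.kf - k : ℕ) : ℝ))) * Real.sqrt (Cr * κ'') := mul_nonneg (gn_two_pos _).le (Real.sqrt_nonneg _)
  refine mul_le_mul_of_nonneg_left ?_ h3
  have := h1.2
  exact add_le_add this (le_refl _)

/-- masses of the tails behind an inserted projection = masses of `E.ins`.   PLAN: `gn_tl_m` for `E.ins ..` and the cut `gn_ins_cut` (`tl`, `at'`, `below`, `sel` do not see the stack). -/
theorem gn_ins_tl_m (E : Xp P) {k b : ℕ} {st1 st2a st2b : List (Stg P)} {Mk : ℕ → P.X → ℝ} {κ'' : ℝ} (h : E.InsAt k b st1 st2a st2b Mk κ'') (i : ℕ) (e' κ' : ℝ) (b' : ℕ)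
    (S : Finset (Fin E.L)) (hS : S ⊆ E.below k i) (a : Fin S.card) :
    (E.tl k i (E.at' k i (st1 ++ ⟨k, b, Mk⟩ :: st2a)) e' κ' b' st2b S).m a = (E.ins k b st1 (st2a ++ st2b) Mk).m (E.sel S a) ∧
      (E.tl k i (E.at' k i (st1 ++ ⟨k, b, Mk⟩ :: st2a)) e' κ' b' st2b S).w a = E.w (E.sel S a) := by
  have := gn_tl_m (E.ins k b st1 (st2a ++ st2b) Mk) (gn_ins_cut E h) i e' κ' b' S hS a
  exact ⟨this.1, this.2.1⟩

end Claimed.Agent.R256
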