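-- KEEP
import Claimed.Agent.R256.Gen.Ins

/-!
# Row 256, GENERIC THEORY : THE PEELED DECOMPOSITION AND THE FOUR LEVEL BOUNDS          (architect helper199; prefix `gn_`)

Paper free.   Common engine of `gn_comp_step`, `gn_comp_on`, `gn_pminK_step`.   `j = k - k0`, `n' = kf - k`, `j + n' = n`.   `c_E = 2^(n/2)/(e √κ)` (so `val = c_E rd`).
`gn_dec_ins`   `rd(E)^(1/3) ≤ Σ_{j' ≤ Dn} rd(E_j')^(1/3)`, `E_j' = E.ins k b st1 (st2a ++ st2b) (Mk j')`: levels `β_j' = 2^-(j'+1) Cs κ` for `j' < Dn`, remainder `κ'' = s^D Cs κ`.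
For ONE level with threshold `β`, `s^D κ ≤ β ≤ B0 κ`, and a set `S` of labels:
`gn_lev_rr`    prefix class `Pr` at the rate `γ1`, tail class `Th` at the rate `γ2`:   `c_E Σ_S tr' ≤ 2^((γ1+ε) j + (γ2+ε) n')`        (`j, n' ≥ a0 n`)
`gn_lev_cr`    crude prefix (`raw ≤ 2^j e`), tail class `Th` at the rate `γ2`:         `c_E Σ_S tr' ≤ 2^(3j/2 + (γ2+ε) n')`             (`n' ≥ a0 n`)
`gn_lev_rc`    prefix class `Pr` at the rate `γ1`, crude tails (`gn_ins_crude`):       `c_E rd' ≤ 2^((γ1+ε) j + 5n'/2)`                 (`j ≥ a0 n`)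
`gn_lev_rem`   the remainder, crude on both sides:                                     `c_E rd' ≤ 2^((4 - D/2) n)`
ARITHMETIC of `rr`:  `c_E Σ_S tr' ≤ 2^(n/2 - n'/2 + (γ2+ε') n') √(2 Cr) [√(β/κ) raw/e + √(β/κ) s^D]`, `√(β/κ) raw/e ≤ 2^((γ1+ε'-1/2) j)` (`gn_lvl_ps`), `√(β/κ) s^D ≤ √B0 2^(-Dn) ≤ 2^((γ1-1/2) j)` for `D ≥ |γ1| + 2`;
constants are absorbed by `2^((ε-ε') a0 n)` (`gn_absorb`).
-/

set_option autoImplicit false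

namespace Claimed.Agent.R256

open MeasureTheory

/-- the rate `γ` on a class `Th` of experiments -/
def Mdl.RateOn (M : Mdl) (Th : (p : M.Par) → Xp (M.sys p) → Prop) (γ : ℝ) : Prop :=
  ∀ (C : ℕ) (ε : ℝ), 0 < ε → ∃ A n0 : ℕ, ∀ (p : M.Par) (E : Xp (M.sys p)), n0 ≤ E.n → M.Cls C A p E → Th p E → E.val ≤ 2 ^ ((γ + ε) * E.n)

theorem gn_lev_eqns_cite : True := by
  have := @Mdl.RateOn.eq_1
  trivial

/-- `x^(1/3) ≤ Σ_{j<m} r_j^(1/3)`, `r_j ≤ R` give `x ≤ m³ R` -/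
theorem gn_cube (x R : ℝ) (hx : 0 ≤ x) (m : ℕ) (r : ℕ → ℝ) (hr : ∀ j, 0 ≤ r j) (hR : ∀ j < m, r j ≤ R)
    (h : x ^ (1 / 3 : ℝ) ≤ ∑ j ∈ Finset.range m, r j ^ (1 / 3 : ℝ)) : x ≤ (m : ℝ) ^ 3 * R := by
  have hx3 : (x ^ (1 / 3 : ℝ)) ^ 3 = x := by
    rw [← Real.rpow_natCast, ← Real.rpow_mul hx]
    norm_num
  rcases Nat.eq_zero_or_pos m with rfl | hm
  · simp only [Finset.range_zero, Finset.sum_empty] at h
    have h0 : x ^ (1 / 3 : ℝ) = 0 := le_antisymm h (Real.rpow_nonneg hx _)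
    rw [← hx3, h0]
    simp
  have hR0 : 0 ≤ R := (hr 0).trans (hR 0 hm)
  have hR3 : (R ^ (1 / 3 : ℝ)) ^ 3 = R := by
    rw [← Real.rpow_natCast, ← Real.rpow_mul hR0]
    norm_num
  have h1 : ∑ j ∈ Finset.range m, r j ^ (1 / 3 : ℝ) ≤ (m : ℝ) * R ^ (1 / 3 : ℝ) := by
    calc ∑ j ∈ Finset.range m, r j ^ (1 / 3 : ℝ) ≤ ∑ _j ∈ Finset.range m, R ^ (1 / 3 : ℝ) :=
          Finset.sum_le_sum fun j hj => Real.rpow_le_rpow (hr j) (hR j (Finset.mem_range.1 hj)) (by norm_num)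
      _ = (m : ℝ) * R ^ (1 / 3 : ℝ) := by rw [Finset.sum_const, Finset.card_range, nsmul_eq_mul]
  calc x = (x ^ (1 / 3 : ℝ)) ^ 3 := hx3.symm
    _ ≤ ((m : ℝ) * R ^ (1 / 3 : ℝ)) ^ 3 := pow_le_pow_left₀ (Real.rpow_nonneg hx _) (h.trans h1) 3
    _ = (m : ℝ) ^ 3 * R := by rw [mul_pow, hR3]

/-- polynomial factors are absorbed by a power.   PLAN: `(Dn+1)^3 ≤ (D+1)^3 n^3`; `n ≤ (8/δ') 2^(δ' n)`-type bound from `Real.add_one_le_exp`, or `tendsto_pow_const_div_const_pow_of_one_lt`. -/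
theorem gn_absorb_poly (D : ℕ) (K δ : ℝ) (hδ : 0 < δ) : ∃ n0 : ℕ, ∀ n : ℕ, n0 ≤ n → K * ((D * n + 1 : ℕ) : ℝ) ^ 3 ≤ 2 ^ (δ * n) := by
  have hr : (1 : ℝ) < 2 ^ δ := Real.one_lt_rpow (by norm_num) hδ
  have hlim := tendsto_pow_const_div_const_pow_of_one_lt 3 hr
  have hc : (0 : ℝ) < 1 / (|K| * ((D : ℝ) + 1) ^ 3 + 1) := by positivity
  obtain ⟨n1, hn1⟩ := Filter.eventually_atTop.1 (hlim.eventually (gt_mem_nhds hc))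
  refine ⟨max n1 1, fun n hn => ?_⟩
  have h1 := hn1 n (le_trans (le_max_left _ _) hn)
  have hn' : (1 : ℝ) ≤ n := by exact_mod_cast le_trans (le_max_right _ _) hn
  have hrn : (0 : ℝ) < (2 ^ δ) ^ n := by positivity
  have e : (2 : ℝ) ^ (δ * n) = (2 ^ δ) ^ n := by rw [Real.rpow_mul (by norm_num), Real.rpow_natCast]
  rw [e]
  rw [div_lt_div_iff₀ hrn (by positivity)] at h1
  have h2 : ((D * n + 1 : ℕ) : ℝ) ^ 3 ≤ (((D : ℝ) + 1) * n) ^ 3 := by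
    refine pow_le_pow_left₀ (Nat.cast_nonneg _) ?_ 3
    push_cast
    nlinarith
  have hD0 : (0 : ℝ) ≤ D := Nat.cast_nonneg _
  calc K * ((D * n + 1 : ℕ) : ℝ) ^ 3 ≤ |K| * ((D * n + 1 : ℕ) : ℝ) ^ 3 := mul_le_mul_of_nonneg_right (le_abs_self K) (by positivity)
    _ ≤ |K| * (((D : ℝ) + 1) * n) ^ 3 := mul_le_mul_of_nonneg_left h2 (abs_nonneg K)
    _ = (n : ℝ) ^ 3 * (|K| * ((D : ℝ) + 1) ^ 3) := by ring
    _ ≤ (n : ℝ) ^ 3 * (|K| * ((D : ℝ) + 1) ^ 3 + 1) := mul_le_mul_of_nonneg_left (by linarith) (by positivity)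
    _ ≤ (2 ^ δ) ^ n := by linarith

/-- `Γ ≤ 1`.   PLAN: `bs_gam_le` with `γ = 1`, `bs_rate_mono (gn_fin ..)`, `1 ≤ g`. -/
theorem gn_gam_le_one (M : Mdl) (g : ℝ) (hG : M.Gen g) : M.Gam ≤ 1 :=
  M.bs_gam_le zero_le_one (M.bs_rate_mono (gn_fin M g hG) (by linarith [hG.g_pos]))

/-- **the peeled decomposition**.   PLAN: `gn_dec` (`st2 = st2a ++ st2b`), `gn_split`, `gn_lvl_insAt`; `Xp.ins` unfolds to `withSt` by `rfl`. -/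
theorem gn_dec_ins (M : Mdl) (g : ℝ) (hG : M.Gen g) (C D : ℕ) :
    ∃ Cs : ℝ, 1 ≤ Cs ∧ ∃ A n0 : ℕ, ∀ (p : M.Par) (E : Xp (M.sys p)), n0 ≤ E.n → M.Cls C A p E →
      ∀ (k b : ℕ) (st1 st2a st2b : List (Stg (M.sys p))), E.CutAt k st1 (st2a ++ st2b) → (∀ σ ∈ st2a, σ.k = k) → st2a.length ≤ 1 → b ≤ C →
      (∀ i ∈ ivs E.k0 E.i0 k, E.at' k i st1 ∈ (M.sys p).Pl b) →
      ∃ Mk : ℕ → ℕ → (M.sys p).X → ℝ,
        (∀ j < D * E.n, (E.ins k b st1 (st2a ++ st2b) (Mk j)).LvlAt st1 ⟨k, b, Mk j⟩ (st2a ++ st2b) ((2 : ℝ)⁻¹ ^ (j + 1) * (Cs * E.ka)) ∧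
          E.InsAt k b st1 st2a st2b (Mk j) (2 * ((2 : ℝ)⁻¹ ^ (j + 1) * (Cs * E.ka)))) ∧
        E.InsAt k b st1 st2a st2b (Mk (D * E.n)) (E.s ^ (D : ℝ) * (Cs * E.ka)) ∧
        E.rd ^ (1 / 3 : ℝ) ≤ ∑ j ∈ Finset.range (D * E.n + 1), (E.ins k b st1 (st2a ++ st2b) (Mk j)).rd ^ (1 / 3 : ℝ) := by
  obtain ⟨Cs, hCs, A, n0, H⟩ := gn_dec M g hG C D
  refine ⟨Cs, hCs, A, n0, fun p E hn hE k b st1 st2a st2b hc hs hl hb hpl => ?_⟩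
  obtain ⟨Mk, hM, hsum, Hl, Hr⟩ := H p E hn hE k b st1 (st2a ++ st2b) hc hb hpl
  refine ⟨Mk, fun j hj => ⟨Hl j hj, gn_lvl_insAt E hc (Hl j hj) hs hl (hM j)⟩, ⟨hc, hs, hl, hM _, Hr⟩, ?_⟩
  exact gn_split (hG.tight p hE.1) E hE.2.1 k b st1 (st2a ++ st2b) hc hpl (Finset.range (D * E.n + 1)) Mk (fun j _ i => hM j i) hsum

/-- the thresholds of `gn_dec_ins` are polynomial: `s^D κ ≤ β_j ≤ Cs κ` -/
theorem gn_dec_beta {P : PkSys} (E : Xp P) (hκ : 0 < E.ka) (D : ℕ) (Cs : ℝ) (hCs : 1 ≤ Cs) (j : ℕ) (hj : j < D * E.n) :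
    0 < (2 : ℝ)⁻¹ ^ (j + 1) * (Cs * E.ka) ∧ E.s ^ (D : ℝ) * E.ka ≤ (2 : ℝ)⁻¹ ^ (j + 1) * (Cs * E.ka) ∧ (2 : ℝ)⁻¹ ^ (j + 1) * (Cs * E.ka) ≤ Cs * E.ka := by
  have hCs0 : 0 < Cs := by linarith
  have hp : (0 : ℝ) < (2 : ℝ)⁻¹ ^ (j + 1) := by positivity
  refine ⟨by positivity, ?_, ?_⟩
  · have e : E.s ^ (D : ℝ) = (2 : ℝ)⁻¹ ^ (D * E.n) := by
      rw [Real.rpow_natCast]
      unfold Xp.s
      rw [← pow_mul, mul_comm]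
    rw [e]
    have h1 : (2 : ℝ)⁻¹ ^ (D * E.n) ≤ (2 : ℝ)⁻¹ ^ (j + 1) := pow_le_pow_of_le_one (by norm_num) (by norm_num) hj
    calc (2 : ℝ)⁻¹ ^ (D * E.n) * E.ka ≤ (2 : ℝ)⁻¹ ^ (j + 1) * E.ka := mul_le_mul_of_nonneg_right h1 hκ.le
      _ ≤ (2 : ℝ)⁻¹ ^ (j + 1) * (Cs * E.ka) := mul_le_mul_of_nonneg_left (by nlinarith) hp.le
  · have h1 : (2 : ℝ)⁻¹ ^ (j + 1) ≤ 1 := pow_le_one₀ (by norm_num) (by norm_num)
    have h2 : 0 ≤ Cs * E.ka := by positivity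
    nlinarith

/-- the lengths at a cut -/
theorem gn_lev_len {P : PkSys} (E : Xp P) {k : ℕ} {st1 st2 : List (Stg P)} (hc : E.CutAt k st1 st2) :
    (0 : ℝ) ≤ ((k - E.k0 : ℕ) : ℝ) ∧ (0 : ℝ) ≤ ((E.kf - k : ℕ) : ℝ) ∧ ((k - E.k0 : ℕ) : ℝ) + ((E.kf - k : ℕ) : ℝ) = E.n := by
  refine ⟨Nat.cast_nonneg _, Nat.cast_nonneg _, ?_⟩
  have h3 : (k - E.k0) + (E.kf - k) = E.n := by
    have h4 : E.kf = E.k0 + E.n := rfl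
    have h5 := hc.2.2.2.1
    have h6 := hc.2.2.2.2
    omega
  exact_mod_cast h3

/-- the tail bound behind a level in normalised form; `ρ = raw √(β/κ) / e` -/
theorem gn_lev_tail (M : Mdl) (g : ℝ) (hG : M.Gen g) (γ2 : ℝ) (Th : (p : M.Par) → Xp (M.sys p) → Prop) (h2 : M.RateOn Th γ2)
    (C D : ℕ) (hD : C + 1 ≤ D) (B0 a0 ε : ℝ) (ha : 0 < a0) (hε : 0 < ε) :
    ∃ Cr : ℝ, 1 ≤ Cr ∧ ∃ A n0 : ℕ, ∀ (p : M.Par) (E : Xp (M.sys p)), n0 ≤ E.n → M.Cls C A p E →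
      ∀ (k b : ℕ) (st1 st2a st2b : List (Stg (M.sys p))) (Mk : ℕ → (M.sys p).X → ℝ) (β : ℝ) (S : Finset (Fin E.L)),
        E.InsAt k b st1 st2a st2b Mk (2 * β) → b ≤ C →
        E.s ^ (D : ℝ) * E.ka ≤ β → β ≤ B0 * E.ka → a0 * E.n ≤ ((E.kf - k : ℕ) : ℝ) →
        (∀ i ∈ ivs E.k0 E.i0 k, Th p (E.tl k i (E.at' k i (st1 ++ ⟨k, b, Mk⟩ :: st2a)) (E.eb D (E.at' k i (st1 ++ ⟨k, b, Mk⟩ :: st2a))) (Cr * (2 * β)) (C + 1) st2b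
          (S ∩ E.below k i))) →
        2 ^ ((E.n : ℝ) / 2) / (E.e * Real.sqrt E.ka) * ∑ l ∈ S, (E.ins k b st1 (st2a ++ st2b) Mk).tr l ≤
          2 ^ (((k - E.k0 : ℕ) : ℝ) / 2 + (γ2 + ε) * ((E.kf - k : ℕ) : ℝ)) * (E.raw st1 ⟨k, b, Mk⟩ * Real.sqrt (β / E.ka) / E.e + E.s ^ (D : ℝ)) := by
  obtain ⟨Cr, hCr, A, n1, H⟩ := gn_ins_tail_on M g hG γ2 Th h2 C D hD a0 (ε / 2) ha (half_pos hε)
  have hD0 : (0 : ℝ) < (D : ℝ) := by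
    have : 0 < D := by omega
    exact_mod_cast this
  obtain ⟨n2, hn2⟩ := gn_absorb (Cr * (2 * B0)) D hD0
  obtain ⟨n3, hn3⟩ := gn_absorb (Real.sqrt (Cr * 2) * max 1 (Real.sqrt B0)) (ε / 2 * a0) (by positivity)
  refine ⟨Cr, hCr, A, max n1 (max n2 n3), fun p E hn hE k b st1 st2a st2b Mk β S hI hb hβ1 hβ2 hn' hTh => ?_⟩
  have hm1 : n1 ≤ E.n := le_trans (le_max_left _ _) hn
  have hm2 : n2 ≤ E.n := le_trans (le_trans (le_max_left _ _) (le_max_right _ _)) hn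
  have hm3 : n3 ≤ E.n := le_trans (le_trans (le_max_right _ _) (le_max_right _ _)) hn
  have hV := hE.2.1
  have hκ := hV.ka_pos
  have he := hV.e_pos
  have hsk : 0 < Real.sqrt E.ka := Real.sqrt_pos.2 hκ
  have hsD : 0 < E.s ^ (D : ℝ) := Real.rpow_pos_of_pos (gn_s_pos E) _
  have hβ : 0 < β := lt_of_lt_of_le (by positivity) hβ1
  have hCr0 : 0 < Cr := by linarith
  obtain ⟨hj0, hn'0, hsum⟩ := gn_lev_len E hI.cut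
  have k1 : E.s ^ (D : ℝ) * E.ka ≤ Cr * (2 * β) := by nlinarith
  have k2 : Cr * (2 * β) ≤ E.s ^ (-(D : ℝ)) * E.ka := by
    rw [gn_s_rpow]
    have e : -(-(D : ℝ) * (E.n : ℝ)) = (D : ℝ) * E.n := by ring
    rw [e]
    calc Cr * (2 * β) ≤ Cr * (2 * (B0 * E.ka)) := by gcongr
      _ = (Cr * (2 * B0)) * E.ka := by ring
      _ ≤ 2 ^ ((D : ℝ) * E.n) * E.ka := mul_le_mul_of_nonneg_right (hn2 E.n hm2) hκ.le
  have key := H p E hm1 hE k b st1 st2a st2b Mk (2 * β) S hI hb hn' k1 k2 hTh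
  have hR : 0 ≤ E.raw st1 ⟨k, b, Mk⟩ := gn_raw_nonneg E st1 _
  have e1 : Real.sqrt (Cr * (2 * β)) = Real.sqrt (Cr * 2) * Real.sqrt β := by
    rw [← mul_assoc, Real.sqrt_mul (by positivity)]
  have e2 : Real.sqrt (β / E.ka) = Real.sqrt β / Real.sqrt E.ka := Real.sqrt_div hβ.le _
  have e3 : Real.sqrt (β / E.ka) ≤ max 1 (Real.sqrt B0) := by
    refine le_trans (Real.sqrt_le_sqrt ?_) (le_max_right _ _)
    rw [div_le_iff₀ hκ]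
    exact hβ2
  have hm0 : (1 : ℝ) ≤ max 1 (Real.sqrt B0) := le_max_left _ _
  have hcE : 0 < 2 ^ ((E.n : ℝ) / 2) / (E.e * Real.sqrt E.ka) := div_pos (gn_two_pos _) (mul_pos he hsk)
  have hρ : 0 ≤ E.raw st1 ⟨k, b, Mk⟩ * Real.sqrt (β / E.ka) / E.e := by positivity
  rw [e1] at key
  calc 2 ^ ((E.n : ℝ) / 2) / (E.e * Real.sqrt E.ka) * ∑ l ∈ S, (E.ins k b st1 (st2a ++ st2b) Mk).tr l
      ≤ 2 ^ ((E.n : ℝ) / 2) / (E.e * Real.sqrt E.ka) * (2 ^ (-((1 / 2 - γ2 - ε / 2) * ((E.kf - k : ℕ) : ℝ))) * (Real.sqrt (Cr * 2) * Real.sqrt β) *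
          (E.raw st1 ⟨k, b, Mk⟩ + E.s ^ (D : ℝ) * E.e)) := mul_le_mul_of_nonneg_left key hcE.le
    _ = (2 ^ ((E.n : ℝ) / 2) * 2 ^ (-((1 / 2 - γ2 - ε / 2) * ((E.kf - k : ℕ) : ℝ)))) * Real.sqrt (Cr * 2) *
          (E.raw st1 ⟨k, b, Mk⟩ * Real.sqrt (β / E.ka) / E.e + Real.sqrt (β / E.ka) * E.s ^ (D : ℝ)) := by
        rw [e2]
        field_simp
    _ ≤ (2 ^ ((E.n : ℝ) / 2) * 2 ^ (-((1 / 2 - γ2 - ε / 2) * ((E.kf - k : ℕ) : ℝ)))) * Real.sqrt (Cr * 2) *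
          (max 1 (Real.sqrt B0) * (E.raw st1 ⟨k, b, Mk⟩ * Real.sqrt (β / E.ka) / E.e + E.s ^ (D : ℝ))) := by
        refine mul_le_mul_of_nonneg_left ?_ (by positivity)
        have t1 : Real.sqrt (β / E.ka) * E.s ^ (D : ℝ) ≤ max 1 (Real.sqrt B0) * E.s ^ (D : ℝ) := mul_le_mul_of_nonneg_right e3 hsD.le
        have t2 : E.raw st1 ⟨k, b, Mk⟩ * Real.sqrt (β / E.ka) / E.e ≤ max 1 (Real.sqrt B0) * (E.raw st1 ⟨k, b, Mk⟩ * Real.sqrt (β / E.ka) / E.e) :=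
          le_mul_of_one_le_left hρ hm0
        linarith
    _ = (Real.sqrt (Cr * 2) * max 1 (Real.sqrt B0)) * (2 ^ ((E.n : ℝ) / 2) * 2 ^ (-((1 / 2 - γ2 - ε / 2) * ((E.kf - k : ℕ) : ℝ)))) *
          (E.raw st1 ⟨k, b, Mk⟩ * Real.sqrt (β / E.ka) / E.e + E.s ^ (D : ℝ)) := by ring
    _ ≤ 2 ^ (ε / 2 * a0 * (E.n : ℝ)) * (2 ^ ((E.n : ℝ) / 2) * 2 ^ (-((1 / 2 - γ2 - ε / 2) * ((E.kf - k : ℕ) : ℝ)))) *
          (E.raw st1 ⟨k, b, Mk⟩ * Real.sqrt (β / E.ka) / E.e + E.s ^ (D : ℝ)) := by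
        refine mul_le_mul_of_nonneg_right (mul_le_mul_of_nonneg_right (hn3 E.n hm3) (by positivity)) (by positivity)
    _ ≤ 2 ^ (((k - E.k0 : ℕ) : ℝ) / 2 + (γ2 + ε) * ((E.kf - k : ℕ) : ℝ)) * (E.raw st1 ⟨k, b, Mk⟩ * Real.sqrt (β / E.ka) / E.e + E.s ^ (D : ℝ)) := by
        refine mul_le_mul_of_nonneg_right ?_ (by positivity)
        rw [← gn_two_add, ← gn_two_add]
        refine gn_two_mono ?_
        have t3 : ε / 2 * a0 * (E.n : ℝ) ≤ ε / 2 * ((E.kf - k : ℕ) : ℝ) := by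
          rw [mul_assoc]
          exact mul_le_mul_of_nonneg_left hn' (by positivity)
        rw [← hsum] at t3 ⊢
        nlinarith

/-- the prefix bound of a level in normalised form -/
theorem gn_lev_pre (M : Mdl) (g : ℝ) (hG : M.Gen g) (γ1 : ℝ) (Pr : (p : M.Par) → Xp (M.sys p) → Prop) (h1 : M.RateOn Pr γ1)
    (C : ℕ) (a0 ε : ℝ) (ha : 0 < a0) (hε : 0 < ε) :
    ∃ A n0 : ℕ, ∀ (p : M.Par) (E : Xp (M.sys p)), n0 ≤ E.n → M.Cls C A p E →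
      ∀ (k b : ℕ) (st1 st2a st2b : List (Stg (M.sys p))) (Mk : ℕ → (M.sys p).X → ℝ) (β : ℝ),
        (E.ins k b st1 (st2a ++ st2b) Mk).LvlAt st1 ⟨k, b, Mk⟩ (st2a ++ st2b) β → E.InsAt k b st1 st2a st2b Mk (2 * β) → b ≤ C → 0 < β →
        a0 * E.n ≤ ((k - E.k0 : ℕ) : ℝ) →
        (∀ (L' : ℕ) (iv' : Fin L' → ℕ) (ts' : Fin L' → (M.sys p).Tst) (th' : Fin L' → (M.sys p).X → ℝ),
          (∀ l, β * (E.pre (k - E.k0) st1 b iv' ts' th').w l < (E.pre (k - E.k0) st1 b iv' ts' th').m l) → Pr p (E.pre (k - E.k0) st1 b iv' ts' th')) →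
        E.raw st1 ⟨k, b, Mk⟩ * Real.sqrt (β / E.ka) / E.e ≤ 2 ^ ((γ1 + ε - 1 / 2) * ((k - E.k0 : ℕ) : ℝ)) := by
  obtain ⟨A, n1, Hps⟩ := gn_lvl_ps M g hG γ1 Pr h1 (C + 1) a0 ε ha hε
  refine ⟨A, n1, fun p E hn hE k b st1 st2a st2b Mk β hL hI hb hβ hj hPr => ?_⟩
  have hE' : M.Cls (C + 1) A p (E.ins k b st1 (st2a ++ st2b) Mk) := gn_ins_cls M g hG hE hI.cut (hb.trans (Nat.le_succ C)) hI.msk
  have hps := Hps p (E.ins k b st1 (st2a ++ st2b) Mk) hn hE' st1 (st2a ++ st2b) ⟨k, b, Mk⟩ β hL hβ hj hPr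
  rw [div_le_iff₀ hE.2.1.e_pos, mul_comm (2 ^ _)]
  exact hps

/-- **level bound, rate / rate** -/
theorem gn_lev_rr (M : Mdl) (g : ℝ) (hG : M.Gen g) (γ1 γ2 : ℝ) (Pr Th : (p : M.Par) → Xp (M.sys p) → Prop) (h1 : M.RateOn Pr γ1) (h2 : M.RateOn Th γ2)
    (C D : ℕ) (hD : C + 1 ≤ D) (hD1 : |γ1| + 2 ≤ D) (B0 a0 ε : ℝ) (ha : 0 < a0) (hε : 0 < ε) :
    ∃ Cr : ℝ, 1 ≤ Cr ∧ ∃ A n0 : ℕ, ∀ (p : M.Par) (E : Xp (M.sys p)), n0 ≤ E.n → M.Cls C A p E →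
      ∀ (k b : ℕ) (st1 st2a st2b : List (Stg (M.sys p))) (Mk : ℕ → (M.sys p).X → ℝ) (β : ℝ) (S : Finset (Fin E.L)),
        (E.ins k b st1 (st2a ++ st2b) Mk).LvlAt st1 ⟨k, b, Mk⟩ (st2a ++ st2b) β → E.InsAt k b st1 st2a st2b Mk (2 * β) → b ≤ C →
        E.s ^ (D : ℝ) * E.ka ≤ β → β ≤ B0 * E.ka → a0 * E.n ≤ ((k - E.k0 : ℕ) : ℝ) → a0 * E.n ≤ ((E.kf - k : ℕ) : ℝ) →
        (∀ (L' : ℕ) (iv' : Fin L' → ℕ) (ts' : Fin L' → (M.sys p).Tst) (th' : Fin L' → (M.sys p).X → ℝ),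
          (∀ l, β * (E.pre (k - E.k0) st1 b iv' ts' th').w l < (E.pre (k - E.k0) st1 b iv' ts' th').m l) → Pr p (E.pre (k - E.k0) st1 b iv' ts' th')) →
        (∀ i ∈ ivs E.k0 E.i0 k, Th p (E.tl k i (E.at' k i (st1 ++ ⟨k, b, Mk⟩ :: st2a)) (E.eb D (E.at' k i (st1 ++ ⟨k, b, Mk⟩ :: st2a))) (Cr * (2 * β)) (C + 1) st2b
          (S ∩ E.below k i))) →
        2 ^ ((E.n : ℝ) / 2) / (E.e * Real.sqrt E.ka) * ∑ l ∈ S, (E.ins k b st1 (st2a ++ st2b) Mk).tr l ≤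
          2 ^ ((γ1 + ε) * ((k - E.k0 : ℕ) : ℝ) + (γ2 + ε) * ((E.kf - k : ℕ) : ℝ)) := by
  obtain ⟨Cr, hCr, A1, n1, Ht⟩ := gn_lev_tail M g hG γ2 Th h2 C D hD B0 a0 (ε / 2) ha (half_pos hε)
  obtain ⟨A2, n2, Hp⟩ := gn_lev_pre M g hG γ1 Pr h1 C a0 ε ha hε
  obtain ⟨n3, hn3⟩ := gn_absorb 2 (ε / 2 * a0) (by positivity)
  refine ⟨Cr, hCr, max A1 A2, max n1 (max n2 n3), fun p E hn hE k b st1 st2a st2b Mk β S hL hI hb hβ1 hβ2 hj hn' hPr hTh => ?_⟩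
  have hm1 : n1 ≤ E.n := le_trans (le_max_left _ _) hn
  have hm2 : n2 ≤ E.n := le_trans (le_trans (le_max_left _ _) (le_max_right _ _)) hn
  have hm3 : n3 ≤ E.n := le_trans (le_trans (le_max_right _ _) (le_max_right _ _)) hn
  have hE1 : M.Cls C A1 p E := gn_cls_anti M hG.scale (le_max_left _ _) hE
  have hE2 : M.Cls C A2 p E := gn_cls_anti M hG.scale (le_max_right _ _) hE
  have hκ := hE.2.1.ka_pos
  have hsD : 0 < E.s ^ (D : ℝ) := Real.rpow_pos_of_pos (gn_s_pos E) _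
  have hβ : 0 < β := lt_of_lt_of_le (by positivity) hβ1
  obtain ⟨hj0, hn'0, hsum⟩ := gn_lev_len E hI.cut
  have t1 := Ht p E hm1 hE1 k b st1 st2a st2b Mk β S hI hb hβ1 hβ2 hn' hTh
  have t2 := Hp p E hm2 hE2 k b st1 st2a st2b Mk β hL hI hb hβ hj hPr
  have t3 : E.s ^ (D : ℝ) ≤ 2 ^ ((γ1 + ε - 1 / 2) * ((k - E.k0 : ℕ) : ℝ)) := by
    rw [gn_s_rpow]
    refine gn_two_mono ?_
    have a1 := neg_abs_le γ1
    have a2 := abs_nonneg γ1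
    have a3 : (-|γ1| - 2) * (E.n : ℝ) ≤ (γ1 + ε - 1 / 2) * ((k - E.k0 : ℕ) : ℝ) := by
      rw [← hsum]
      nlinarith
    have a4 : -((D : ℝ) * (E.n : ℝ)) ≤ (-|γ1| - 2) * (E.n : ℝ) := by
      have : (0 : ℝ) ≤ (E.n : ℝ) := Nat.cast_nonneg _
      nlinarith
    linarith
  refine t1.trans ?_
  calc 2 ^ (((k - E.k0 : ℕ) : ℝ) / 2 + (γ2 + ε / 2) * ((E.kf - k : ℕ) : ℝ)) * (E.raw st1 ⟨k, b, Mk⟩ * Real.sqrt (β / E.ka) / E.e + E.s ^ (D : ℝ))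
      ≤ 2 ^ (((k - E.k0 : ℕ) : ℝ) / 2 + (γ2 + ε / 2) * ((E.kf - k : ℕ) : ℝ)) * (2 * 2 ^ ((γ1 + ε - 1 / 2) * ((k - E.k0 : ℕ) : ℝ))) :=
        mul_le_mul_of_nonneg_left (by linarith) (gn_two_pos _).le
    _ ≤ 2 ^ (((k - E.k0 : ℕ) : ℝ) / 2 + (γ2 + ε / 2) * ((E.kf - k : ℕ) : ℝ)) * (2 ^ (ε / 2 * a0 * (E.n : ℝ)) * 2 ^ ((γ1 + ε - 1 / 2) * ((k - E.k0 : ℕ) : ℝ))) :=
        mul_le_mul_of_nonneg_left (mul_le_mul_of_nonneg_right (hn3 E.n hm3) (gn_two_pos _).le) (gn_two_pos _).le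
    _ ≤ 2 ^ ((γ1 + ε) * ((k - E.k0 : ℕ) : ℝ) + (γ2 + ε) * ((E.kf - k : ℕ) : ℝ)) := by
        rw [← gn_two_add, ← gn_two_add]
        refine gn_two_mono ?_
        have t4 : ε / 2 * a0 * (E.n : ℝ) ≤ ε / 2 * ((E.kf - k : ℕ) : ℝ) := by
          rw [mul_assoc]
          exact mul_le_mul_of_nonneg_left hn' (by positivity)
        linarith

/-- **level bound, crude / rate** -/
theorem gn_lev_cr (M : Mdl) (g : ℝ) (hG : M.Gen g) (γ2 : ℝ) (Th : (p : M.Par) → Xp (M.sys p) → Prop) (h2 : M.RateOn Th γ2)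
    (C D : ℕ) (hD : C + 1 ≤ D) (B0 a0 ε : ℝ) (ha : 0 < a0) (hε : 0 < ε) :
    ∃ Cr : ℝ, 1 ≤ Cr ∧ ∃ A n0 : ℕ, ∀ (p : M.Par) (E : Xp (M.sys p)), n0 ≤ E.n → M.Cls C A p E →
      ∀ (k b : ℕ) (st1 st2a st2b : List (Stg (M.sys p))) (Mk : ℕ → (M.sys p).X → ℝ) (β : ℝ) (S : Finset (Fin E.L)),
        E.InsAt k b st1 st2a st2b Mk (2 * β) → b ≤ C →
        E.s ^ (D : ℝ) * E.ka ≤ β → β ≤ B0 * E.ka → a0 * E.n ≤ ((E.kf - k : ℕ) : ℝ) →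
        (∀ i ∈ ivs E.k0 E.i0 k, Th p (E.tl k i (E.at' k i (st1 ++ ⟨k, b, Mk⟩ :: st2a)) (E.eb D (E.at' k i (st1 ++ ⟨k, b, Mk⟩ :: st2a))) (Cr * (2 * β)) (C + 1) st2b
          (S ∩ E.below k i))) →
        2 ^ ((E.n : ℝ) / 2) / (E.e * Real.sqrt E.ka) * ∑ l ∈ S, (E.ins k b st1 (st2a ++ st2b) Mk).tr l ≤
          2 ^ (3 / 2 * ((k - E.k0 : ℕ) : ℝ) + (γ2 + ε) * ((E.kf - k : ℕ) : ℝ)) := by
  obtain ⟨Cr, hCr, A1, n1, Ht⟩ := gn_lev_tail M g hG γ2 Th h2 C D hD B0 a0 (ε / 2) ha (half_pos hε)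
  obtain ⟨n3, hn3⟩ := gn_absorb (Real.sqrt B0 + 1) (ε / 2 * a0) (by positivity)
  refine ⟨Cr, hCr, A1, max n1 n3, fun p E hn hE k b st1 st2a st2b Mk β S hI hb hβ1 hβ2 hn' hTh => ?_⟩
  have hm1 : n1 ≤ E.n := le_trans (le_max_left _ _) hn
  have hm3 : n3 ≤ E.n := le_trans (le_max_right _ _) hn
  have hV := hE.2.1
  have hT := hG.tight p hE.1
  have hκ := hV.ka_pos
  have he := hV.e_pos
  have hsD : 0 < E.s ^ (D : ℝ) := Real.rpow_pos_of_pos (gn_s_pos E) _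
  have hβ : 0 < β := lt_of_lt_of_le (by positivity) hβ1
  obtain ⟨hj0, hn'0, hsum⟩ := gn_lev_len E hI.cut
  have t1 := Ht p E hm1 hE k b st1 st2a st2b Mk β S hI hb hβ1 hβ2 hn' hTh
  have h2j : (1 : ℝ) ≤ 2 ^ ((k - E.k0 : ℕ) : ℝ) := Real.one_le_rpow (by norm_num) hj0
  have t2 : E.raw st1 ⟨k, b, Mk⟩ * Real.sqrt (β / E.ka) / E.e ≤ Real.sqrt B0 * 2 ^ ((k - E.k0 : ℕ) : ℝ) := by
    have r1 := gn_raw_le hT E hV hI.cut b hI.msk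
    rw [← gn_two_nat] at r1
    have r2 : Real.sqrt (β / E.ka) ≤ Real.sqrt B0 := by
      refine Real.sqrt_le_sqrt ?_
      rw [div_le_iff₀ hκ]
      exact hβ2
    rw [div_le_iff₀ he]
    calc E.raw st1 ⟨k, b, Mk⟩ * Real.sqrt (β / E.ka) ≤ (2 ^ ((k - E.k0 : ℕ) : ℝ) * E.e) * Real.sqrt B0 :=
          mul_le_mul r1 r2 (Real.sqrt_nonneg _) (by positivity)
      _ = Real.sqrt B0 * 2 ^ ((k - E.k0 : ℕ) : ℝ) * E.e := by ring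
  have t3 : E.s ^ (D : ℝ) ≤ 2 ^ ((k - E.k0 : ℕ) : ℝ) :=
    (Real.rpow_le_one (gn_s_pos E).le (gn_s_le_one E) (Nat.cast_nonneg _)).trans h2j
  refine t1.trans ?_
  calc 2 ^ (((k - E.k0 : ℕ) : ℝ) / 2 + (γ2 + ε / 2) * ((E.kf - k : ℕ) : ℝ)) * (E.raw st1 ⟨k, b, Mk⟩ * Real.sqrt (β / E.ka) / E.e + E.s ^ (D : ℝ))
      ≤ 2 ^ (((k - E.k0 : ℕ) : ℝ) / 2 + (γ2 + ε / 2) * ((E.kf - k : ℕ) : ℝ)) * ((Real.sqrt B0 + 1) * 2 ^ ((k - E.k0 : ℕ) : ℝ)) :=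
        mul_le_mul_of_nonneg_left (by linarith) (gn_two_pos _).le
    _ ≤ 2 ^ (((k - E.k0 : ℕ) : ℝ) / 2 + (γ2 + ε / 2) * ((E.kf - k : ℕ) : ℝ)) * (2 ^ (ε / 2 * a0 * (E.n : ℝ)) * 2 ^ ((k - E.k0 : ℕ) : ℝ)) :=
        mul_le_mul_of_nonneg_left (mul_le_mul_of_nonneg_right (hn3 E.n hm3) (gn_two_pos _).le) (gn_two_pos _).le
    _ ≤ 2 ^ (3 / 2 * ((k - E.k0 : ℕ) : ℝ) + (γ2 + ε) * ((E.kf - k : ℕ) : ℝ)) := by
        rw [← gn_two_add, ← gn_two_add]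
        refine gn_two_mono ?_
        have t4 : ε / 2 * a0 * (E.n : ℝ) ≤ ε / 2 * ((E.kf - k : ℕ) : ℝ) := by
          rw [mul_assoc]
          exact mul_le_mul_of_nonneg_left hn' (by positivity)
        linarith

/-- **level bound, rate / crude** -/
theorem gn_lev_rc (M : Mdl) (g : ℝ) (hG : M.Gen g) (γ1 : ℝ) (Pr : (p : M.Par) → Xp (M.sys p) → Prop) (h1 : M.RateOn Pr γ1)
    (C : ℕ) (a0 ε : ℝ) (ha : 0 < a0) (hε : 0 < ε) :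
    ∃ A n0 : ℕ, ∀ (p : M.Par) (E : Xp (M.sys p)), n0 ≤ E.n → M.Cls C A p E →
      ∀ (k b : ℕ) (st1 st2a st2b : List (Stg (M.sys p))) (Mk : ℕ → (M.sys p).X → ℝ) (β : ℝ),
        (E.ins k b st1 (st2a ++ st2b) Mk).LvlAt st1 ⟨k, b, Mk⟩ (st2a ++ st2b) β → E.InsAt k b st1 st2a st2b Mk (2 * β) → b ≤ C → 0 < β →
        a0 * E.n ≤ ((k - E.k0 : ℕ) : ℝ) →
        (∀ (L' : ℕ) (iv' : Fin L' → ℕ) (ts' : Fin L' → (M.sys p).Tst) (th' : Fin L' → (M.sys p).X → ℝ),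
          (∀ l, β * (E.pre (k - E.k0) st1 b iv' ts' th').w l < (E.pre (k - E.k0) st1 b iv' ts' th').m l) → Pr p (E.pre (k - E.k0) st1 b iv' ts' th')) →
        2 ^ ((E.n : ℝ) / 2) / (E.e * Real.sqrt E.ka) * (E.ins k b st1 (st2a ++ st2b) Mk).rd ≤
          2 ^ ((γ1 + ε) * ((k - E.k0 : ℕ) : ℝ) + 5 / 2 * ((E.kf - k : ℕ) : ℝ)) := by
  obtain ⟨A, n1, Hp⟩ := gn_lev_pre M g hG γ1 Pr h1 C a0 (ε / 2) ha (half_pos hε)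
  obtain ⟨Cs, hCs, Hcr⟩ := gn_ins_crude M g hG C
  obtain ⟨n2, hn2⟩ := gn_absorb (Cs * Real.sqrt 2) (ε / 2 * a0) (by positivity)
  refine ⟨A, max n1 n2, fun p E hn hE k b st1 st2a st2b Mk β hL hI hb hβ hj hPr => ?_⟩
  have hm1 : n1 ≤ E.n := le_trans (le_max_left _ _) hn
  have hm2 : n2 ≤ E.n := le_trans (le_max_right _ _) hn
  have t2 := Hp p E hm1 hE k b st1 st2a st2b Mk β hL hI hb hβ hj hPr
  obtain ⟨hgd, hV, hlen, hgen, -⟩ := hE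
  have hκ := hV.ka_pos
  have he := hV.e_pos
  have hsk : 0 < Real.sqrt E.ka := Real.sqrt_pos.2 hκ
  obtain ⟨hj0, hn'0, hsum⟩ := gn_lev_len E hI.cut
  have t1 := Hcr p E hgd hV hlen hgen k b st1 st2a st2b Mk (2 * β) hI hb (by positivity)
  have e1 : Real.sqrt (2 * β) = Real.sqrt 2 * Real.sqrt β := Real.sqrt_mul (by norm_num) _
  have e2 : Real.sqrt (β / E.ka) = Real.sqrt β / Real.sqrt E.ka := Real.sqrt_div hβ.le _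
  have hcE : 0 < 2 ^ ((E.n : ℝ) / 2) / (E.e * Real.sqrt E.ka) := div_pos (gn_two_pos _) (mul_pos he hsk)
  have hCs0 : 0 < Cs := by linarith
  rw [e1] at t1
  calc 2 ^ ((E.n : ℝ) / 2) / (E.e * Real.sqrt E.ka) * (E.ins k b st1 (st2a ++ st2b) Mk).rd
      ≤ 2 ^ ((E.n : ℝ) / 2) / (E.e * Real.sqrt E.ka) * (Cs * 2 ^ (2 * ((E.kf - k : ℕ) : ℝ)) * (Real.sqrt 2 * Real.sqrt β) * E.raw st1 ⟨k, b, Mk⟩) :=
        mul_le_mul_of_nonneg_left t1 hcE.le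
    _ = (Cs * Real.sqrt 2) * (2 ^ ((E.n : ℝ) / 2) * 2 ^ (2 * ((E.kf - k : ℕ) : ℝ))) * (E.raw st1 ⟨k, b, Mk⟩ * Real.sqrt (β / E.ka) / E.e) := by
        rw [e2]
        field_simp
    _ ≤ 2 ^ (ε / 2 * a0 * (E.n : ℝ)) * (2 ^ ((E.n : ℝ) / 2) * 2 ^ (2 * ((E.kf - k : ℕ) : ℝ))) * 2 ^ ((γ1 + ε / 2 - 1 / 2) * ((k - E.k0 : ℕ) : ℝ)) :=
        mul_le_mul (mul_le_mul_of_nonneg_right (hn2 E.n hm2) (by positivity)) t2 (by have := gn_raw_nonneg E st1 ⟨k, b, Mk⟩; positivity) (by positivity)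
    _ ≤ 2 ^ ((γ1 + ε) * ((k - E.k0 : ℕ) : ℝ) + 5 / 2 * ((E.kf - k : ℕ) : ℝ)) := by
        rw [← gn_two_add, ← gn_two_add, ← gn_two_add]
        refine gn_two_mono ?_
        have t4 : ε / 2 * a0 * (E.n : ℝ) ≤ ε / 2 * ((k - E.k0 : ℕ) : ℝ) := by
          rw [mul_assoc]
          exact mul_le_mul_of_nonneg_left hj (by positivity)
        rw [← hsum] at t4 ⊢
        nlinarith

/-- **the remainder** -/
theorem gn_lev_rem (M : Mdl) (g : ℝ) (hG : M.Gen g) (C D : ℕ) (B0 : ℝ) (hB : 0 < B0) :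
    ∃ n0 : ℕ, ∀ (p : M.Par) (E : Xp (M.sys p)) (A : ℕ), n0 ≤ E.n → M.Cls C A p E →
      ∀ (k b : ℕ) (st1 st2a st2b : List (Stg (M.sys p))) (Mk : ℕ → (M.sys p).X → ℝ), E.InsAt k b st1 st2a st2b Mk (E.s ^ (D : ℝ) * (B0 * E.ka)) → b ≤ C →
        2 ^ ((E.n : ℝ) / 2) / (E.e * Real.sqrt E.ka) * (E.ins k b st1 (st2a ++ st2b) Mk).rd ≤ 2 ^ ((4 - (D : ℝ) / 2) * E.n) := by
  obtain ⟨Cs, hCs, H⟩ := gn_ins_crude M g hG C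
  obtain ⟨n0, hn0⟩ := gn_absorb (Cs * Real.sqrt B0) (3 / 2) (by norm_num)
  refine ⟨n0, fun p E A hn hE k b st1 st2a st2b Mk hI hb => ?_⟩
  obtain ⟨hgd, hV, hlen, hgen, -⟩ := hE
  have hT := hG.tight p hgd
  have hκ := hV.ka_pos
  have he := hV.e_pos
  have hsk : 0 < Real.sqrt E.ka := Real.sqrt_pos.2 hκ
  have hsD : 0 < E.s ^ (D : ℝ) := Real.rpow_pos_of_pos (gn_s_pos E) _
  have h1 := H p E hgd hV hlen hgen k b st1 st2a st2b Mk _ hI hb (by positivity)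
  have h2 := gn_raw_le hT E hV hI.cut b hI.msk
  obtain ⟨hj0, hn'0, hsum⟩ := gn_lev_len E hI.cut
  rw [← gn_two_nat] at h2
  have e1 : Real.sqrt (E.s ^ (D : ℝ) * (B0 * E.ka)) = 2 ^ (-((D : ℝ) * E.n) / 2) * (Real.sqrt B0 * Real.sqrt E.ka) := by
    rw [Real.sqrt_mul hsD.le, Real.sqrt_mul hB.le, gn_s_rpow, gn_two_sqrt]
  rw [e1] at h1
  have hcE : 0 < 2 ^ ((E.n : ℝ) / 2) / (E.e * Real.sqrt E.ka) := div_pos (gn_two_pos _) (mul_pos he hsk)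
  calc 2 ^ ((E.n : ℝ) / 2) / (E.e * Real.sqrt E.ka) * (E.ins k b st1 (st2a ++ st2b) Mk).rd
      ≤ 2 ^ ((E.n : ℝ) / 2) / (E.e * Real.sqrt E.ka) * (Cs * 2 ^ (2 * ((E.kf - k : ℕ) : ℝ)) * (2 ^ (-((D : ℝ) * E.n) / 2) * (Real.sqrt B0 * Real.sqrt E.ka)) *
          (2 ^ ((k - E.k0 : ℕ) : ℝ) * E.e)) :=
        mul_le_mul_of_nonneg_left (h1.trans (mul_le_mul_of_nonneg_left h2 (by positivity))) hcE.le
    _ = (Cs * Real.sqrt B0) * (2 ^ ((E.n : ℝ) / 2) * 2 ^ (2 * ((E.kf - k : ℕ) : ℝ)) * 2 ^ (-((D : ℝ) * E.n) / 2) * 2 ^ ((k - E.k0 : ℕ) : ℝ)) := by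
        field_simp
    _ ≤ 2 ^ (3 / 2 * (E.n : ℝ)) * (2 ^ ((E.n : ℝ) / 2) * 2 ^ (2 * ((E.kf - k : ℕ) : ℝ)) * 2 ^ (-((D : ℝ) * E.n) / 2) * 2 ^ ((k - E.k0 : ℕ) : ℝ)) :=
        mul_le_mul_of_nonneg_right (hn0 E.n hn) (by positivity)
    _ = 2 ^ (3 / 2 * (E.n : ℝ) + ((E.n : ℝ) / 2 + 2 * ((E.kf - k : ℕ) : ℝ) + -((D : ℝ) * E.n) / 2 + ((k - E.k0 : ℕ) : ℝ))) := by
        rw [gn_two_add, gn_two_add, gn_two_add, gn_two_add]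
    _ ≤ 2 ^ ((4 - (D : ℝ) / 2) * E.n) := by
        refine gn_two_mono ?_
        rw [← hsum]
        nlinarith

end Claimed.Agent.R256
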