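-- KEEP
import Claimed.Agent.R256.Gen.Lev

/-!
# Row 256, GENERIC THEORY : COMP          (architects helper207 (DECISION F 21:10Z), helper199 (cut); prefix `gn_`)

Paper free.   `RateF γ ⟹ Rate γ`: inserted masks do not raise the exponent.   The paper takes its extremisers in the masked class and then argues on FREE gaps (secs. 2-8): this file closes that gap.
INDUCTION ON THE NUMBER `K` OF STAGES; the cut is made at the depth `k = σ1.k = k0 + j` of the FIRST stage `σ1`, BEFORE it: `st1 = []`, `st2a = [σ1]`, `st2b = st'`; the states at the cut are the free root state `v ∈ Pl b0`.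
ENGINE: `Gen/Lev.lean`.   `a0 = min (ε/16) (1/2)`, `D = max (C+2) (⌈γ⌉₊ + 10)`.   `gn_dec_ins`: `rd(E)^(1/3) ≤ Σ_{j' ≤ Dn} rd(E_j')^(1/3)`.   Every level obeys `c_E rd(E_j') ≤ 2^((γ + 3ε/4) n)`:
(A) `a0 n ≤ j`, `a0 n ≤ n'`:  `gn_lev_rr` (`Pr = (st = [])`, `Th = (≤ K stages)`, rates `γ, γ`, `ε/4`).
(B) `j < a0 n` (so `n' ≥ n/2`):  `gn_lev_cr` (`a0 := 1/2`):  `3j/2 + (γ+ε/4) n' ≤ (γ + ε/4 + 3 a0/2) n`   (`0 ≤ γ`).
(C) `n' < a0 n` (so `j ≥ n/2`):  `gn_lev_rc` (`a0 := 1/2`):  `(γ+ε/4) j + 5n'/2 ≤ (γ + ε/4 + 5 a0/2) n`.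
remainder: `gn_lev_rem`: `2^((4 - D/2) n) ≤ 1`.      `gn_cube`, `gn_absorb_poly`: `(Dn+1)^3 ≤ 2^(εn/4)`.      Tail orders: the max of all `A` (`gn_cls_anti`).
-/

set_option autoImplicit false

namespace Claimed.Agent.R256

open MeasureTheory

/-- the rate on the experiments with at most `K` stages -/
def Mdl.RateK (M : Mdl) (K : ℕ) (γ : ℝ) : Prop :=
  ∀ (C : ℕ) (ε : ℝ), 0 < ε → ∃ A n0 : ℕ, ∀ (p : M.Par) (E : Xp (M.sys p)), n0 ≤ E.n → M.Cls C A p E → E.st.length ≤ K →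
    E.val ≤ 2 ^ ((γ + ε) * E.n)

theorem gn_comp_eqns_cite : True := by
  have := @Mdl.RateK.eq_1
  trivial

theorem gn_rateK_zero (M : Mdl) (γ : ℝ) : M.RateK 0 γ ↔ M.RateF γ := by
  constructor
  · intro h C ε hε
    obtain ⟨A, n0, H⟩ := h C ε hε
    exact ⟨A, n0, fun p E hn hE hst => H p E hn hE (by rw [hst]; exact le_refl _)⟩
  · intro h C ε hε
    obtain ⟨A, n0, H⟩ := h C ε hε
    exact ⟨A, n0, fun p E hn hE hst => H p E hn hE (List.length_eq_zero_iff.1 (Nat.le_zero.1 hst))⟩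

/-- PLAN: `Cls C A p E` contains `st.length ≤ C`: use `h C C ε`. -/
theorem gn_rate_of_rateK (M : Mdl) (γ : ℝ) (h : ∀ K, M.RateK K γ) : M.Rate γ := by
  intro C ε hε
  obtain ⟨A, n0, H⟩ := h C C ε hε
  exact ⟨A, n0, fun p E hn hE => H p E hn hE hE.2.2.1⟩

/-- the cut before the first stage.   PLAN: `Valid.st_dep`, `Valid.st_mono` (`List.pairwise_cons`); `at' k i [] = v` by `rfl`. -/
theorem gn_first_cut {P : PkSys} (E : Xp P) (hE : E.Valid) {σ1 : Stg P} {st' : List (Stg P)} (h : E.st = σ1 :: st') :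
    E.CutAt σ1.k [] ([σ1] ++ st') ∧ (∀ σ ∈ [σ1], σ.k = σ1.k) ∧ ∀ i, E.at' σ1.k i [] ∈ P.Pl E.b0 := by
  have hm : σ1 ∈ E.st := by rw [h]; exact List.mem_cons_self
  have hmono := hE.st_mono
  rw [h, List.pairwise_cons] at hmono
  refine ⟨⟨h, fun σ hσ => absurd hσ List.not_mem_nil, ?_, (hE.st_dep σ1 hm).1, (hE.st_dep σ1 hm).2⟩, ?_, fun _ => hE.plat⟩
  · intro σ hσ
    rcases List.mem_cons.1 hσ with rfl | hσ
    · exact le_refl _
    · exact hmono.1 σ hσ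
  · intro σ hσ
    rw [List.mem_singleton.1 hσ]

/-- the sum over the pieces of a peeled decomposition -/
theorem gn_comp_sum {P : PkSys} (E : Xp P) (hV : E.Valid) (D : ℕ) (r : ℕ → ℝ) (hr : ∀ j, 0 ≤ r j) (Y δ : ℝ)
    (Hs : E.rd ^ (1 / 3 : ℝ) ≤ ∑ j ∈ Finset.range (D * E.n + 1), r j ^ (1 / 3 : ℝ))
    (hpc : ∀ j < D * E.n + 1, 2 ^ ((E.n : ℝ) / 2) / (E.e * Real.sqrt E.ka) * r j ≤ 2 ^ Y)
    (hp : ((D * E.n + 1 : ℕ) : ℝ) ^ 3 ≤ 2 ^ (δ * E.n)) : E.val ≤ 2 ^ (δ * E.n + Y) := by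
  have hcE : 0 < 2 ^ ((E.n : ℝ) / 2) / (E.e * Real.sqrt E.ka) :=
    div_pos (gn_two_pos _) (mul_pos hV.e_pos (Real.sqrt_pos.2 hV.ka_pos))
  have hcube := gn_cube E.rd (2 ^ Y / (2 ^ ((E.n : ℝ) / 2) / (E.e * Real.sqrt E.ka))) (gn_rd_nonneg E hV) (D * E.n + 1) r hr
    (fun j hjl => by rw [le_div_iff₀ hcE, mul_comm]; exact hpc j hjl) Hs
  unfold Xp.val
  calc 2 ^ ((E.n : ℝ) / 2) / (E.e * Real.sqrt E.ka) * E.rd
      ≤ 2 ^ ((E.n : ℝ) / 2) / (E.e * Real.sqrt E.ka) * (((D * E.n + 1 : ℕ) : ℝ) ^ 3 * (2 ^ Y / (2 ^ ((E.n : ℝ) / 2) / (E.e * Real.sqrt E.ka)))) :=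
        mul_le_mul_of_nonneg_left hcube hcE.le
    _ = ((D * E.n + 1 : ℕ) : ℝ) ^ 3 * 2 ^ Y := by
        have e0 : ∀ c N X : ℝ, 0 < c → c * (N * (X / c)) = N * X := fun c N X hc => by field_simp
        exact e0 _ _ _ hcE
    _ ≤ 2 ^ (δ * E.n) * 2 ^ Y := mul_le_mul_of_nonneg_right hp (gn_two_pos _).le
    _ = 2 ^ (δ * E.n + Y) := (gn_two_add _ _).symm

/-- the readout of an experiment with valid labels is nonnegative, whatever the stack -/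
theorem gn_ins_rd_nonneg {P : PkSys} (E : Xp P) (hV : E.Valid) (k b : ℕ) (st1 st2 : List (Stg P)) (Mk : ℕ → P.X → ℝ) : 0 ≤ (E.ins k b st1 st2 Mk).rd :=
  Finset.sum_nonneg fun l _ => div_nonneg (Real.rpow_nonneg (gn_en_nonneg _ _ _ (hV.th_nn l) _) _) (Real.sqrt_nonneg _)

/-- **the step**   (plan in the header) -/
theorem gn_comp_step (M : Mdl) (g : ℝ) (hG : M.Gen g) (γ : ℝ) (h0 : 0 ≤ γ) (K : ℕ) (hF : M.RateK 0 γ) (hK : M.RateK K γ) : M.RateK (K + 1) γ := by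
  intro C ε hε
  -- the constants
  obtain ⟨a0, ha0, ha1, ha2⟩ : ∃ a0 : ℝ, 0 < a0 ∧ a0 ≤ ε / 16 ∧ a0 ≤ 1 / 2 :=
    ⟨min (ε / 16) (1 / 2), lt_min (by positivity) (by norm_num), min_le_left _ _, min_le_right _ _⟩
  obtain ⟨D, hD1, hD2, hD3⟩ : ∃ D : ℕ, C + 1 ≤ D ∧ |γ| + 2 ≤ (D : ℝ) ∧ (8 : ℝ) ≤ (D : ℝ) := by
    obtain ⟨m, hm⟩ := exists_nat_ge (8 + |γ|)
    have a1 := abs_nonneg γ
    have a2 : (0 : ℝ) ≤ C := Nat.cast_nonneg _
    refine ⟨m + (C + 1), by omega, ?_, ?_⟩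
    · push_cast
      linarith
    · push_cast
      linarith
  have h1 : M.RateOn (fun _ E => E.st.length ≤ 0) γ := hF
  have h2 : M.RateOn (fun _ E => E.st.length ≤ K) γ := hK
  have hε4 : 0 < ε / 4 := by positivity
  obtain ⟨A0, n0, H0⟩ := hF C ε hε
  obtain ⟨Cs, hCs, A1, n1, Hdec⟩ := gn_dec_ins M g hG C D
  obtain ⟨CrA, -, A2, n2, Hrr⟩ := gn_lev_rr M g hG γ γ _ _ h1 h2 C D hD1 hD2 Cs a0 (ε / 4) ha0 hε4
  obtain ⟨CrB, -, A3, n3, Hcr⟩ := gn_lev_cr M g hG γ _ h2 C D hD1 Cs (1 / 2) (ε / 4) (by norm_num) hε4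
  obtain ⟨A4, n4, Hrc⟩ := gn_lev_rc M g hG γ _ h1 C (1 / 2) (ε / 4) (by norm_num) hε4
  obtain ⟨n5, Hrem⟩ := gn_lev_rem M g hG C D Cs (by linarith)
  obtain ⟨n6, Hpoly⟩ := gn_absorb_poly D 1 (ε / 4) hε4
  refine ⟨max A0 (max (max A1 A2) (max A3 A4)), max n0 (max (max n1 n2) (max (max n3 n4) (max n5 n6))), fun p E hn hE hlen => ?_⟩
  have hm0 : n0 ≤ E.n := le_trans (le_max_left _ _) hn
  have hm' := le_trans (le_max_right _ _) hn
  have hm1 : n1 ≤ E.n := le_trans (le_trans (le_max_left _ _) (le_max_left _ _)) hm'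
  have hm2 : n2 ≤ E.n := le_trans (le_trans (le_max_right _ _) (le_max_left _ _)) hm'
  have hm'' := le_trans (le_max_right _ _) hm'
  have hm3 : n3 ≤ E.n := le_trans (le_trans (le_max_left _ _) (le_max_left _ _)) hm''
  have hm4 : n4 ≤ E.n := le_trans (le_trans (le_max_right _ _) (le_max_left _ _)) hm''
  have hm5 : n5 ≤ E.n := le_trans (le_trans (le_max_left _ _) (le_max_right _ _)) hm''
  have hm6 : n6 ≤ E.n := le_trans (le_trans (le_max_right _ _) (le_max_right _ _)) hm''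
  have hE0 : M.Cls C A0 p E := gn_cls_anti M hG.scale (le_max_left _ _) hE
  have hE1 : M.Cls C A1 p E := gn_cls_anti M hG.scale (le_trans (le_trans (le_max_left _ _) (le_max_left _ _)) (le_max_right _ _)) hE
  have hE2 : M.Cls C A2 p E := gn_cls_anti M hG.scale (le_trans (le_trans (le_max_right _ _) (le_max_left _ _)) (le_max_right _ _)) hE
  have hE3 : M.Cls C A3 p E := gn_cls_anti M hG.scale (le_trans (le_trans (le_max_left _ _) (le_max_right _ _)) (le_max_right _ _)) hE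
  have hE4 : M.Cls C A4 p E := gn_cls_anti M hG.scale (le_trans (le_trans (le_max_right _ _) (le_max_right _ _)) (le_max_right _ _)) hE
  -- no stage
  rcases hst : E.st with _ | ⟨σ1, st'⟩
  · exact H0 p E hm0 hE0 (by rw [hst]; exact le_refl _)
  have hlen' : st'.length ≤ K := by
    rw [hst, List.length_cons] at hlen
    omega
  have hV := hE.2.1
  have hgen := hE.2.2.2.1
  obtain ⟨hc, hsame, hpl⟩ := gn_first_cut E hV hst
  obtain ⟨Mk, Hl, Hr, Hs⟩ := Hdec p E hm1 hE1 σ1.k E.b0 [] [σ1] st' hc hsame (le_refl _) hgen.1 (fun i _ => hpl i)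
  -- lengths
  have hsum : ((σ1.k - E.k0 : ℕ) : ℝ) + ((E.kf - σ1.k : ℕ) : ℝ) = E.n := by
    have h3 : (σ1.k - E.k0) + (E.kf - σ1.k) = E.n := by
      have h4 : E.kf = E.k0 + E.n := rfl
      have h5 := hc.2.2.2.1
      have h6 := hc.2.2.2.2
      omega
    exact_mod_cast h3
  have hj0 : (0 : ℝ) ≤ ((σ1.k - E.k0 : ℕ) : ℝ) := Nat.cast_nonneg _
  have hn'0 : (0 : ℝ) ≤ ((E.kf - σ1.k : ℕ) : ℝ) := Nat.cast_nonneg _
  have hnn : (0 : ℝ) ≤ (E.n : ℝ) := Nat.cast_nonneg _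
  -- every piece
  have hpc : ∀ j < D * E.n + 1, 2 ^ ((E.n : ℝ) / 2) / (E.e * Real.sqrt E.ka) * (E.ins σ1.k E.b0 [] ([σ1] ++ st') (Mk j)).rd ≤
      2 ^ ((γ + 3 * ε / 4) * (E.n : ℝ)) := by
    intro j hjl
    rcases Nat.lt_succ_iff_lt_or_eq.1 hjl with hjl | hjl
    · obtain ⟨b1, b2, b3⟩ := gn_dec_beta E hV.ka_pos D Cs hCs j hjl
      by_cases hA1 : a0 * E.n ≤ ((σ1.k - E.k0 : ℕ) : ℝ)
      · by_cases hA2 : a0 * E.n ≤ ((E.kf - σ1.k : ℕ) : ℝ)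
        · -- (A)
          refine (Hrr p E hm2 hE2 σ1.k E.b0 [] [σ1] st' (Mk j) _ Finset.univ (Hl j hjl).1 (Hl j hjl).2 hgen.1 b2 b3 hA1 hA2
            (fun _ _ _ _ _ => le_refl _) (fun i _ => hlen')).trans (gn_two_mono ?_)
          rw [← hsum]
          nlinarith
        · -- (C)
          push Not at hA2
          have hj2 : 1 / 2 * (E.n : ℝ) ≤ ((σ1.k - E.k0 : ℕ) : ℝ) := by nlinarith
          refine (Hrc p E hm4 hE4 σ1.k E.b0 [] [σ1] st' (Mk j) _ (Hl j hjl).1 (Hl j hjl).2 hgen.1 b1 hj2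
            (fun _ _ _ _ _ => le_refl _)).trans (gn_two_mono ?_)
          have e1 : (γ + ε / 4) * ((σ1.k - E.k0 : ℕ) : ℝ) ≤ (γ + ε / 4) * (E.n : ℝ) :=
            mul_le_mul_of_nonneg_left (by linarith) (by positivity)
          have e2 : ((E.kf - σ1.k : ℕ) : ℝ) ≤ ε / 16 * (E.n : ℝ) := hA2.le.trans (mul_le_mul_of_nonneg_right ha1 hnn)
          nlinarith
      · -- (B)
        push Not at hA1
        have hn2 : 1 / 2 * (E.n : ℝ) ≤ ((E.kf - σ1.k : ℕ) : ℝ) := by nlinarith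
        refine (Hcr p E hm3 hE3 σ1.k E.b0 [] [σ1] st' (Mk j) _ Finset.univ (Hl j hjl).2 hgen.1 b2 b3 hn2
          (fun i _ => hlen')).trans (gn_two_mono ?_)
        have e1 : (γ + ε / 4) * ((E.kf - σ1.k : ℕ) : ℝ) ≤ (γ + ε / 4) * (E.n : ℝ) :=
          mul_le_mul_of_nonneg_left (by linarith) (by positivity)
        have e2 : ((σ1.k - E.k0 : ℕ) : ℝ) ≤ ε / 16 * (E.n : ℝ) := hA1.le.trans (mul_le_mul_of_nonneg_right ha1 hnn)
        nlinarith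
    · rw [hjl]
      refine (Hrem p E _ hm5 hE σ1.k E.b0 [] [σ1] st' (Mk (D * E.n)) Hr hgen.1).trans (gn_two_mono ?_)
      have e1 : (4 - (D : ℝ) / 2) * (E.n : ℝ) ≤ 0 := mul_nonpos_of_nonpos_of_nonneg (by linarith) hnn
      have e2 : 0 ≤ (γ + 3 * ε / 4) * (E.n : ℝ) := by positivity
      linarith
  have hp := Hpoly E.n hm6
  rw [one_mul] at hp
  refine (gn_comp_sum E hV D (fun j => (E.ins σ1.k E.b0 [] ([σ1] ++ st') (Mk j)).rd) (fun j => gn_ins_rd_nonneg E hV _ _ _ _ _) _ (ε / 4) Hs hpc hp).trans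
    (le_of_eq ?_)
  congr 1
  ring

/-- **COMP** -/
theorem gn_comp (M : Mdl) (g : ℝ) (hG : M.Gen g) (γ : ℝ) (h0 : 0 ≤ γ) (hF : M.RateF γ) : M.Rate γ := by
  have h : ∀ K, M.RateK K γ := by
    intro K
    induction K with
    | zero => exact (gn_rateK_zero M γ).2 hF
    | succ K ih => exact gn_comp_step M g hG γ h0 K ((gn_rateK_zero M γ).2 hF) ih
  exact gn_rate_of_rateK M γ h

/-- **COMP-ON** (request of helper216): one cut behind all stages; rate `γ` on the (masked) prefixes, rate `γ'` on the FREE experiments of a class `Th`; all tails of `E` at the cut belong to `Th`,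
whatever their root state, budget, regularity, generation, set of labels.   PLAN: pass to the package `C + 1` (`gn_cls_mono`); `st1 = E.st`, `st2a = st2b = []`, plateau generation `b = C + 1` (`gn_run_pl`, `gn_pl_mono`); `gn_dec_ins`, `gn_lev_rr` (`Pr = True` at the rate `γ`,
`Th' = (st = [] ∧ Th)` at the rate `γ'`, `ε/2`), `gn_lev_rem` with `D ≥ 8 + 2|γ| + 2|γ'|`, `gn_cube`, `gn_absorb_poly`. -/
theorem gn_comp_on (M : Mdl) (g : ℝ) (hG : M.Gen g) (γ γ' : ℝ) (hγ : M.Rate γ) (Th : (p : M.Par) → Xp (M.sys p) → Prop)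
    (hTh : ∀ (C : ℕ) (ε : ℝ), 0 < ε → ∃ A n0 : ℕ, ∀ (p : M.Par) (E : Xp (M.sys p)), n0 ≤ E.n → M.Cls C A p E → E.st = [] → Th p E →
      E.val ≤ 2 ^ ((γ' + ε) * E.n))
    (C : ℕ) (a0 ε : ℝ) (ha : 0 < a0) (hε : 0 < ε) :
    ∃ A n0 : ℕ, ∀ (p : M.Par) (E : Xp (M.sys p)), n0 ≤ E.n → M.Cls C A p E →
      ∀ k : ℕ, E.CutAt k E.st [] → a0 * E.n ≤ ((k - E.k0 : ℕ) : ℝ) → a0 * E.n ≤ ((E.kf - k : ℕ) : ℝ) →
        (∀ i ∈ ivs E.k0 E.i0 k, ∀ (ψ : (M.sys p).Kc) (e' κ' : ℝ) (b' : ℕ) (S : Finset (Fin E.L)), S ⊆ E.below k i → Th p (E.tl k i ψ e' κ' b' [] S)) →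
        E.val ≤ 2 ^ ((γ + ε) * ((k - E.k0 : ℕ) : ℝ) + (γ' + ε) * ((E.kf - k : ℕ) : ℝ)) := by
  -- the constants
  obtain ⟨D, hD1, hD2, hD3⟩ : ∃ D : ℕ, (C + 1) + 1 ≤ D ∧ |γ| + 2 ≤ (D : ℝ) ∧ 8 + 2 * |γ| + 2 * |γ'| ≤ (D : ℝ) := by
    obtain ⟨m, hm⟩ := exists_nat_ge (8 + 2 * |γ| + 2 * |γ'|)
    have a1 := abs_nonneg γ
    have a2 := abs_nonneg γ'
    refine ⟨m + (C + 2), by omega, ?_, ?_⟩
    · push_cast
      have : (0 : ℝ) ≤ C := Nat.cast_nonneg _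
      linarith
    · push_cast
      have : (0 : ℝ) ≤ C := Nat.cast_nonneg _
      linarith
  have h1 : M.RateOn (fun _ _ => True) γ := fun C ε hε => by
    obtain ⟨A, n0, H⟩ := hγ C ε hε
    exact ⟨A, n0, fun p E hn hE _ => H p E hn hE⟩
  have h2 : M.RateOn (fun p E => E.st = [] ∧ Th p E) γ' := fun C ε hε => by
    obtain ⟨A, n0, H⟩ := hTh C ε hε
    exact ⟨A, n0, fun p E hn hE h => H p E hn hE h.1 h.2⟩
  obtain ⟨Cs, hCs, A1, n1, Hdec⟩ := gn_dec_ins M g hG (C + 1) D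
  obtain ⟨Cr, hCr, A2, n2, Hrr⟩ := gn_lev_rr M g hG γ γ' _ _ h1 h2 (C + 1) D hD1 hD2 Cs a0 (ε / 2) ha (half_pos hε)
  obtain ⟨n3, Hrem⟩ := gn_lev_rem M g hG (C + 1) D Cs (by linarith)
  obtain ⟨n4, Hpoly⟩ := gn_absorb_poly D 1 (ε / 2) (half_pos hε)
  refine ⟨max A1 A2, max (max n1 n2) (max n3 n4), fun p E hn hE k hc hj hn' hTl => ?_⟩
  have hn1 : n1 ≤ E.n := le_trans (le_trans (le_max_left _ _) (le_max_left _ _)) hn
  have hn2 : n2 ≤ E.n := le_trans (le_trans (le_max_right _ _) (le_max_left _ _)) hn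
  have hn3 : n3 ≤ E.n := le_trans (le_trans (le_max_left _ _) (le_max_right _ _)) hn
  have hn4 : n4 ≤ E.n := le_trans (le_trans (le_max_right _ _) (le_max_right _ _)) hn
  have hE' : M.Cls (C + 1) (max A1 A2) p E := gn_cls_mono M hG.scale (Nat.le_succ C) hE
  have hE1 : M.Cls (C + 1) A1 p E := gn_cls_anti M hG.scale (le_max_left _ _) hE'
  have hE2 : M.Cls (C + 1) A2 p E := gn_cls_anti M hG.scale (le_max_right _ _) hE'
  obtain ⟨hgd, hV, -, hgen, -⟩ := hE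
  have hT := hG.tight p hgd
  have hpl : ∀ i ∈ ivs E.k0 E.i0 k, E.at' k i E.st ∈ (M.sys p).Pl (C + 1) := fun i _ =>
    gn_run_pl hT k i C E.st hgen.2.2 (gn_pl_mono hT hgen.1 hV.plat)
  obtain ⟨Mk, Hl, Hr, Hs⟩ := Hdec p E hn1 hE1 k (C + 1) E.st [] [] hc (fun σ hσ => absurd hσ List.not_mem_nil) (Nat.zero_le _) le_rfl hpl
  -- lengths
  have hsum : ((k - E.k0 : ℕ) : ℝ) + ((E.kf - k : ℕ) : ℝ) = E.n := by
    have h3 : (k - E.k0) + (E.kf - k) = E.n := by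
      have h4 : E.kf = E.k0 + E.n := rfl
      have h5 := hc.2.2.2.1
      have h6 := hc.2.2.2.2
      omega
    exact_mod_cast h3
  have hj0 : (0 : ℝ) ≤ ((k - E.k0 : ℕ) : ℝ) := Nat.cast_nonneg _
  have hn'0 : (0 : ℝ) ≤ ((E.kf - k : ℕ) : ℝ) := Nat.cast_nonneg _
  have hcE : 0 < 2 ^ ((E.n : ℝ) / 2) / (E.e * Real.sqrt E.ka) :=
    div_pos (gn_two_pos _) (mul_pos hV.e_pos (Real.sqrt_pos.2 hV.ka_pos))
  -- every piece
  have hpc : ∀ j < D * E.n + 1, 2 ^ ((E.n : ℝ) / 2) / (E.e * Real.sqrt E.ka) * (E.ins k (C + 1) E.st ([] ++ []) (Mk j)).rd ≤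
      2 ^ ((γ + ε / 2) * ((k - E.k0 : ℕ) : ℝ) + (γ' + ε / 2) * ((E.kf - k : ℕ) : ℝ)) := by
    intro j hjl
    rcases Nat.lt_succ_iff_lt_or_eq.1 hjl with hjl | hjl
    · obtain ⟨b1, b2, b3⟩ := gn_dec_beta E hV.ka_pos D Cs hCs j hjl
      exact Hrr p E hn2 hE2 k (C + 1) E.st [] [] (Mk j) _ Finset.univ (Hl j hjl).1 (Hl j hjl).2 le_rfl b2 b3 hj hn'
        (fun _ _ _ _ _ => trivial) (fun i hi => ⟨rfl, hTl i hi _ _ _ _ _ Finset.inter_subset_right⟩)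
    · rw [hjl]
      refine (Hrem p E _ hn3 hE' k (C + 1) E.st [] [] (Mk (D * E.n)) Hr le_rfl).trans (gn_two_mono ?_)
      have a1 := neg_abs_le γ
      have a2 := neg_abs_le γ'
      have a3 := abs_nonneg γ
      have a4 := abs_nonneg γ'
      have e1 : -|γ| * (E.n : ℝ) ≤ (γ + ε / 2) * ((k - E.k0 : ℕ) : ℝ) := by
        rw [← hsum]
        nlinarith
      have e2 : -|γ'| * (E.n : ℝ) ≤ (γ' + ε / 2) * ((E.kf - k : ℕ) : ℝ) := by
        rw [← hsum]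
        nlinarith
      have e3 : (4 - (D : ℝ) / 2) * (E.n : ℝ) ≤ (-|γ| - |γ'|) * (E.n : ℝ) :=
        mul_le_mul_of_nonneg_right (by linarith) (Nat.cast_nonneg _)
      linarith
  -- the sum
  have hrn : ∀ j, 0 ≤ (E.ins k (C + 1) E.st ([] ++ []) (Mk j)).rd := fun j =>
    Finset.sum_nonneg fun l _ => div_nonneg (Real.rpow_nonneg (gn_en_nonneg _ _ _ (hV.th_nn l) _) _) (Real.sqrt_nonneg _)
  have hcube := gn_cube E.rd (2 ^ ((γ + ε / 2) * ((k - E.k0 : ℕ) : ℝ) + (γ' + ε / 2) * ((E.kf - k : ℕ) : ℝ)) / (2 ^ ((E.n : ℝ) / 2) / (E.e * Real.sqrt E.ka)))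
    (gn_rd_nonneg E hV) (D * E.n + 1) (fun j => (E.ins k (C + 1) E.st ([] ++ []) (Mk j)).rd) hrn
    (fun j hjl => by rw [le_div_iff₀ hcE, mul_comm]; exact hpc j hjl) Hs
  have hp := Hpoly E.n hn4
  rw [one_mul] at hp
  unfold Xp.val
  calc 2 ^ ((E.n : ℝ) / 2) / (E.e * Real.sqrt E.ka) * E.rd
      ≤ 2 ^ ((E.n : ℝ) / 2) / (E.e * Real.sqrt E.ka) * (((D * E.n + 1 : ℕ) : ℝ) ^ 3 *
          (2 ^ ((γ + ε / 2) * ((k - E.k0 : ℕ) : ℝ) + (γ' + ε / 2) * ((E.kf - k : ℕ) : ℝ)) / (2 ^ ((E.n : ℝ) / 2) / (E.e * Real.sqrt E.ka)))) :=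
        mul_le_mul_of_nonneg_left hcube hcE.le
    _ = ((D * E.n + 1 : ℕ) : ℝ) ^ 3 * 2 ^ ((γ + ε / 2) * ((k - E.k0 : ℕ) : ℝ) + (γ' + ε / 2) * ((E.kf - k : ℕ) : ℝ)) := by
        have e0 : ∀ c N X : ℝ, 0 < c → c * (N * (X / c)) = N * X := fun c N X hc => by field_simp
        exact e0 _ _ _ hcE
    _ ≤ 2 ^ (ε / 2 * E.n) * 2 ^ ((γ + ε / 2) * ((k - E.k0 : ℕ) : ℝ) + (γ' + ε / 2) * ((E.kf - k : ℕ) : ℝ)) :=
        mul_le_mul_of_nonneg_right hp (gn_two_pos _).le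
    _ = 2 ^ ((γ + ε) * ((k - E.k0 : ℕ) : ℝ) + (γ' + ε) * ((E.kf - k : ℕ) : ℝ)) := by
        rw [← gn_two_add]
        congr 1
        rw [← hsum]
        ring

end Claimed.Agent.R256
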