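-- KEEP
import Claimed.Agent.R256.Gen.Comp

/-!
# Row 256, GENERIC THEORY : MIN, EXT, CNT          (statements helper207; architect helper199; prefix `gn_`)

Paper free (soft arguments on `Rate`, `PMin`, `pick`, powers of two).   Label exponent `x`: `m = κ w s^x`.   `PMin K p`: experiments with `≤ K` stages (`K : ℕ∞`) and all `x ≤ p - ξ` lose a package free power.
DECISION F, final form (207, 21:25Z): TWO REGIMES.   The LEAVES are the general statements (`K`, `pK K`); the named corollaries below them are proved.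
  MASKED  `K = ⊤`:  `p0`, `d0`, `gn_pmin_p0`, `gn_p0_ge`, `gn_p0_le`, `gn_d0_le`, `gn_ext`          = the statements of the first version (cylinder models, secs. 2-6: `τ` before `C`, any number `≤ C` of stages)
  FREE    `K = 0`:  `p0f`, `d0f`, `gn_pmin_p0f`, `gn_p0f_ge`, `gn_p0f_le`, `gn_d0f_le`, `gn_extf` (`E.st = []`)      (round models, secs. 7-8);   `PMin K p0f` for every FINITE `K` is `gn_pminK` (`Gen/MinK.lean`).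
`pick` does not change the stack.
-/

set_option autoImplicit false

namespace Claimed.Agent.R256

open MeasureTheory

/-- `PMin` is downward closed.   PLAN: `s^(p-ξ) ≤ s^(p'-ξ)` (`gn_s_anti`), so the hypothesis on the labels passes from `p'` to `p`. -/
theorem gn_pmin_anti (M : Mdl) {K : ℕ∞} {p p' : ℝ} (h : M.PMin K p) (hp : p' ≤ p) : M.PMin K p' := by
  intro ξ hξ
  obtain ⟨τ, hτ, H⟩ := h ξ hξ
  refine ⟨τ, hτ, fun C => ?_⟩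
  obtain ⟨A, n0, H'⟩ := H C
  refine ⟨A, n0, fun q E hn hE hl hm => H' q E hn hE hl fun l => le_trans ?_ (hm l)⟩
  have hV := hE.2.1
  exact mul_le_mul_of_nonneg_left (gn_s_anti E (by linarith)) (mul_pos hV.ka_pos (hV.w_pos l)).le

/-- fewer stages -/
theorem gn_pmin_stages (M : Mdl) {K K' : ℕ∞} {p : ℝ} (h : M.PMin K p) (hK : K' ≤ K) : M.PMin K' p := by
  intro ξ hξ
  obtain ⟨τ, hτ, H⟩ := h ξ hξ
  refine ⟨τ, hτ, fun C => ?_⟩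
  obtain ⟨A, n0, H'⟩ := H C
  exact ⟨A, n0, fun q E hn hE hl => H' q E hn hE (hl.trans hK)⟩

/-- an experiment without labels -/
theorem gn_val_nolabel {P : PkSys} (E : Xp P) (h : E.L = 0) : E.val = 0 := by
  have : IsEmpty (Fin E.L) := by
    rw [h]
    infer_instance
  unfold Xp.val Xp.rd
  rw [Finset.univ_eq_empty, Finset.sum_empty, mul_zero]

/-- `PMin K g`: by the single time bound there are no labels with exponent `≤ g - ξ` at small scales.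
PLAN: `τ = 1`; `hG.sgl C C (ξ/2)` gives `Cs`; `n0` with `Cs < 2^(ξ n / 2)` (`gn_absorb`), `A = 0`; a label would give `κ w s^(g-ξ) ≤ m ≤ Cs 2^(ξ n/2) κ w s^g`, absurd; so `L = 0`, `gn_val_nolabel`. -/
theorem gn_pmin_g (M : Mdl) (g : ℝ) (hG : M.Gen g) (K : ℕ∞) : M.PMin K g := by
  intro ξ hξ
  refine ⟨1, one_pos, fun C => ?_⟩
  obtain ⟨Cs, hCs⟩ := hG.sgl C C (ξ / 2) (half_pos hξ)
  obtain ⟨n0, hn0⟩ := gn_absorb (Cs + 1) (ξ / 2) (half_pos hξ)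
  refine ⟨0, n0, fun q E hn hE _ hm => ?_⟩
  have hV := hE.2.1
  by_cases hL : E.L = 0
  · rw [gn_val_nolabel E hL]
    exact (gn_two_pos _).le
  exfalso
  have l : Fin E.L := ⟨0, Nat.pos_of_ne_zero hL⟩
  have h1 := hm l
  have h2 := hCs q E hE.1 hV hE.2.2.1 hE.2.2.2.1 l
  have h3 := hn0 E.n hn
  have hkw : 0 < E.ka * E.w l := mul_pos hV.ka_pos (hV.w_pos l)
  rw [gn_s_rpow] at h1
  have e1 : (2 : ℝ) ^ (-((g - ξ) * E.n)) = 2 ^ (ξ / 2 * E.n) * 2 ^ (ξ / 2 * E.n) * 2 ^ (-(g * E.n)) := by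
    rw [← gn_two_add, ← gn_two_add]
    congr 1
    ring
  rw [e1] at h1
  have hX := gn_two_pos (ξ / 2 * E.n)
  have hY := gn_two_pos (-(g * E.n))
  have h4 : E.ka * E.w l * (2 ^ (ξ / 2 * (E.n : ℝ)) * 2 ^ (ξ / 2 * (E.n : ℝ)) * 2 ^ (-(g * E.n)))
      ≤ Cs * 2 ^ (ξ / 2 * (E.n : ℝ)) * (E.ka * E.w l) * 2 ^ (-(g * E.n)) := h1.trans h2
  have h5 : (E.ka * E.w l * 2 ^ (ξ / 2 * (E.n : ℝ)) * 2 ^ (-(g * E.n))) * 2 ^ (ξ / 2 * (E.n : ℝ))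
      ≤ (E.ka * E.w l * 2 ^ (ξ / 2 * (E.n : ℝ)) * 2 ^ (-(g * E.n))) * Cs := by
    calc _ = E.ka * E.w l * (2 ^ (ξ / 2 * (E.n : ℝ)) * 2 ^ (ξ / 2 * (E.n : ℝ)) * 2 ^ (-(g * E.n))) := by ring
      _ ≤ _ := h4
      _ = _ := by ring
  have h6 := le_of_mul_le_mul_left h5 (by positivity)
  linarith

/-- **two pieces**: if the labels with `m ≥ κ w s^y` obey the bound `2^(γ1 n)`, then `val ≤ 2^(γ1 n) + 2^((3 - y) n / 2)`.
PLAN: `S = {l | κ w s^y ≤ m}`, `gn_val_split`; on `Sᶜ`: `gn_val_le_ratio` for `E.pick (E.sel Sᶜ)` (valid by `gn_pick_valid'`) with `ρ = s^y`. -/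
theorem gn_two_pieces {P : PkSys} (hT : P.Tight) (E : Xp P) (hE : E.Valid) (y B : ℝ)
    (h : ∀ S : Finset (Fin E.L), (∀ l ∈ S, E.ka * E.w l * E.s ^ y ≤ E.m l) → (E.pick (E.sel S)).val ≤ B) :
    E.val ≤ B + 2 ^ ((3 - y) * E.n / 2) := by
  classical
  obtain ⟨S, hS⟩ : ∃ S : Finset (Fin E.L), ∀ l, l ∈ S ↔ E.ka * E.w l * E.s ^ y ≤ E.m l :=
    ⟨Finset.univ.filter fun l => E.ka * E.w l * E.s ^ y ≤ E.m l, fun l => by simp⟩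
  rw [gn_val_split E S]
  refine add_le_add (h S fun l hl => (hS l).1 hl) ?_
  have hs := gn_s_pos E
  have h1 := gn_val_le_ratio hT (E.pick (E.sel Sᶜ)) (gn_pick_valid' E hE _ (gn_sel_inj E _)) (ρ := E.s ^ y)
    (Real.rpow_pos_of_pos hs _).le (fun l => by
      obtain ⟨e1, e2, -⟩ := gn_pick_m' E (E.sel Sᶜ) l
      rw [e1, e2]
      have hl := gn_sel_mem E Sᶜ l
      rw [Finset.mem_compl, hS, not_le] at hl
      show E.m (E.sel Sᶜ l) ≤ E.s ^ y * (E.ka * E.w (E.sel Sᶜ l))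
      linarith)
  refine h1.trans (le_of_eq ?_)
  show (2 : ℝ) ^ (3 * (E.n : ℝ) / 2) * Real.sqrt (E.s ^ y) = _
  rw [gn_s_rpow, gn_two_sqrt, ← gn_two_add]
  congr 1
  ring

/-- `RateF` is monotone -/
theorem gn_aux_rateF_mono (M : Mdl) {γ γ' : ℝ} (h : M.RateF γ) (hg : γ ≤ γ') : M.RateF γ' := by
  intro C ε hε
  obtain ⟨A, n0, H⟩ := h C ε hε
  refine ⟨A, n0, fun p E hn hE hst => (H p E hn hE hst).trans (gn_two_mono ?_)⟩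
  exact mul_le_mul_of_nonneg_right (by linarith) (Nat.cast_nonneg _)

/-- `PMin 0 p` forces `p ≤ 3 - 2Γ`.
PLAN: otherwise `ξ = (p - (3 - 2Γ))/2 > 0`, `y = p - ξ = 3 - 2Γ + ξ`; `PMin` at `ξ` gives `τ`; `gn_two_pieces` (`gn_cls_pick`): `val ≤ 2^((Γ-τ) n) + 2^((Γ-ξ/2) n) ≤ 2^((Γ - τ' + ε) n)`,
`τ' = min τ (ξ/2)`, for `n ≥ n0(ε)`, on FREE experiments: `RateF (Γ - τ')`, hence `RateF (max 0 (Γ - τ'))`, hence `Rate (max 0 (Γ - τ'))` by `gn_comp`, against `bs_not_rate` (here `0 < Γ` is used). -/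
theorem gn_pmin_bdd0 (M : Mdl) (g : ℝ) (hG : M.Gen g) (hΓ : 0 < M.Gam) {p : ℝ} (h : M.PMin 0 p) : p ≤ 3 - 2 * M.Gam := by
  by_contra hcon
  push Not at hcon
  obtain ⟨ξ, hξd⟩ : ∃ ξ : ℝ, ξ = (p - (3 - 2 * M.Gam)) / 2 := ⟨_, rfl⟩
  have hξ : 0 < ξ := by
    rw [hξd]
    linarith
  obtain ⟨τ, hτ, H⟩ := h ξ hξ
  obtain ⟨τ', hτ'd⟩ : ∃ τ' : ℝ, τ' = min τ (ξ / 2) := ⟨_, rfl⟩
  have hτ' : 0 < τ' := by
    rw [hτ'd]
    exact lt_min hτ (half_pos hξ)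
  have ht1 : τ' ≤ τ := by
    rw [hτ'd]
    exact min_le_left _ _
  have ht2 : τ' ≤ ξ / 2 := by
    rw [hτ'd]
    exact min_le_right _ _
  have hF : M.RateF (M.Gam - τ') := by
    intro C ε hε
    obtain ⟨A, n0, H'⟩ := H C
    obtain ⟨n1, hn1⟩ := gn_absorb 2 ε hε
    refine ⟨A, max n0 n1, fun q E hn hE hst => ?_⟩
    have hn0 : n0 ≤ E.n := (le_max_left _ _).trans hn
    have h2 := hn1 E.n ((le_max_right _ _).trans hn)
    have hV := hE.2.1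
    have hnn : (0 : ℝ) ≤ E.n := Nat.cast_nonneg _
    have tp := gn_two_pieces (hG.tight q hE.1) E hV (p - ξ) (2 ^ ((M.Gam - τ) * E.n)) (fun S hS => by
      refine H' q (E.pick (E.sel S)) hn0 (gn_cls_pick M hG.root hE _ (gn_sel_inj E S)) ?_ (fun l => ?_)
      · show ((E.st.length : ℕ) : ℕ∞) ≤ 0
        rw [hst]
        simp
      · obtain ⟨e1, e2, -⟩ := gn_pick_m' E (E.sel S) l
        rw [e1, e2]
        exact hS _ (gn_sel_mem E S l))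
    have a1 : (2 : ℝ) ^ ((M.Gam - τ) * E.n) ≤ 2 ^ ((M.Gam - τ') * E.n) :=
      gn_two_mono (mul_le_mul_of_nonneg_right (by linarith) hnn)
    have a2 : (2 : ℝ) ^ ((3 - (p - ξ)) * E.n / 2) ≤ 2 ^ ((M.Gam - τ') * E.n) := by
      refine gn_two_mono ?_
      have e3 : (3 - (p - ξ)) * (E.n : ℝ) / 2 = (M.Gam - ξ / 2) * E.n := by
        rw [hξd]
        ring
      rw [e3]
      exact mul_le_mul_of_nonneg_right (by linarith) hnn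
    have a3 : (2 : ℝ) ^ ((M.Gam - τ' + ε) * E.n) = 2 ^ (ε * E.n) * 2 ^ ((M.Gam - τ') * E.n) := by
      rw [← gn_two_add]
      congr 1
      ring
    rw [a3]
    have hp := gn_two_pos ((M.Gam - τ') * E.n)
    have a4 : 2 * (2 : ℝ) ^ ((M.Gam - τ') * E.n) ≤ 2 ^ (ε * E.n) * 2 ^ ((M.Gam - τ') * E.n) :=
      mul_le_mul_of_nonneg_right h2 hp.le
    linarith
  have hF' := gn_aux_rateF_mono M hF (le_max_right 0 (M.Gam - τ'))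
  have hR := gn_comp M g hG _ (le_max_left 0 (M.Gam - τ')) hF'
  exact M.bs_not_rate (le_max_left 0 (M.Gam - τ')) (max_lt hΓ (by linarith)) hR

theorem gn_pmin_bdd (M : Mdl) (g : ℝ) (hG : M.Gen g) (hΓ : 0 < M.Gam) {K : ℕ∞} {p : ℝ} (h : M.PMin K p) : p ≤ 3 - 2 * M.Gam :=
  gn_pmin_bdd0 M g hG hΓ (gn_pmin_stages M h zero_le)

/-- PLAN: `lt_csSup`-type: given `ξ`, some `p > pK - ξ/2` has `PMin K p` (`gn_pmin_g`: nonempty, `gn_pmin_bdd`: bounded); use it at `ξ/2`. -/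
theorem gn_pmin_pK (M : Mdl) (g : ℝ) (hG : M.Gen g) (hΓ : 0 < M.Gam) (K : ℕ∞) : M.PMin K (M.pK K) := by
  intro ξ hξ
  have hne : ({p : ℝ | M.PMin K p}).Nonempty := ⟨g, gn_pmin_g M g hG K⟩
  obtain ⟨p, hp, hlt⟩ := exists_lt_of_lt_csSup hne (show M.pK K - ξ / 2 < sSup {p : ℝ | M.PMin K p} by
    show M.pK K - ξ / 2 < M.pK K
    linarith)
  obtain ⟨τ, hτ, H⟩ := hp (ξ / 2) (half_pos hξ)
  refine ⟨τ, hτ, fun C => ?_⟩
  obtain ⟨A, n0, H'⟩ := H C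
  refine ⟨A, n0, fun q E hn hE hl hm => H' q E hn hE hl fun l => le_trans ?_ (hm l)⟩
  have hV := hE.2.1
  exact mul_le_mul_of_nonneg_left (gn_s_anti E (by linarith)) (mul_pos hV.ka_pos (hV.w_pos l)).le

theorem gn_pK_ge (M : Mdl) (g : ℝ) (hG : M.Gen g) (hΓ : 0 < M.Gam) (K : ℕ∞) : g ≤ M.pK K :=
  le_csSup ⟨3 - 2 * M.Gam, fun _ h => gn_pmin_bdd M g hG hΓ h⟩ (gn_pmin_g M g hG K)

theorem gn_pK_le (M : Mdl) (g : ℝ) (hG : M.Gen g) (hΓ : 0 < M.Gam) (K : ℕ∞) : M.pK K ≤ 3 - 2 * M.Gam :=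
  csSup_le ⟨g, gn_pmin_g M g hG K⟩ fun _ h => gn_pmin_bdd M g hG hΓ h

/-- `0 < d ≤ 1` for `d = Γ + (pK - 1)/2` -/
theorem gn_dK_le (M : Mdl) (g : ℝ) (hG : M.Gen g) (hΓ : 0 < M.Gam) (K : ℕ∞) : 0 < M.dOf (M.pK K) ∧ M.dOf (M.pK K) ≤ 1 := by
  have h1 := gn_pK_ge M g hG hΓ K
  have h2 := gn_pK_le M g hG hΓ K
  have h3 := hG.g_pos
  unfold Mdl.dOf
  constructor <;> linarith

/-- **EXT**, regime `K`: two-sided homogeneous extremisers with at most `K` stages.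
PLAN: by contradiction (`push_neg`): for every `C` there are `A, n0` with `val < 2^((Γ-τ) n)` on the `Hom (pK-ξ) (pK+ξ)` with `≤ K` stages.  Then `PMin K (pK + ξ)`: for `ξ' > 0` and `E` with all exponents `≤ pK + ξ - ξ'`, split
`S = {κ w s^(pK-ξ) ≤ m}`: `PMin K pK` at `ξ` gives `τ1` on `pick S`; `pick Sᶜ` is `Hom (pK-ξ) (pK+ξ)`; `val ≤ 2 · 2^((Γ - min τ τ1) n) ≤ 2^((Γ - min τ τ1 / 2) n)`; take the max of the two `A` (`gn_cls_anti`).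
So `pK + ξ ≤ sSup = pK` (`le_csSup`, `gn_pmin_bdd`), absurd. -/
theorem gn_extK (M : Mdl) (g : ℝ) (hG : M.Gen g) (hΓ : 0 < M.Gam) (K : ℕ∞) (ξ τ : ℝ) (hξ : 0 < ξ) (hτ : 0 < τ) :
    ∃ C : ℕ, ∀ A n0 : ℕ, ∃ (p : M.Par) (E : Xp (M.sys p)), n0 ≤ E.n ∧ M.Cls C A p E ∧ (E.st.length : ℕ∞) ≤ K ∧ E.Hom (M.pK K - ξ) (M.pK K + ξ) ∧
      2 ^ ((M.Gam - τ) * E.n) ≤ E.val := by
  classical
  by_contra hcon
  push Not at hcon
  have hbig : M.PMin K (M.pK K + ξ) := by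
    intro ξ' hξ'
    obtain ⟨τ1, hτ1, H1⟩ := gn_pmin_pK M g hG hΓ K ξ hξ
    obtain ⟨τ', hτ'd⟩ : ∃ τ' : ℝ, τ' = min τ τ1 := ⟨_, rfl⟩
    have hτ' : 0 < τ' := by
      rw [hτ'd]
      exact lt_min hτ hτ1
    have ht1 : τ' ≤ τ := by
      rw [hτ'd]
      exact min_le_left _ _
    have ht2 : τ' ≤ τ1 := by
      rw [hτ'd]
      exact min_le_right _ _
    refine ⟨τ' / 2, half_pos hτ', fun C => ?_⟩
    obtain ⟨A1, n1, H1'⟩ := H1 C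
    obtain ⟨A2, n2, H2'⟩ := hcon C
    obtain ⟨n3, hn3⟩ := gn_absorb 2 (τ' / 2) (half_pos hτ')
    refine ⟨max A1 A2, max (max n1 n2) n3, fun q E hn hE hl hm => ?_⟩
    have hn1 : n1 ≤ E.n := ((le_max_left _ _).trans (le_max_left _ _)).trans hn
    have hn2 : n2 ≤ E.n := ((le_max_right _ _).trans (le_max_left _ _)).trans hn
    have h2 := hn3 E.n ((le_max_right _ _).trans hn)
    have hV := hE.2.1
    have hnn : (0 : ℝ) ≤ E.n := Nat.cast_nonneg _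
    have hE1 : M.Cls C A1 q E := gn_cls_anti M hG.scale (le_max_left _ _) hE
    have hE2 : M.Cls C A2 q E := gn_cls_anti M hG.scale (le_max_right _ _) hE
    obtain ⟨S, hS⟩ : ∃ S : Finset (Fin E.L), ∀ l, l ∈ S ↔ E.ka * E.w l * E.s ^ (M.pK K - ξ) ≤ E.m l :=
      ⟨Finset.univ.filter fun l => E.ka * E.w l * E.s ^ (M.pK K - ξ) ≤ E.m l, fun l => by simp⟩
    rw [gn_val_split E S]
    have b1 : (E.pick (E.sel S)).val ≤ 2 ^ ((M.Gam - τ1) * E.n) := by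
      refine H1' q (E.pick (E.sel S)) hn1 (gn_cls_pick M hG.root hE1 _ (gn_sel_inj E S)) hl (fun l => ?_)
      obtain ⟨e1, e2, -⟩ := gn_pick_m' E (E.sel S) l
      rw [e1, e2]
      exact (hS _).1 (gn_sel_mem E S l)
    have b2 : (E.pick (E.sel Sᶜ)).val < 2 ^ ((M.Gam - τ) * E.n) := by
      refine H2' q (E.pick (E.sel Sᶜ)) hn2 (gn_cls_pick M hG.root hE2 _ (gn_sel_inj E Sᶜ)) hl (fun l => ?_)
      obtain ⟨e1, e2, -⟩ := gn_pick_m' E (E.sel Sᶜ) l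
      rw [e1, e2]
      have hl' := gn_sel_mem E Sᶜ l
      rw [Finset.mem_compl, hS, not_le] at hl'
      refine ⟨le_trans ?_ (hm _), hl'.le⟩
      exact mul_le_mul_of_nonneg_left (gn_s_anti E (by linarith)) (mul_pos hV.ka_pos (hV.w_pos _)).le
    have a1 : (2 : ℝ) ^ ((M.Gam - τ1) * E.n) ≤ 2 ^ ((M.Gam - τ') * E.n) :=
      gn_two_mono (mul_le_mul_of_nonneg_right (by linarith) hnn)
    have a2 : (2 : ℝ) ^ ((M.Gam - τ) * E.n) ≤ 2 ^ ((M.Gam - τ') * E.n) :=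
      gn_two_mono (mul_le_mul_of_nonneg_right (by linarith) hnn)
    have a3 : (2 : ℝ) ^ ((M.Gam - τ' / 2) * E.n) = 2 ^ (τ' / 2 * E.n) * 2 ^ ((M.Gam - τ') * E.n) := by
      rw [← gn_two_add]
      congr 1
      ring
    rw [a3]
    have hp := gn_two_pos ((M.Gam - τ') * E.n)
    have a4 : 2 * (2 : ℝ) ^ ((M.Gam - τ') * E.n) ≤ 2 ^ (τ' / 2 * E.n) * 2 ^ ((M.Gam - τ') * E.n) :=
      mul_le_mul_of_nonneg_right h2 hp.le
    linarith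
  have hle : M.pK K + ξ ≤ M.pK K := le_csSup ⟨3 - 2 * M.Gam, fun _ h => gn_pmin_bdd M g hG hΓ h⟩ hbig
  linarith

/-! ### MASKED regime (the statements of the first version) -/

theorem gn_pmin_p0 (M : Mdl) (g : ℝ) (hG : M.Gen g) (hΓ : 0 < M.Gam) : M.PMin ⊤ M.p0 := gn_pmin_pK M g hG hΓ ⊤

theorem gn_p0_ge (M : Mdl) (g : ℝ) (hG : M.Gen g) (hΓ : 0 < M.Gam) : g ≤ M.p0 := gn_pK_ge M g hG hΓ ⊤

theorem gn_p0_le (M : Mdl) (g : ℝ) (hG : M.Gen g) (hΓ : 0 < M.Gam) : M.p0 ≤ 3 - 2 * M.Gam := gn_pK_le M g hG hΓ ⊤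

/-- `d0 ≤ 1`, equivalently `p0 ≤ 3 - 2Γ` -/
theorem gn_d0_le (M : Mdl) (g : ℝ) (hG : M.Gen g) (hΓ : 0 < M.Gam) : 0 < M.d0 ∧ M.d0 ≤ 1 := gn_dK_le M g hG hΓ ⊤

/-- **EXT**, masked regime: two-sided homogeneous extremisers -/
theorem gn_ext (M : Mdl) (g : ℝ) (hG : M.Gen g) (hΓ : 0 < M.Gam) (ξ τ : ℝ) (hξ : 0 < ξ) (hτ : 0 < τ) :
    ∃ C : ℕ, ∀ A n0 : ℕ, ∃ (p : M.Par) (E : Xp (M.sys p)), n0 ≤ E.n ∧ M.Cls C A p E ∧ E.Hom (M.p0 - ξ) (M.p0 + ξ) ∧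
      2 ^ ((M.Gam - τ) * E.n) ≤ E.val := by
  obtain ⟨C, H⟩ := gn_extK M g hG hΓ ⊤ ξ τ hξ hτ
  refine ⟨C, fun A n0 => ?_⟩
  obtain ⟨p, E, h1, h2, -, h3, h4⟩ := H A n0
  exact ⟨p, E, h1, h2, h3, h4⟩

/-! ### FREE regime -/

theorem gn_pmin_p0f (M : Mdl) (g : ℝ) (hG : M.Gen g) (hΓ : 0 < M.Gam) : M.PMin 0 M.p0f := gn_pmin_pK M g hG hΓ 0

theorem gn_p0f_ge (M : Mdl) (g : ℝ) (hG : M.Gen g) (hΓ : 0 < M.Gam) : g ≤ M.p0f := gn_pK_ge M g hG hΓ 0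

theorem gn_p0f_le (M : Mdl) (g : ℝ) (hG : M.Gen g) (hΓ : 0 < M.Gam) : M.p0f ≤ 3 - 2 * M.Gam := gn_pK_le M g hG hΓ 0

theorem gn_d0f_le (M : Mdl) (g : ℝ) (hG : M.Gen g) (hΓ : 0 < M.Gam) : 0 < M.d0f ∧ M.d0f ≤ 1 := gn_dK_le M g hG hΓ 0

/-- **EXT**, free regime: FREE two-sided homogeneous extremisers -/
theorem gn_extf (M : Mdl) (g : ℝ) (hG : M.Gen g) (hΓ : 0 < M.Gam) (ξ τ : ℝ) (hξ : 0 < ξ) (hτ : 0 < τ) :
    ∃ C : ℕ, ∀ A n0 : ℕ, ∃ (p : M.Par) (E : Xp (M.sys p)), n0 ≤ E.n ∧ M.Cls C A p E ∧ E.st = [] ∧ E.Hom (M.p0f - ξ) (M.p0f + ξ) ∧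
      2 ^ ((M.Gam - τ) * E.n) ≤ E.val := by
  obtain ⟨C, H⟩ := gn_extK M g hG hΓ 0 ξ τ hξ hτ
  refine ⟨C, fun A n0 => ?_⟩
  obtain ⟨p, E, h1, h2, h5, h3, h4⟩ := H A n0
  refine ⟨p, E, h1, h2, ?_, h3, h4⟩
  have h6 : E.st.length = 0 := by
    have : (E.st.length : ℕ∞) = 0 := le_antisymm h5 zero_le
    exact_mod_cast this
  exact List.length_eq_zero_iff.1 h6

/-- **CNT**: pure arithmetic on `Hom` and the two bounds of `val`.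
PLAN: `gn_tr_le` (`ρ = κ s^(p-ξ)`) and `gn_le_tr` (`ρ = κ s^(p+ξ)`) give `2^(n/2)/e · s^((p+ξ)/2) tm ≤ val ≤ 2^(n/2)/e · s^((p-ξ)/2) tm`; `w ≤ m /(κ s^(p+ξ))`; all powers via `gn_s_rpow`. -/
theorem gn_cnt {P : PkSys} (E : Xp P) (hE : E.Valid) (Γ p ξ τ : ℝ) (hξ : 0 ≤ ξ) (hτ : 0 ≤ τ) (hH : E.Hom (p - ξ) (p + ξ))
    (hlo : 2 ^ ((Γ - τ) * E.n) ≤ E.val) (hhi : E.val ≤ 2 ^ ((Γ + τ) * E.n)) :
    E.e * E.s ^ (-(Γ + (p - 1) / 2) + (τ + ξ)) ≤ E.tm ∧ E.tm ≤ E.e * E.s ^ (-(Γ + (p - 1) / 2) - (τ + ξ)) ∧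
      E.tw ≤ E.e / E.ka * E.s ^ (-(p + (Γ + (p - 1) / 2)) - (τ + 2 * ξ)) := by
  have hs := gn_s_pos E
  have he := hE.e_pos
  have hk := hE.ka_pos
  have hsk : 0 < Real.sqrt E.ka := Real.sqrt_pos.mpr hk
  have hsq : ∀ y : ℝ, Real.sqrt (E.ka * E.s ^ y) = Real.sqrt E.ka * E.s ^ (y / 2) := by
    intro y
    rw [Real.sqrt_mul hk.le, Real.sqrt_eq_rpow (E.s ^ y), ← Real.rpow_mul hs.le]
    congr 2
    ring
  have h2n : (2 : ℝ) ^ ((E.n : ℝ) / 2) = E.s ^ (-(1 / 2 : ℝ)) := by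
    rw [gn_s_rpow]
    congr 1
    ring
  have htm0 : 0 ≤ E.tm := Finset.sum_nonneg fun l _ => gn_m_nonneg' E hE l
  -- the two bounds of `val`
  have hval : ∀ y : ℝ, (2 : ℝ) ^ ((E.n : ℝ) / 2) / (E.e * Real.sqrt E.ka) * (Real.sqrt E.ka * E.s ^ (y / 2) * E.tm)
      = E.s ^ (-(1 / 2 : ℝ) + y / 2) / E.e * E.tm := by
    intro y
    rw [h2n, Real.rpow_add hs]
    field_simp
  have key1 : E.val ≤ E.s ^ (-(1 / 2 : ℝ) + (p - ξ) / 2) / E.e * E.tm := by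
    rw [← hval]
    unfold Xp.val
    refine mul_le_mul_of_nonneg_left ?_ (by positivity)
    rw [gn_rd_eq, Xp.tm, Finset.mul_sum]
    refine Finset.sum_le_sum fun l _ => ?_
    rw [← hsq]
    refine gn_tr_le E hE l ?_
    have := (hH l).2
    linarith [mul_right_comm E.ka (E.w l) (E.s ^ (p - ξ))]
  have key2 : E.s ^ (-(1 / 2 : ℝ) + (p + ξ) / 2) / E.e * E.tm ≤ E.val := by
    rw [← hval]
    unfold Xp.val
    refine mul_le_mul_of_nonneg_left ?_ (by positivity)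
    rw [gn_rd_eq, Xp.tm, Finset.mul_sum]
    refine Finset.sum_le_sum fun l _ => ?_
    rw [← hsq]
    refine gn_le_tr E hE l (by positivity) ?_
    have := (hH l).1
    linarith [mul_right_comm E.ka (E.w l) (E.s ^ (p + ξ))]
  have hlo' : E.s ^ (-(Γ - τ)) ≤ E.val := by
    have : E.s ^ (-(Γ - τ)) = 2 ^ ((Γ - τ) * E.n) := by
      rw [gn_s_rpow]; congr 1; ring
    rw [this]; exact hlo
  have hhi' : E.val ≤ E.s ^ (-(Γ + τ)) := by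
    have : E.s ^ (-(Γ + τ)) = 2 ^ ((Γ + τ) * E.n) := by
      rw [gn_s_rpow]; congr 1; ring
    rw [this]; exact hhi
  have r1 : E.e * E.s ^ (-(Γ + (p - 1) / 2) + (τ + ξ)) ≤ E.tm := by
    have a1 : E.s ^ (-(Γ - τ)) ≤ E.s ^ (-(1 / 2 : ℝ) + (p - ξ) / 2) / E.e * E.tm := hlo'.trans key1
    have hc : 0 < E.s ^ (-(1 / 2 : ℝ) + (p - ξ) / 2) := Real.rpow_pos_of_pos hs _
    have a2 : E.e * (E.s ^ (-(Γ - τ)) / E.s ^ (-(1 / 2 : ℝ) + (p - ξ) / 2)) ≤ E.tm := by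
      calc E.e * (E.s ^ (-(Γ - τ)) / E.s ^ (-(1 / 2 : ℝ) + (p - ξ) / 2))
          ≤ E.e * ((E.s ^ (-(1 / 2 : ℝ) + (p - ξ) / 2) / E.e * E.tm) / E.s ^ (-(1 / 2 : ℝ) + (p - ξ) / 2)) := by gcongr
        _ = E.tm := by field_simp
    rw [← Real.rpow_sub hs] at a2
    refine le_trans (mul_le_mul_of_nonneg_left (gn_s_anti E ?_) he.le) a2
    linarith
  have r2 : E.tm ≤ E.e * E.s ^ (-(Γ + (p - 1) / 2) - (τ + ξ)) := by
    have a1 : E.s ^ (-(1 / 2 : ℝ) + (p + ξ) / 2) / E.e * E.tm ≤ E.s ^ (-(Γ + τ)) := key2.trans hhi'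
    have hc : 0 < E.s ^ (-(1 / 2 : ℝ) + (p + ξ) / 2) := Real.rpow_pos_of_pos hs _
    have a2 : E.tm ≤ E.e * (E.s ^ (-(Γ + τ)) / E.s ^ (-(1 / 2 : ℝ) + (p + ξ) / 2)) := by
      calc E.tm = E.e * ((E.s ^ (-(1 / 2 : ℝ) + (p + ξ) / 2) / E.e * E.tm) / E.s ^ (-(1 / 2 : ℝ) + (p + ξ) / 2)) := by field_simp
        _ ≤ E.e * (E.s ^ (-(Γ + τ)) / E.s ^ (-(1 / 2 : ℝ) + (p + ξ) / 2)) := by gcongr
    rw [← Real.rpow_sub hs] at a2
    refine a2.trans (mul_le_mul_of_nonneg_left (gn_s_anti E ?_) he.le)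
    linarith
  refine ⟨r1, r2, ?_⟩
  have hc : 0 < E.s ^ (p + ξ) := Real.rpow_pos_of_pos hs _
  have b1 : E.tw ≤ E.tm / (E.ka * E.s ^ (p + ξ)) := by
    rw [Xp.tw, Xp.tm, Finset.sum_div]
    refine Finset.sum_le_sum fun l _ => ?_
    rw [le_div_iff₀ (by positivity)]
    have := (hH l).1
    linarith [mul_right_comm E.ka (E.w l) (E.s ^ (p + ξ)), mul_comm (E.w l) (E.ka * E.s ^ (p + ξ))]
  calc E.tw ≤ E.tm / (E.ka * E.s ^ (p + ξ)) := b1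
    _ ≤ (E.e * E.s ^ (-(Γ + (p - 1) / 2) - (τ + ξ))) / (E.ka * E.s ^ (p + ξ)) := by gcongr
    _ = E.e / E.ka * (E.s ^ (-(Γ + (p - 1) / 2) - (τ + ξ)) / E.s ^ (p + ξ)) := by field_simp
    _ = E.e / E.ka * E.s ^ (-(p + (Γ + (p - 1) / 2)) - (τ + 2 * ξ)) := by
        rw [← Real.rpow_sub hs]
        congr 2
        ring

end Claimed.Agent.R256
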