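-- KEEP
import Claimed.Agent.R256.Gen.Min

/-!
# Row 256, GENERIC THEORY : MIN-K          (architects helper207 (DECISION F 21:10Z), helper199 (cut); prefix `gn_`)

Paper free.   FREE REGIME: minimality of `p0 := p0f` (defined by the FREE experiments) on the experiments with `≤ K` stages, `K` FINITE; `τ = τ(ξ, K)` is PACKAGE FREE.
INDUCTION ON `K`, the cut BEFORE the first stage `σ1` at depth `k = k0 + j`, as in `Gen/Comp.lean`; ENGINE `Gen/Lev.lean`.   Hypothesis: all labels of `E` have `m ≥ κ w s^(p0-ξ)`.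
PARAMETERS: `τ0 = min 1 τ_0(ξ/4)` (`gn_pmin_p0f`), `τ1 = min 1 τ_K(ξ/8)` (induction), `μ = min τ0 τ1`, `a0 = min (1/2) (min (ξ / (8 (p0+1))) (μ/16))`, `ε = a0 μ / 8`, level bound `2^((Γ - a0 μ / 2) n)`, `τ_{K+1}(ξ) = min (a0 μ / 4) τ_K(ξ)`.
1. `gn_dec_ins`: `rd(E)^(1/3) ≤ Σ_{j' ≤ Dn} rd(E_j')^(1/3)`; masses `m'` of `E_j'`.   Light labels `{m' < κ w s^(p0-ξ/2)}`: `gn_light_vs` (`δ = ξ/2`): `Σ tr' ≤ s^(3ξ/4) rd(E)`; `(Dn+1) s^(ξ/4) ≤ 1/2`: absorbed (`gn_dec_heavy`).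
2. Heavy labels `S` of ONE level, `β = κ 2^-P` (`gn_pminK_lvl`):
 (A) `a0 n ≤ j, n'`.   `P ≤ (p0-ξ/4) j`:  `gn_lev_rr`, `Pr = (free, heavy at ξ/4)` at `Γ - τ0`, `Th = True` at `Γ`:   exponent `(Γ+ε) n - τ0 j`.
                        `P > (p0-ξ/4) j`:  `gn_lev_rr`, `Pr = True` at `Γ`, `Th = (≤ K stages, heavy at ξ/8)` at `Γ - τ1`:  exponent `(Γ+ε) n - τ1 n'`.
                        Tails heavy: `m' ≥ κ w s^(p0-ξ/2) ≥ (2 Cr β) w 2^(-(p0-ξ/8) n')` since `(p0-ξ/4) j + (p0-ξ/8) n' - (p0-ξ/2) n ≥ ξ n/4`  (`gn_ins_tl_m`).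
 (B) `j < a0 n`:   `gn_lev_cr` (`a0 := 1/2`), the same `Th`;  tails heavy since `β ≤ B0 κ` and `(p0-ξ/8) n' - (p0-ξ/2) n ≥ 3ξn/8 - p0 j ≥ ξ n/4`;   exponent `3j/2 + (Γ-τ1+ε) n' ≤ (Γ - τ1/2) n`.
 (C) `n' < a0 n`:  `P ≤ (p0-ξ/4) j`:  `gn_lev_rc` (`a0 := 1/2`) with `Pr` as in (A):  exponent `(Γ-τ0+ε) j + 5n'/2 ≤ (Γ - τ0/2) n`.
                   `P > (p0-ξ/4) j`:  `S = ∅`:  `gn_ins_m_le`: `m' ≤ Cs 2β w < Cs 2 κ w 2^(-(p0-ξ/4) j)`, against `m' ≥ κ w 2^(-(p0-ξ/2) n)` as `(p0-ξ/4) j - (p0-ξ/2) n ≥ ξ n/8`.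
3. remainder: `gn_lev_rem`, `D ≥ 12`.      `gn_cube` (with the factor `2`), `gn_absorb_poly`.
-/

set_option autoImplicit false

namespace Claimed.Agent.R256

open MeasureTheory

/-- labels of `E.ins` that are lighter by `s^δ` than the lower bound of the labels of `E`.   PLAN: `m' ≤ s^δ m`, `tr' = m'^(3/2)/√w ≤ s^(3δ/2) tr` (`Real.rpow_le_rpow`, `Real.mul_rpow`); `Σ_S ≤ Σ_univ`. -/
theorem gn_light_vs {P : PkSys} (E : Xp P) (hE : E.Valid) (k b : ℕ) (st1 st2 : List (Stg P)) (Mk : ℕ → P.X → ℝ) (hE' : (E.ins k b st1 st2 Mk).Valid) (y δ : ℝ)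
    (h : ∀ l, E.ka * E.w l * E.s ^ y ≤ E.m l) (S : Finset (Fin E.L)) (hS : ∀ l ∈ S, (E.ins k b st1 st2 Mk).m l ≤ E.ka * E.w l * E.s ^ (y + δ)) :
    ∑ l ∈ S, (E.ins k b st1 st2 Mk).tr l ≤ E.s ^ (3 * δ / 2) * E.rd := by
  have hs := gn_s_pos E
  have h1 : ∀ l ∈ S, (E.ins k b st1 st2 Mk).tr l ≤ E.s ^ (3 * δ / 2) * E.tr l := by
    intro l hl
    have hm' : 0 ≤ (E.ins k b st1 st2 Mk).m l := gn_m_nonneg' _ hE' l
    have hm : 0 ≤ E.m l := gn_m_nonneg' E hE l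
    have hsd : 0 < E.s ^ δ := Real.rpow_pos_of_pos hs _
    have h2 : (E.ins k b st1 st2 Mk).m l ≤ E.s ^ δ * E.m l := by
      refine (hS l hl).trans ?_
      rw [Real.rpow_add hs]
      calc E.ka * E.w l * (E.s ^ y * E.s ^ δ) = E.s ^ δ * (E.ka * E.w l * E.s ^ y) := by ring
        _ ≤ E.s ^ δ * E.m l := mul_le_mul_of_nonneg_left (h l) hsd.le
    have h3 : (E.ins k b st1 st2 Mk).m l ^ (3 / 2 : ℝ) ≤ E.s ^ (3 * δ / 2) * E.m l ^ (3 / 2 : ℝ) := by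
      refine (Real.rpow_le_rpow hm' h2 (by norm_num)).trans (le_of_eq ?_)
      rw [Real.mul_rpow hsd.le hm, ← Real.rpow_mul hs.le]
      congr 2
      ring
    have h4 : (E.ins k b st1 st2 Mk).tr l = (E.ins k b st1 st2 Mk).m l ^ (3 / 2 : ℝ) / Real.sqrt (E.w l) := rfl
    have h5 : E.tr l = E.m l ^ (3 / 2 : ℝ) / Real.sqrt (E.w l) := rfl
    rw [h4, h5, ← mul_div_assoc]
    exact div_le_div_of_nonneg_right h3 (Real.sqrt_nonneg _)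
  calc ∑ l ∈ S, (E.ins k b st1 st2 Mk).tr l ≤ ∑ l ∈ S, E.s ^ (3 * δ / 2) * E.tr l := Finset.sum_le_sum h1
    _ = E.s ^ (3 * δ / 2) * ∑ l ∈ S, E.tr l := by rw [Finset.mul_sum]
    _ ≤ E.s ^ (3 * δ / 2) * E.rd := by
        refine mul_le_mul_of_nonneg_left ?_ (Real.rpow_pos_of_pos hs _).le
        rw [gn_rd_eq]
        exact Finset.sum_le_sum_of_subset_of_nonneg (Finset.subset_univ S) fun l _ _ => gn_tr_nonneg E hE l

/-- absorption of the light labels: pure arithmetic.   `x^(1/3) ≤ Σ_{j<m} (l_j + h_j)^(1/3)`, `l_j ≤ θ³ x`, `m θ ≤ 1/2` give `x^(1/3) ≤ 2 Σ_{j<m} h_j^(1/3)`.   PLAN: `(a+b)^(1/3) ≤ a^(1/3) + b^(1/3)` (`Real.add_rpow_le_rpow_add`/`NNReal.rpow_add_le_add_rpow`). -/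
theorem gn_dec_heavy (x θ : ℝ) (hx : 0 ≤ x) (hθ : 0 ≤ θ) (m : ℕ) (lt hv : ℕ → ℝ) (hl : ∀ j, 0 ≤ lt j) (hh : ∀ j, 0 ≤ hv j) (hlt : ∀ j < m, lt j ≤ θ ^ 3 * x)
    (hm : (m : ℝ) * θ ≤ 1 / 2) (h : x ^ (1 / 3 : ℝ) ≤ ∑ j ∈ Finset.range m, (lt j + hv j) ^ (1 / 3 : ℝ)) :
    x ^ (1 / 3 : ℝ) ≤ 2 * ∑ j ∈ Finset.range m, hv j ^ (1 / 3 : ℝ) := by
  have h1 : ∀ j ∈ Finset.range m, (lt j + hv j) ^ (1 / 3 : ℝ) ≤ θ * x ^ (1 / 3 : ℝ) + hv j ^ (1 / 3 : ℝ) := by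
    intro j hj
    refine (Real.rpow_add_le_add_rpow (hl j) (hh j) (by norm_num) (by norm_num)).trans ?_
    have h2 : lt j ^ (1 / 3 : ℝ) ≤ (θ ^ 3 * x) ^ (1 / 3 : ℝ) := Real.rpow_le_rpow (hl j) (hlt j (Finset.mem_range.1 hj)) (by norm_num)
    have h3 : (θ ^ 3 * x) ^ (1 / 3 : ℝ) = θ * x ^ (1 / 3 : ℝ) := by
      rw [Real.mul_rpow (by positivity) hx, ← Real.rpow_natCast, ← Real.rpow_mul hθ]
      norm_num
    linarith
  have h4 : x ^ (1 / 3 : ℝ) ≤ (m : ℝ) * θ * x ^ (1 / 3 : ℝ) + ∑ j ∈ Finset.range m, hv j ^ (1 / 3 : ℝ) := by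
    refine h.trans ((Finset.sum_le_sum h1).trans (le_of_eq ?_))
    rw [Finset.sum_add_distrib, Finset.sum_const, Finset.card_range, nsmul_eq_mul]
    ring
  have h5 : (m : ℝ) * θ * x ^ (1 / 3 : ℝ) ≤ 1 / 2 * x ^ (1 / 3 : ℝ) := mul_le_mul_of_nonneg_right hm (Real.rpow_nonneg hx _)
  linarith

/-- powers of two: `c β' 2^Z ≤ κ 2^W` -/
theorem gn_mkl_pw (κ c β' X Y Z W : ℝ) (hκ : 0 < κ) (hc0 : 0 ≤ c) (hc : c ≤ 2 ^ X) (hβ : β' ≤ κ * 2 ^ Y) (h : X + Y + Z ≤ W) :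
    c * β' * 2 ^ Z ≤ κ * 2 ^ W := by
  have h1 : c * β' ≤ 2 ^ X * (κ * 2 ^ Y) :=
    (mul_le_mul_of_nonneg_left hβ hc0).trans (mul_le_mul_of_nonneg_right hc (mul_pos hκ (gn_two_pos _)).le)
  calc c * β' * 2 ^ Z ≤ 2 ^ X * (κ * 2 ^ Y) * 2 ^ Z := mul_le_mul_of_nonneg_right h1 (gn_two_pos _).le
    _ = κ * 2 ^ (X + Y + Z) := by
        rw [gn_two_add, gn_two_add]
        ring
    _ ≤ κ * 2 ^ W := mul_le_mul_of_nonneg_left (gn_two_mono h) hκ.le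

/-- exponent arithmetic of the cases (A1), (A2) -/
theorem gn_mkl_eA (Γ τ ε a0 μ x y n : ℝ) (hs : x + y = n) (hx : a0 * n ≤ x) (hμτ : μ ≤ τ) (hμ : 0 ≤ μ) (hε : ε = a0 * μ / 8) (hn : 0 ≤ n)
    (ha : 0 ≤ a0) : (Γ - τ + ε) * x + (Γ + ε) * y ≤ (Γ - a0 * μ / 2) * n := by
  have e1 : τ * (a0 * n) ≤ τ * x := mul_le_mul_of_nonneg_left hx (hμ.trans hμτ)
  have e2 : μ * (a0 * n) ≤ τ * (a0 * n) := mul_le_mul_of_nonneg_right hμτ (mul_nonneg ha hn)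
  have e3 : (Γ - τ + ε) * x + (Γ + ε) * y = (Γ + ε) * n - τ * x := by rw [← hs]; ring
  have e4 : 0 ≤ μ * (a0 * n) := mul_nonneg hμ (mul_nonneg ha hn)
  have e5 : (Γ + ε) * n = Γ * n + μ * (a0 * n) / 8 := by rw [hε]; ring
  have e6 : (Γ - a0 * μ / 2) * n = Γ * n - μ * (a0 * n) / 2 := by ring
  rw [e3, e5, e6]
  linarith

/-- exponent arithmetic of the cases (B), (C1) -/
theorem gn_mkl_eB (Γ τ ε a0 μ x y n c : ℝ) (hs : x + y = n) (hy : y ≤ a0 * n) (hy0 : 0 ≤ y) (hμτ : μ ≤ τ) (hτ1 : τ ≤ 1) (hμ : 0 ≤ μ) (hΓ : 0 ≤ Γ)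
    (hc : c ≤ 5 / 2) (hε : ε = a0 * μ / 8) (hn : 0 ≤ n) (ha : 0 ≤ a0) (ha1 : a0 ≤ 1 / 2) (ha3 : a0 ≤ μ / 16) :
    (Γ - τ + ε) * x + c * y ≤ (Γ - a0 * μ / 2) * n := by
  have hε0 : 0 ≤ ε := by rw [hε]; positivity
  have e3 : (Γ - τ + ε) * x + c * y = (Γ - τ + ε) * n + (c - Γ + τ - ε) * y := by rw [← hs]; ring
  have e4 : (c - Γ + τ - ε) * y ≤ 7 / 2 * (a0 * n) :=
    (mul_le_mul_of_nonneg_right (by linarith) hy0).trans (mul_le_mul_of_nonneg_left hy (by norm_num))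
  have e5 : a0 * n ≤ μ / 16 * n := mul_le_mul_of_nonneg_right ha3 hn
  have hq : a0 * μ ≤ 1 / 2 * μ := mul_le_mul_of_nonneg_right ha1 hμ
  have e6 : ε * n ≤ μ / 16 * n := mul_le_mul_of_nonneg_right (by rw [hε]; linarith) hn
  have e7 : μ * n ≤ τ * n := mul_le_mul_of_nonneg_right hμτ hn
  have e8 : a0 * μ / 2 * n ≤ μ / 4 * n := mul_le_mul_of_nonneg_right (by linarith) hn
  have e9 : 0 ≤ μ * n := mul_nonneg hμ hn
  have f1 : (Γ - τ + ε) * n = Γ * n - τ * n + ε * n := by ring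
  have f2 : (Γ - a0 * μ / 2) * n = Γ * n - a0 * μ / 2 * n := by ring
  have f3 : μ / 16 * n = μ * n / 16 := by ring
  have f4 : μ / 4 * n = μ * n / 4 := by ring
  rw [e3, f1, f2]
  rw [f3] at e5 e6
  rw [f4] at e8
  linarith

/-- exponent arithmetic of the key inequality in the case (A2) -/
theorem gn_mkl_kA (p0 ξ x y n : ℝ) (hs : x + y = n) (hξ : 0 ≤ ξ) (hy : 0 ≤ y) :
    ξ / 4 * n + -((p0 - ξ / 4) * x) + -((p0 - ξ / 8) * y) ≤ -((p0 - ξ / 2) * n) := by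
  have e1 : 0 ≤ ξ * y := mul_nonneg hξ hy
  rw [← hs]
  have : -((p0 - ξ / 2) * (x + y)) - (ξ / 4 * (x + y) + -((p0 - ξ / 4) * x) + -((p0 - ξ / 8) * y)) = ξ * y / 8 := by ring
  linarith

/-- exponent arithmetic of the key inequalities in the cases (B), (C2): the short side `y` costs at most `ξ n / 8` -/
theorem gn_mkl_kB (p0 ξ c d x y n : ℝ) (hs : x + y = n) (hξ : 0 ≤ ξ) (hy : 0 ≤ y) (hd : 0 ≤ d) (h0 : (p0 + 1) * y ≤ ξ / 8 * n) (hcd : c + d = 3 / 8) :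
    ξ * c * n + -((p0 - ξ * d) * x) ≤ -((p0 - ξ / 2) * n) := by
  have e1 : 0 ≤ ξ * d * y := mul_nonneg (mul_nonneg hξ hd) hy
  have hx : x = n - y := by linarith
  have hc : c = 3 / 8 - d := by linarith
  rw [hx, hc]
  have : -((p0 - ξ / 2) * n) - (ξ * (3 / 8 - d) * n + -((p0 - ξ * d) * (n - y))) = ξ / 8 * n - (p0 + 1) * y + y + ξ * d * y := by ring
  linarith

/-- **the heavy labels of one level**   (step 2 of the header; `τ` here is `a0 μ / 2`) -/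
theorem gn_pminK_lvl (M : Mdl) (g : ℝ) (hG : M.Gen g) (hΓ : 0 < M.Gam) (K : ℕ) (hK : M.PMin K M.p0f) (ξ : ℝ) (hξ : 0 < ξ) :
    ∃ τ : ℝ, 0 < τ ∧ ∀ (C D : ℕ), C + 1 ≤ D → 4 ≤ D → ∀ B0 : ℝ, ∃ A n0 : ℕ, ∀ (p : M.Par) (E : Xp (M.sys p)), n0 ≤ E.n → M.Cls C A p E →
      ∀ (σ1 : Stg (M.sys p)) (st' : List (Stg (M.sys p))), E.st = σ1 :: st' → st'.length ≤ K →
      ∀ (Mk : ℕ → (M.sys p).X → ℝ) (β : ℝ) (S : Finset (Fin E.L)),
        (E.ins σ1.k E.b0 [] ([σ1] ++ st') Mk).LvlAt [] ⟨σ1.k, E.b0, Mk⟩ ([σ1] ++ st') β → E.InsAt σ1.k E.b0 [] [σ1] st' Mk (2 * β) →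
        E.s ^ (D : ℝ) * E.ka ≤ β → β ≤ B0 * E.ka →
        (∀ l ∈ S, E.ka * E.w l * E.s ^ (M.p0f - ξ / 2) ≤ (E.ins σ1.k E.b0 [] ([σ1] ++ st') Mk).m l) →
        2 ^ ((E.n : ℝ) / 2) / (E.e * Real.sqrt E.ka) * ∑ l ∈ S, (E.ins σ1.k E.b0 [] ([σ1] ++ st') Mk).tr l ≤ 2 ^ ((M.Gam - τ) * E.n) := by
  -- the exponents
  obtain ⟨p0, hp0⟩ : ∃ p0 : ℝ, p0 = M.p0f := ⟨_, rfl⟩
  obtain ⟨Γ, hΓd⟩ : ∃ Γ : ℝ, Γ = M.Gam := ⟨_, rfl⟩
  have hp1 : 1 ≤ p0 := hp0 ▸ hG.g_pos.trans (gn_p0f_ge M g hG hΓ)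
  have hΓ1 : Γ ≤ 1 := hΓd ▸ gn_gam_le_one M g hG
  have hΓ0 : 0 < Γ := hΓd ▸ hΓ
  obtain ⟨t0, ht0, H0⟩ := gn_pmin_p0f M g hG hΓ (ξ / 4) (by positivity)
  obtain ⟨t1, ht1, H1⟩ := hK (ξ / 8) (by positivity)
  rw [← hp0, ← hΓd] at H0 H1
  rw [← hp0, ← hΓd]
  obtain ⟨τ0, hτ0, hτ0a, hτ0b⟩ : ∃ τ0 : ℝ, 0 < τ0 ∧ τ0 ≤ 1 ∧ τ0 ≤ t0 := ⟨min 1 t0, lt_min one_pos ht0, min_le_left _ _, min_le_right _ _⟩
  obtain ⟨τ1, hτ1, hτ1a, hτ1b⟩ : ∃ τ1 : ℝ, 0 < τ1 ∧ τ1 ≤ 1 ∧ τ1 ≤ t1 := ⟨min 1 t1, lt_min one_pos ht1, min_le_left _ _, min_le_right _ _⟩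
  obtain ⟨μ, hμ, hμ0, hμ1⟩ : ∃ μ : ℝ, 0 < μ ∧ μ ≤ τ0 ∧ μ ≤ τ1 := ⟨min τ0 τ1, lt_min hτ0 hτ1, min_le_left _ _, min_le_right _ _⟩
  obtain ⟨a0, ha0, ha1, ha2, ha3⟩ : ∃ a0 : ℝ, 0 < a0 ∧ a0 ≤ 1 / 2 ∧ a0 * (p0 + 1) ≤ ξ / 8 ∧ a0 ≤ μ / 16 := by
    refine ⟨min (1 / 2) (min (ξ / (8 * (p0 + 1))) (μ / 16)), lt_min (by norm_num) (lt_min (by positivity) (by positivity)), min_le_left _ _, ?_,
      (min_le_right _ _).trans (min_le_right _ _)⟩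
    have h1 : min (1 / 2) (min (ξ / (8 * (p0 + 1))) (μ / 16)) ≤ ξ / (8 * (p0 + 1)) := (min_le_right _ _).trans (min_le_left _ _)
    calc min (1 / 2) (min (ξ / (8 * (p0 + 1))) (μ / 16)) * (p0 + 1) ≤ ξ / (8 * (p0 + 1)) * (p0 + 1) :=
          mul_le_mul_of_nonneg_right h1 (by linarith)
      _ = ξ / 8 := by field_simp
  obtain ⟨ε, hεd⟩ : ∃ ε : ℝ, ε = a0 * μ / 8 := ⟨_, rfl⟩
  have hε : 0 < ε := by rw [hεd]; positivity
  refine ⟨a0 * μ / 2, by positivity, fun C D hD hD4 B0 => ?_⟩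
  have hD4' : (4 : ℝ) ≤ (D : ℝ) := by exact_mod_cast hD4
  -- the classes
  have hPr0 : M.RateOn (fun _ E => E.st = [] ∧ (E.Valid → ∀ l, E.ka * E.w l * E.s ^ (p0 - ξ / 4) ≤ E.m l)) (Γ - τ0) := by
    intro C' ε' hε'
    obtain ⟨A, n0, H⟩ := H0 C'
    refine ⟨A, n0, fun p E hn hE hP => (H p E hn hE (by rw [hP.1]; simp) (hP.2 hE.2.1)).trans (gn_two_mono ?_)⟩
    exact mul_le_mul_of_nonneg_right (by linarith) (Nat.cast_nonneg _)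
  have hTh1 : M.RateOn (fun _ E => E.st.length ≤ K ∧ (E.Valid → ∀ l, E.ka * E.w l * E.s ^ (p0 - ξ / 8) ≤ E.m l)) (Γ - τ1) := by
    intro C' ε' hε'
    obtain ⟨A, n0, H⟩ := H1 C'
    refine ⟨A, n0, fun p E hn hE hP => (H p E hn hE (by exact_mod_cast hP.1) (hP.2 hE.2.1)).trans (gn_two_mono ?_)⟩
    exact mul_le_mul_of_nonneg_right (by linarith) (Nat.cast_nonneg _)
  have hTr : M.RateOn (fun _ _ => True) Γ := fun C' ε' hε' => by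
    obtain ⟨A, n0, H⟩ := gn_rate_gam M g hG C' ε' hε'
    rw [← hΓd] at H
    exact ⟨A, n0, fun p E hn hE _ => H p E hn hE⟩
  have hab1 : |Γ - τ0| + 2 ≤ (D : ℝ) := by
    have : |Γ - τ0| ≤ 1 := abs_le.2 ⟨by linarith, by linarith⟩
    linarith
  have hab2 : |Γ| + 2 ≤ (D : ℝ) := by
    have : |Γ| ≤ 1 := abs_le.2 ⟨by linarith, by linarith⟩
    linarith
  obtain ⟨Cr1, hCr1, A1, n1, HA1⟩ := gn_lev_rr M g hG (Γ - τ0) Γ _ _ hPr0 hTr C D hD hab1 B0 a0 ε ha0 hε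
  obtain ⟨Cr2, hCr2, A2, n2, HA2⟩ := gn_lev_rr M g hG Γ (Γ - τ1) _ _ hTr hTh1 C D hD hab2 B0 a0 ε ha0 hε
  obtain ⟨Cr3, hCr3, A3, n3, HB⟩ := gn_lev_cr M g hG (Γ - τ1) _ hTh1 C D hD B0 (1 / 2) ε (by norm_num) hε
  obtain ⟨A4, n4, HC1⟩ := gn_lev_rc M g hG (Γ - τ0) _ hPr0 C (1 / 2) ε (by norm_num) hε
  obtain ⟨Cs, hCs, HC2⟩ := gn_ins_m_le M g hG C
  obtain ⟨n5, Hn5⟩ := gn_absorb (2 * Cr2) (ξ / 4) (by positivity)
  obtain ⟨n6, Hn6⟩ := gn_absorb (2 * Cr3 * |B0|) (ξ / 4) (by positivity)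
  obtain ⟨n7, Hn7⟩ := gn_absorb (2 * Cs) (ξ / 8) (by positivity)
  refine ⟨max (max A1 A2) (max A3 A4), max (max (max n1 n2) (max n3 n4)) (max n5 (max n6 n7)),
    fun p E hn hE σ1 st' hst hlen Mk β S hLvl hIns hβlo hβhi hS => ?_⟩
  have hm' := le_trans (le_max_left _ _) hn
  have hm'' := le_trans (le_max_right _ _) hn
  have hm1 : n1 ≤ E.n := le_trans (le_trans (le_max_left _ _) (le_max_left _ _)) hm'
  have hm2 : n2 ≤ E.n := le_trans (le_trans (le_max_right _ _) (le_max_left _ _)) hm'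
  have hm3 : n3 ≤ E.n := le_trans (le_trans (le_max_left _ _) (le_max_right _ _)) hm'
  have hm4 : n4 ≤ E.n := le_trans (le_trans (le_max_right _ _) (le_max_right _ _)) hm'
  have hm5 : n5 ≤ E.n := le_trans (le_max_left _ _) hm''
  have hm6 : n6 ≤ E.n := le_trans (le_trans (le_max_left _ _) (le_max_right _ _)) hm''
  have hm7 : n7 ≤ E.n := le_trans (le_trans (le_max_right _ _) (le_max_right _ _)) hm''
  have hE1 : M.Cls C A1 p E := gn_cls_anti M hG.scale (le_trans (le_max_left _ _) (le_max_left _ _)) hE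
  have hE2 : M.Cls C A2 p E := gn_cls_anti M hG.scale (le_trans (le_max_right _ _) (le_max_left _ _)) hE
  have hE3 : M.Cls C A3 p E := gn_cls_anti M hG.scale (le_trans (le_max_left _ _) (le_max_right _ _)) hE
  have hE4 : M.Cls C A4 p E := gn_cls_anti M hG.scale (le_trans (le_max_right _ _) (le_max_right _ _)) hE
  have hgd := hE.1
  have hV := hE.2.1
  have hlenE := hE.2.2.1
  have hgen := hE.2.2.2.1
  have hκ := hV.ka_pos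
  have hc := hIns.cut
  -- lengths
  obtain ⟨j, hj⟩ : ∃ j : ℝ, j = ((σ1.k - E.k0 : ℕ) : ℝ) := ⟨_, rfl⟩
  obtain ⟨n', hn'⟩ : ∃ n' : ℝ, n' = ((E.kf - σ1.k : ℕ) : ℝ) := ⟨_, rfl⟩
  obtain ⟨n, hnd⟩ : ∃ n : ℝ, n = (E.n : ℝ) := ⟨_, rfl⟩
  have hsum : j + n' = n := by
    have h3 : (σ1.k - E.k0) + (E.kf - σ1.k) = E.n := by
      have h4 : E.kf = E.k0 + E.n := rfl
      have h5 := hc.2.2.2.1
      have h6 := hc.2.2.2.2
      omega
    rw [hj, hn', hnd]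
    exact_mod_cast h3
  have hj0 : 0 ≤ j := hj ▸ Nat.cast_nonneg _
  have hn'0 : 0 ≤ n' := hn' ▸ Nat.cast_nonneg _
  have hnn : 0 ≤ n := hnd ▸ Nat.cast_nonneg _
  have hβ0 : 0 < β := lt_of_lt_of_le (mul_pos (Real.rpow_pos_of_pos (gn_s_pos E) _) hκ) hβlo
  have hcE : 0 < 2 ^ ((E.n : ℝ) / 2) / (E.e * Real.sqrt E.ka) :=
    div_pos (gn_two_pos _) (mul_pos hV.e_pos (Real.sqrt_pos.2 hV.ka_pos))
  -- the hypothesis on `S` in powers of two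
  have hS' : ∀ l ∈ S, E.ka * 2 ^ (-((p0 - ξ / 2) * n)) * E.w l ≤ (E.ins σ1.k E.b0 [] ([σ1] ++ st') Mk).m l := by
    intro l hl
    have := hS l hl
    rw [gn_s_rpow, ← hnd] at this
    linarith [mul_right_comm E.ka (E.w l) (2 ^ (-((p0 - ξ / 2) * n)))]
  -- prefixes are free and heavy if `β` is large
  have hpre : E.ka * 2 ^ (-((p0 - ξ / 4) * j)) ≤ β →
      ∀ (L' : ℕ) (iv' : Fin L' → ℕ) (ts' : Fin L' → (M.sys p).Tst) (th' : Fin L' → (M.sys p).X → ℝ),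
        (∀ l, β * (E.pre (σ1.k - E.k0) [] E.b0 iv' ts' th').w l < (E.pre (σ1.k - E.k0) [] E.b0 iv' ts' th').m l) →
        (E.pre (σ1.k - E.k0) [] E.b0 iv' ts' th').st = [] ∧ ((E.pre (σ1.k - E.k0) [] E.b0 iv' ts' th').Valid →
          ∀ l, (E.pre (σ1.k - E.k0) [] E.b0 iv' ts' th').ka * (E.pre (σ1.k - E.k0) [] E.b0 iv' ts' th').w l *
            (E.pre (σ1.k - E.k0) [] E.b0 iv' ts' th').s ^ (p0 - ξ / 4) ≤ (E.pre (σ1.k - E.k0) [] E.b0 iv' ts' th').m l) := by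
    intro hβ L' iv' ts' th' hl
    refine ⟨rfl, fun hV' l => ?_⟩
    have hw := hV'.w_pos l
    rw [gn_s_rpow]
    have e1 : (((E.pre (σ1.k - E.k0) [] E.b0 iv' ts' th').n : ℕ) : ℝ) = j := hj.symm
    have e2 : (E.pre (σ1.k - E.k0) [] E.b0 iv' ts' th').ka = E.ka := rfl
    rw [e1, e2]
    have := mul_le_mul_of_nonneg_right hβ hw.le
    linarith [hl l, mul_right_comm E.ka ((E.pre (σ1.k - E.k0) [] E.b0 iv' ts' th').w l) (2 ^ (-((p0 - ξ / 4) * j)))]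
  -- tails have few stages and are heavy if `Cr 2β 2^(-(p0-ξ/8) n') ≤ κ 2^(-(p0-ξ/2) n)`
  have htl : ∀ Cr : ℝ, Cr * (2 * β) * 2 ^ (-((p0 - ξ / 8) * n')) ≤ E.ka * 2 ^ (-((p0 - ξ / 2) * n)) →
      ∀ i ∈ ivs E.k0 E.i0 σ1.k,
        (E.tl σ1.k i (E.at' σ1.k i ([] ++ ⟨σ1.k, E.b0, Mk⟩ :: [σ1])) (E.eb D (E.at' σ1.k i ([] ++ ⟨σ1.k, E.b0, Mk⟩ :: [σ1]))) (Cr * (2 * β)) (C + 1) st'
          (S ∩ E.below σ1.k i)).st.length ≤ K ∧
        ((E.tl σ1.k i (E.at' σ1.k i ([] ++ ⟨σ1.k, E.b0, Mk⟩ :: [σ1])) (E.eb D (E.at' σ1.k i ([] ++ ⟨σ1.k, E.b0, Mk⟩ :: [σ1]))) (Cr * (2 * β)) (C + 1) st'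
          (S ∩ E.below σ1.k i)).Valid → ∀ l,
          (E.tl σ1.k i (E.at' σ1.k i ([] ++ ⟨σ1.k, E.b0, Mk⟩ :: [σ1])) (E.eb D (E.at' σ1.k i ([] ++ ⟨σ1.k, E.b0, Mk⟩ :: [σ1]))) (Cr * (2 * β)) (C + 1) st'
            (S ∩ E.below σ1.k i)).ka *
          (E.tl σ1.k i (E.at' σ1.k i ([] ++ ⟨σ1.k, E.b0, Mk⟩ :: [σ1])) (E.eb D (E.at' σ1.k i ([] ++ ⟨σ1.k, E.b0, Mk⟩ :: [σ1]))) (Cr * (2 * β)) (C + 1) st'
            (S ∩ E.below σ1.k i)).w l *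
          (E.tl σ1.k i (E.at' σ1.k i ([] ++ ⟨σ1.k, E.b0, Mk⟩ :: [σ1])) (E.eb D (E.at' σ1.k i ([] ++ ⟨σ1.k, E.b0, Mk⟩ :: [σ1]))) (Cr * (2 * β)) (C + 1) st'
            (S ∩ E.below σ1.k i)).s ^ (p0 - ξ / 8) ≤
          (E.tl σ1.k i (E.at' σ1.k i ([] ++ ⟨σ1.k, E.b0, Mk⟩ :: [σ1])) (E.eb D (E.at' σ1.k i ([] ++ ⟨σ1.k, E.b0, Mk⟩ :: [σ1]))) (Cr * (2 * β)) (C + 1) st'
            (S ∩ E.below σ1.k i)).m l) := by
    intro Cr hCr i _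
    refine ⟨hlen, fun _ l => ?_⟩
    obtain ⟨q1, q2⟩ := gn_ins_tl_m E hIns i (E.eb D (E.at' σ1.k i ([] ++ ⟨σ1.k, E.b0, Mk⟩ :: [σ1]))) (Cr * (2 * β)) (C + 1) (S ∩ E.below σ1.k i)
      Finset.inter_subset_right l
    rw [q1, q2, gn_s_rpow]
    have hlS : E.sel (S ∩ E.below σ1.k i) l ∈ S := (Finset.mem_inter.1 (gn_sel_mem E _ l)).1
    have hw := hV.w_pos (E.sel (S ∩ E.below σ1.k i) l)
    have e1 : (((E.tl σ1.k i (E.at' σ1.k i ([] ++ ⟨σ1.k, E.b0, Mk⟩ :: [σ1])) (E.eb D (E.at' σ1.k i ([] ++ ⟨σ1.k, E.b0, Mk⟩ :: [σ1]))) (Cr * (2 * β)) (C + 1) st'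
          (S ∩ E.below σ1.k i)).n : ℕ) : ℝ) = n' := hn'.symm
    have e2 : (E.tl σ1.k i (E.at' σ1.k i ([] ++ ⟨σ1.k, E.b0, Mk⟩ :: [σ1])) (E.eb D (E.at' σ1.k i ([] ++ ⟨σ1.k, E.b0, Mk⟩ :: [σ1]))) (Cr * (2 * β)) (C + 1) st'
          (S ∩ E.below σ1.k i)).ka = Cr * (2 * β) := rfl
    rw [e1, e2]
    have h1 := mul_le_mul_of_nonneg_right hCr hw.le
    have h2 := hS' _ hlS
    linarith [mul_right_comm (Cr * (2 * β)) (E.w (E.sel (S ∩ E.below σ1.k i) l)) (2 ^ (-((p0 - ξ / 8) * n')))]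
  have han : a0 * n ≤ 1 / 2 * n := mul_le_mul_of_nonneg_right ha1 hnn
  by_cases hA1 : a0 * n ≤ j
  · by_cases hA2 : a0 * n ≤ n'
    · -- (A)
      by_cases hP : E.ka * 2 ^ (-((p0 - ξ / 4) * j)) ≤ β
      · refine (HA1 p E hm1 hE1 σ1.k E.b0 [] [σ1] st' Mk β S hLvl hIns hgen.1 hβlo hβhi (by rw [← hnd, ← hj]; exact hA1)
          (by rw [← hnd, ← hn']; exact hA2) (hpre hP) (fun _ _ => trivial)).trans (gn_two_mono ?_)
        rw [← hj, ← hn', ← hnd]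
        exact gn_mkl_eA Γ τ0 ε a0 μ j n' n hsum hA1 hμ0 hμ.le hεd hnn ha0.le
      · push Not at hP
        have hkey : Cr2 * (2 * β) * 2 ^ (-((p0 - ξ / 8) * n')) ≤ E.ka * 2 ^ (-((p0 - ξ / 2) * n)) := by
          have := gn_mkl_pw E.ka (2 * Cr2) β (ξ / 4 * n) (-((p0 - ξ / 4) * j)) (-((p0 - ξ / 8) * n')) (-((p0 - ξ / 2) * n)) hκ (by linarith)
            (by rw [hnd]; exact Hn5 E.n hm5) hP.le (gn_mkl_kA p0 ξ j n' n hsum hξ.le hn'0)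
          have e : Cr2 * (2 * β) = 2 * Cr2 * β := by ring
          rw [e]
          exact this
        refine (HA2 p E hm2 hE2 σ1.k E.b0 [] [σ1] st' Mk β S hLvl hIns hgen.1 hβlo hβhi (by rw [← hnd, ← hj]; exact hA1)
          (by rw [← hnd, ← hn']; exact hA2) (fun _ _ _ _ _ => trivial) (htl Cr2 hkey)).trans (gn_two_mono ?_)
        rw [← hj, ← hn', ← hnd]
        have := gn_mkl_eA Γ τ1 ε a0 μ n' j n (by linarith) hA2 hμ1 hμ.le hεd hnn ha0.le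
        linarith
    · -- (C)
      push Not at hA2
      have hj2 : 1 / 2 * n ≤ j := by linarith
      have e0 : (p0 + 1) * n' ≤ ξ / 8 * n := by
        calc (p0 + 1) * n' ≤ (p0 + 1) * (a0 * n) := mul_le_mul_of_nonneg_left hA2.le (by linarith)
          _ = a0 * (p0 + 1) * n := by ring
          _ ≤ ξ / 8 * n := mul_le_mul_of_nonneg_right ha2 hnn
      by_cases hP : E.ka * 2 ^ (-((p0 - ξ / 4) * j)) ≤ β
      · have hsub : ∑ l ∈ S, (E.ins σ1.k E.b0 [] ([σ1] ++ st') Mk).tr l ≤ (E.ins σ1.k E.b0 [] ([σ1] ++ st') Mk).rd :=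
          Finset.sum_le_univ_sum_of_nonneg fun l =>
            div_nonneg (Real.rpow_nonneg (gn_en_nonneg _ _ _ (hV.th_nn l) _) _) (Real.sqrt_nonneg _)
        refine ((mul_le_mul_of_nonneg_left hsub hcE.le).trans (HC1 p E hm4 hE4 σ1.k E.b0 [] [σ1] st' Mk β hLvl hIns hgen.1 hβ0
          (by rw [← hnd, ← hj]; exact hj2) (hpre hP))).trans (gn_two_mono ?_)
        rw [← hj, ← hn', ← hnd]
        exact gn_mkl_eB Γ τ0 ε a0 μ j n' n (5 / 2) hsum hA2.le hn'0 hμ0 hτ0a hμ.le hΓ0.le le_rfl hεd hnn ha0.le ha1 ha3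
      · push Not at hP
        have hemp : S = ∅ := by
          rw [Finset.eq_empty_iff_forall_notMem]
          intro l hl
          have h1 := HC2 p E hgd hV hlenE hgen σ1.k E.b0 [] [σ1] st' Mk (2 * β) hIns hgen.1 (by linarith) l
          have h2 := hS' l hl
          have hw := hV.w_pos l
          have h3 : E.ka * 2 ^ (-((p0 - ξ / 2) * n)) ≤ Cs * (2 * β) := le_of_mul_le_mul_right (h2.trans h1) hw
          have hex : ξ / 8 * n + -((p0 - ξ / 4) * j) + 0 ≤ -((p0 - ξ / 2) * n) := by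
            have := gn_mkl_kB p0 ξ (1 / 8) (1 / 4) j n' n hsum hξ.le hn'0 (by norm_num) e0 (by norm_num)
            have q1 : ξ * (1 / 8) = ξ / 8 := by ring
            have q2 : ξ * (1 / 4) = ξ / 4 := by ring
            rw [q1, q2] at this
            linarith
          have h4 := gn_mkl_pw E.ka (2 * Cs) (E.ka * 2 ^ (-((p0 - ξ / 4) * j))) (ξ / 8 * n) (-((p0 - ξ / 4) * j)) 0 (-((p0 - ξ / 2) * n)) hκ (by linarith)
            (by rw [hnd]; exact Hn7 E.n hm7) le_rfl hex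
          rw [Real.rpow_zero, mul_one] at h4
          have h5 : 2 * Cs * β < 2 * Cs * (E.ka * 2 ^ (-((p0 - ξ / 4) * j))) := mul_lt_mul_of_pos_left hP (by linarith)
          have h6 : Cs * (2 * β) = 2 * Cs * β := by ring
          linarith
        have h0 : ∑ l ∈ S, (E.ins σ1.k E.b0 [] ([σ1] ++ st') Mk).tr l = 0 := by
          rw [hemp]
          exact Finset.sum_empty
        rw [h0, mul_zero]
        exact (gn_two_pos _).le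
  · -- (B)
    push Not at hA1
    have hn2 : 1 / 2 * n ≤ n' := by linarith
    have e0 : (p0 + 1) * j ≤ ξ / 8 * n := by
      calc (p0 + 1) * j ≤ (p0 + 1) * (a0 * n) := mul_le_mul_of_nonneg_left hA1.le (by linarith)
        _ = a0 * (p0 + 1) * n := by ring
        _ ≤ ξ / 8 * n := mul_le_mul_of_nonneg_right ha2 hnn
    have hkey : Cr3 * (2 * β) * 2 ^ (-((p0 - ξ / 8) * n')) ≤ E.ka * 2 ^ (-((p0 - ξ / 2) * n)) := by
      have hex : ξ / 4 * n + 0 + -((p0 - ξ / 8) * n') ≤ -((p0 - ξ / 2) * n) := by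
        have := gn_mkl_kB p0 ξ (1 / 4) (1 / 8) n' j n (by linarith) hξ.le hj0 (by norm_num) e0 (by norm_num)
        have q1 : ξ * (1 / 8) = ξ / 8 := by ring
        have q2 : ξ * (1 / 4) = ξ / 4 := by ring
        rw [q1, q2] at this
        linarith
      have h1 := gn_mkl_pw E.ka (2 * Cr3 * |B0|) E.ka (ξ / 4 * n) 0 (-((p0 - ξ / 8) * n')) (-((p0 - ξ / 2) * n)) hκ (by positivity)
        (by rw [hnd]; exact Hn6 E.n hm6) (by rw [Real.rpow_zero, mul_one]) hex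
      have h2 : β ≤ |B0| * E.ka := hβhi.trans (mul_le_mul_of_nonneg_right (le_abs_self _) hκ.le)
      have h3 : Cr3 * (2 * β) ≤ 2 * Cr3 * |B0| * E.ka := by
        have := mul_le_mul_of_nonneg_left h2 (show (0 : ℝ) ≤ 2 * Cr3 by linarith)
        have e : Cr3 * (2 * β) = 2 * Cr3 * β := by ring
        have e' : 2 * Cr3 * |B0| * E.ka = 2 * Cr3 * (|B0| * E.ka) := by ring
        rw [e, e']
        exact this
      exact (mul_le_mul_of_nonneg_right h3 (gn_two_pos _).le).trans h1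
    refine (HB p E hm3 hE3 σ1.k E.b0 [] [σ1] st' Mk β S hIns hgen.1 hβlo hβhi (by rw [← hnd, ← hn']; exact hn2) (htl Cr3 hkey)).trans
      (gn_two_mono ?_)
    rw [← hj, ← hn', ← hnd]
    have := gn_mkl_eB Γ τ1 ε a0 μ n' j n (3 / 2) (by linarith) hA1.le hj0 hμ1 hτ1a hμ.le hΓ0.le (by norm_num) hεd hnn ha0.le ha1 ha3
    linarith

/-- **the step**   (steps 1, 3 of the header on `gn_pminK_lvl`) -/
theorem gn_pminK_step (M : Mdl) (g : ℝ) (hG : M.Gen g) (hΓ : 0 < M.Gam) (K : ℕ) (hK : M.PMin K M.p0f) : M.PMin ((K + 1 : ℕ) : ℕ∞) M.p0f := by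
  intro ξ hξ
  obtain ⟨τL, hτL, HL⟩ := gn_pminK_lvl M g hG hΓ K hK ξ hξ
  obtain ⟨τK, hτK, HK⟩ := hK ξ hξ
  have hτ' : 0 < min τL 1 := lt_min hτL one_pos
  refine ⟨min (min τL 1 / 2) τK, lt_min (half_pos hτ') hτK, fun C => ?_⟩
  obtain ⟨Cs, hCs, A1, n1, H1⟩ := gn_dec_ins M g hG C (C + 12)
  obtain ⟨A2, n2, H2⟩ := HL C (C + 12) (by omega) (by omega) Cs
  obtain ⟨n3, H3⟩ := gn_lev_rem M g hG C (C + 12) Cs (by linarith)
  obtain ⟨A4, n4, H4⟩ := HK C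
  obtain ⟨n5, H5⟩ := gn_absorb_poly (C + 12) 8 (min τL 1 / 2) (half_pos hτ')
  obtain ⟨n6, H6⟩ := gn_absorb_poly (C + 12) 2 (ξ / 4) (by linarith)
  refine ⟨max A1 (max A2 A4), max n1 (max n2 (max n3 (max n4 (max n5 n6)))), fun q E hn hE hlen hm => ?_⟩
  have hn1 : n1 ≤ E.n := le_trans (by simp) hn
  have hn2 : n2 ≤ E.n := le_trans (by simp) hn
  have hn3 : n3 ≤ E.n := le_trans (by simp) hn
  have hn4 : n4 ≤ E.n := le_trans (by simp) hn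
  have hn5 : n5 ≤ E.n := le_trans (by simp) hn
  have hn6 : n6 ≤ E.n := le_trans (by simp) hn
  have hE1 : M.Cls C A1 q E := gn_cls_anti M hG.scale (by simp) hE
  have hE2 : M.Cls C A2 q E := gn_cls_anti M hG.scale (by simp) hE
  have hE4 : M.Cls C A4 q E := gn_cls_anti M hG.scale (by simp) hE
  have hV : E.Valid := hE.2.1
  have hnn : (0 : ℝ) ≤ E.n := Nat.cast_nonneg _
  have hlen' : E.st.length ≤ K + 1 := by exact_mod_cast hlen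
  by_cases hlK : E.st.length ≤ K
  · refine (H4 q E hn4 hE4 (by exact_mod_cast hlK) hm).trans (gn_two_mono ?_)
    have : min (min τL 1 / 2) τK ≤ τK := min_le_right _ _
    nlinarith
  obtain ⟨σ1, st', hst⟩ : ∃ σ1 st', E.st = σ1 :: st' := by
    cases h : E.st with
    | nil => simp [h] at hlK
    | cons a l => exact ⟨a, l, rfl⟩
  have hl' : st'.length ≤ K := by
    rw [hst] at hlen'
    simpa using hlen'
  have hb : E.b0 ≤ C := hE.2.2.2.1.1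
  have hcut : E.CutAt σ1.k [] ([σ1] ++ st') := by
    refine ⟨by simpa using hst, by simp, ?_, (hV.st_dep σ1 (by simp [hst])).1, (hV.st_dep σ1 (by simp [hst])).2⟩
    intro σ hσ
    have hp := hV.st_mono
    rw [hst, List.pairwise_cons] at hp
    rcases List.mem_append.1 hσ with h | h
    · rw [List.mem_singleton.1 h]
    · exact hp.1 σ h
  obtain ⟨Mk, hlev, hrem, hsum⟩ := H1 q E hn1 hE1 σ1.k E.b0 [] [σ1] st' hcut (by simp) (by simp) hb (fun i _ => hV.plat)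
  set D : ℕ := C + 12 with hD
  -- the inserted experiments
  have hmsk : ∀ j, j < D * E.n + 1 → ∀ i, IsMask (Mk j i) := by
    intro j hj
    rcases Nat.lt_succ_iff_lt_or_eq.1 hj with h | h
    · exact (hlev j h).2.msk
    · rw [h]; exact hrem.msk
  have hval : ∀ j, j < D * E.n + 1 → (E.ins σ1.k E.b0 [] ([σ1] ++ st') (Mk j)).Valid := fun j hj =>
    gn_ins_valid E hV hcut E.b0 (hmsk j hj)
  classical
  let Lt : ℕ → Finset (Fin E.L) := fun j => Finset.univ.filter fun l =>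
    (E.ins σ1.k E.b0 [] ([σ1] ++ st') (Mk j)).m l ≤ E.ka * E.w l * E.s ^ (M.p0f - ξ / 2)
  let lt : ℕ → ℝ := fun j => if j < D * E.n + 1 then ∑ l ∈ Lt j, (E.ins σ1.k E.b0 [] ([σ1] ++ st') (Mk j)).tr l else 0
  let hv : ℕ → ℝ := fun j => if j < D * E.n + 1 then ∑ l ∈ (Lt j)ᶜ, (E.ins σ1.k E.b0 [] ([σ1] ++ st') (Mk j)).tr l else 0
  have hlt0 : ∀ j, 0 ≤ lt j := by
    intro j
    by_cases hj : j < D * E.n + 1
    · simp only [lt, if_pos hj]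
      exact Finset.sum_nonneg fun l _ => gn_tr_nonneg _ (hval j hj) l
    · simp only [lt, if_neg hj]; exact le_rfl
  have hhv0 : ∀ j, 0 ≤ hv j := by
    intro j
    by_cases hj : j < D * E.n + 1
    · simp only [hv, if_pos hj]
      exact Finset.sum_nonneg fun l _ => gn_tr_nonneg _ (hval j hj) l
    · simp only [hv, if_neg hj]; exact le_rfl
  have hsplit : ∀ j, j < D * E.n + 1 → (E.ins σ1.k E.b0 [] ([σ1] ++ st') (Mk j)).rd = lt j + hv j := by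
    intro j hj
    simp only [lt, hv, if_pos hj]
    rw [gn_rd_eq]
    exact (Finset.sum_add_sum_compl (Lt j) _).symm
  -- the light labels
  have hθ0 : 0 ≤ E.s ^ (ξ / 4) := (Real.rpow_pos_of_pos (gn_s_pos E) _).le
  have hlight : ∀ j < D * E.n + 1, lt j ≤ (E.s ^ (ξ / 4)) ^ 3 * E.rd := by
    intro j hj
    simp only [lt, if_pos hj]
    have h := gn_light_vs E hV σ1.k E.b0 [] ([σ1] ++ st') (Mk j) (hval j hj) (M.p0f - ξ) (ξ / 2) hm (Lt j) (by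
      intro l hl
      have := (Finset.mem_filter.1 hl).2
      have e : M.p0f - ξ + ξ / 2 = M.p0f - ξ / 2 := by ring
      rw [e]; exact this)
    have e2 : (E.s ^ (ξ / 4)) ^ 3 = E.s ^ (3 * (ξ / 2) / 2) := by
      rw [← Real.rpow_natCast, ← Real.rpow_mul (gn_s_pos E).le]
      congr 1
      push_cast; ring
    rw [e2]; exact h
  have hmθ : ((D * E.n + 1 : ℕ) : ℝ) * E.s ^ (ξ / 4) ≤ 1 / 2 := by
    have h6 := H6 E.n hn6
    rw [gn_s_rpow, gn_two_neg]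
    have hp := gn_two_pos (ξ / 4 * E.n)
    have h1 : (1 : ℝ) ≤ ((D * E.n + 1 : ℕ) : ℝ) := by exact_mod_cast Nat.succ_le_succ (Nat.zero_le _)
    have h3 : ((D * E.n + 1 : ℕ) : ℝ) ≤ ((D * E.n + 1 : ℕ) : ℝ) ^ 3 := by
      nlinarith [mul_le_mul h1 h1 zero_le_one (zero_le_one.trans h1)]
    rw [← div_eq_mul_inv, div_le_iff₀ hp]
    linarith
  have hheavy := gn_dec_heavy E.rd (E.s ^ (ξ / 4)) (gn_rd_nonneg E hV) hθ0 (D * E.n + 1) lt hv hlt0 hhv0 hlight hmθ (by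
    refine hsum.trans (le_of_eq ?_)
    refine Finset.sum_congr rfl fun j hj => ?_
    rw [hsplit j (Finset.mem_range.1 hj)])
  -- the bound of every piece
  have hc : 0 < 2 ^ ((E.n : ℝ) / 2) / (E.e * Real.sqrt E.ka) :=
    div_pos (gn_two_pos _) (mul_pos hV.e_pos (Real.sqrt_pos.2 hV.ka_pos))
  have hΓ0 : 0 ≤ M.Gam := hΓ.le
  have hpiece : ∀ j < D * E.n + 1, 2 ^ ((E.n : ℝ) / 2) / (E.e * Real.sqrt E.ka) * hv j ≤ 2 ^ ((M.Gam - min τL 1) * E.n) := by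
    intro j hj
    simp only [hv, if_pos hj]
    rcases Nat.lt_succ_iff_lt_or_eq.1 hj with h | h
    · obtain ⟨_, hβ1, hβ2⟩ := gn_dec_beta E hV.ka_pos D Cs hCs j h
      refine (H2 q E hn2 hE2 σ1 st' hst hl' (Mk j) _ (Lt j)ᶜ (hlev j h).1 (hlev j h).2 hβ1 hβ2 ?_).trans (gn_two_mono ?_)
      · intro l hl
        have : ¬ (E.ins σ1.k E.b0 [] ([σ1] ++ st') (Mk j)).m l ≤ E.ka * E.w l * E.s ^ (M.p0f - ξ / 2) := by
          intro hc'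
          exact (Finset.mem_compl.1 hl) (Finset.mem_filter.2 ⟨Finset.mem_univ _, hc'⟩)
        exact (not_le.1 this).le
      · have : min τL 1 ≤ τL := min_le_left _ _
        nlinarith
    · subst h
      have h3 := H3 q E A1 hn3 hE1 σ1.k E.b0 [] [σ1] st' (Mk (D * E.n)) hrem hb
      have hle : ∑ l ∈ (Lt (D * E.n))ᶜ, (E.ins σ1.k E.b0 [] ([σ1] ++ st') (Mk (D * E.n))).tr l ≤ (E.ins σ1.k E.b0 [] ([σ1] ++ st') (Mk (D * E.n))).rd := by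
        rw [gn_rd_eq]
        exact Finset.sum_le_sum_of_subset_of_nonneg (Finset.subset_univ _) fun l _ _ => gn_tr_nonneg _ (hval _ hj) l
      refine (mul_le_mul_of_nonneg_left hle hc.le).trans (h3.trans (gn_two_mono ?_))
      have h1 : min τL 1 ≤ 1 := min_le_right _ _
      have hD12 : (12 : ℝ) ≤ (D : ℝ) := by
        rw [hD]; push_cast; linarith [(Nat.cast_nonneg C : (0 : ℝ) ≤ C)]
      nlinarith
  -- the cube
  have hcube := gn_cube E.rd (8 * (2 ^ ((M.Gam - min τL 1) * E.n) / (2 ^ ((E.n : ℝ) / 2) / (E.e * Real.sqrt E.ka)))) (gn_rd_nonneg E hV) (D * E.n + 1)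
    (fun j => 8 * hv j) (fun j => mul_nonneg (by norm_num) (hhv0 j)) (fun j hj => by
      refine mul_le_mul_of_nonneg_left ?_ (by norm_num)
      rw [le_div_iff₀ hc, mul_comm]
      exact hpiece j hj) (by
      refine hheavy.trans (le_of_eq ?_)
      rw [Finset.mul_sum]
      refine Finset.sum_congr rfl fun j _ => ?_
      rw [Real.mul_rpow (by norm_num) (hhv0 j)]
      congr 1
      rw [show (8 : ℝ) = 2 ^ (3 : ℝ) by norm_num, gn_two_mul]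
      norm_num)
  have h5 := H5 E.n hn5
  have hfin : E.val ≤ 8 * ((D * E.n + 1 : ℕ) : ℝ) ^ 3 * 2 ^ ((M.Gam - min τL 1) * E.n) := by
    have : E.val = 2 ^ ((E.n : ℝ) / 2) / (E.e * Real.sqrt E.ka) * E.rd := rfl
    rw [this]
    refine (mul_le_mul_of_nonneg_left hcube hc.le).trans (le_of_eq ?_)
    generalize 2 ^ ((E.n : ℝ) / 2) / (E.e * Real.sqrt E.ka) = c at hc
    field_simp
  refine hfin.trans ((mul_le_mul_of_nonneg_right h5 (gn_two_pos _).le).trans ?_)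
  rw [← gn_two_add]
  refine gn_two_mono ?_
  have : min (min τL 1 / 2) τK ≤ min τL 1 / 2 := min_le_left _ _
  nlinarith

/-- **MIN-K** -/
theorem gn_pminK (M : Mdl) (g : ℝ) (hG : M.Gen g) (hΓ : 0 < M.Gam) (K : ℕ) : M.PMin K M.p0f := by
  induction K with
  | zero => exact gn_pmin_p0f M g hG hΓ
  | succ K ih => exact gn_pminK_step M g hG hΓ K ih

end Claimed.Agent.R256
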