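-- KEEP
import Claimed.Agent.R256.Gen.MinK

/-!
# Row 256, GENERIC THEORY : SS1, SS3          (statements helper207; architect helper199; prefix `gn_`)

Paper free.   LEAVES = the general forms `gn_light`, `gn_ss1_set`, `gn_ss1K`, `gn_ss3K` (`K : ℕ∞`, any `p` with `PMin K p`, `d = dOf p = Γ + (p-1)/2`).
Corollaries (proved): MASKED regime `gn_ss1`, `gn_ss3` (the statements of the first version), FREE regime `gn_ss1f` (`K : ℕ` before `τ`), `gn_ss3f`.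
-/

set_option autoImplicit false

namespace Claimed.Agent.R256

open MeasureTheory

/-- the light labels under the weight count.   `m ≤ κ w s^y` on `S` gives `Σ_S tr ≤ κ^(3/2) s^(3y/2) tw`.   PLAN: `gn_tr_le_w` with `ρ = κ s^y`; `Σ_S w ≤ tw`. -/
theorem gn_light {P : PkSys} (E : Xp P) (hE : E.Valid) (y : ℝ) (S : Finset (Fin E.L)) (h : ∀ l ∈ S, E.m l ≤ E.ka * E.w l * E.s ^ y) :
    ∑ l ∈ S, E.tr l ≤ (E.ka * E.s ^ y) ^ (3 / 2 : ℝ) * E.tw := by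
  have hs := gn_s_pos E
  have hk := hE.ka_pos
  have hρ : 0 ≤ E.ka * E.s ^ y := by positivity
  calc ∑ l ∈ S, E.tr l ≤ ∑ l ∈ S, (E.ka * E.s ^ y) ^ (3 / 2 : ℝ) * E.w l :=
        Finset.sum_le_sum fun l hl => gn_tr_le_w E hE l hρ (by
          have := h l hl
          linarith [mul_right_comm E.ka (E.w l) (E.s ^ y)])
    _ ≤ ∑ l, (E.ka * E.s ^ y) ^ (3 / 2 : ℝ) * E.w l :=
        Finset.sum_le_sum_of_subset_of_nonneg (Finset.subset_univ _)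
          (fun l _ _ => mul_nonneg (Real.rpow_nonneg hρ _) (hE.w_pos l).le)
    _ = (E.ka * E.s ^ y) ^ (3 / 2 : ℝ) * E.tw := by rw [Xp.tw, Finset.mul_sum]

/-- the light class of SS1 in normalised form -/
theorem gn_ss1_lightval {P : PkSys} (E : Xp P) (hE : E.Valid) (Γ p ξ τ : ℝ) (S : Finset (Fin E.L))
    (h : ∀ l ∈ S, E.m l ≤ E.ka * E.w l * E.s ^ (p + ξ))
    (htw : E.tw ≤ E.e / E.ka * E.s ^ (-(p + (Γ + (p - 1) / 2)) - τ)) :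
    2 ^ ((E.n : ℝ) / 2) / (E.e * Real.sqrt E.ka) * ∑ l ∈ S, E.tr l ≤ 2 ^ ((Γ - 3 * ξ / 2 + τ) * E.n) := by
  have hs := gn_s_pos E
  have he := hE.e_pos
  have hk := hE.ka_pos
  have hsk : 0 < Real.sqrt E.ka := Real.sqrt_pos.mpr hk
  have h2n : (2 : ℝ) ^ ((E.n : ℝ) / 2) = E.s ^ (-(1 / 2 : ℝ)) := by
    rw [gn_s_rpow]
    congr 1
    ring
  have h1 := gn_light E hE (p + ξ) S h
  have h32 : (E.ka * E.s ^ (p + ξ)) ^ (3 / 2 : ℝ) = Real.sqrt E.ka * E.ka * E.s ^ ((p + ξ) * (3 / 2)) := by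
    rw [Real.mul_rpow hk.le (Real.rpow_nonneg hs.le _), ← Real.rpow_mul hs.le,
      show (3 / 2 : ℝ) = 1 / 2 + 1 by norm_num, Real.rpow_add hk, Real.rpow_one, ← Real.sqrt_eq_rpow]
  have hc : 0 ≤ (2 : ℝ) ^ ((E.n : ℝ) / 2) / (E.e * Real.sqrt E.ka) := by positivity
  calc 2 ^ ((E.n : ℝ) / 2) / (E.e * Real.sqrt E.ka) * ∑ l ∈ S, E.tr l
      ≤ 2 ^ ((E.n : ℝ) / 2) / (E.e * Real.sqrt E.ka) * ((E.ka * E.s ^ (p + ξ)) ^ (3 / 2 : ℝ) * E.tw) :=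
        mul_le_mul_of_nonneg_left h1 hc
    _ ≤ 2 ^ ((E.n : ℝ) / 2) / (E.e * Real.sqrt E.ka) * ((E.ka * E.s ^ (p + ξ)) ^ (3 / 2 : ℝ) *
          (E.e / E.ka * E.s ^ (-(p + (Γ + (p - 1) / 2)) - τ))) :=
        mul_le_mul_of_nonneg_left (mul_le_mul_of_nonneg_left htw (Real.rpow_nonneg (by positivity) _)) hc
    _ = E.s ^ (-(1 / 2 : ℝ)) * E.s ^ ((p + ξ) * (3 / 2)) * E.s ^ (-(p + (Γ + (p - 1) / 2)) - τ) := by
        rw [h32, h2n]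
        field_simp
    _ = 2 ^ ((Γ - 3 * ξ / 2 + τ) * E.n) := by
        rw [← Real.rpow_add hs, ← Real.rpow_add hs, gn_s_rpow]
        congr 1
        ring

/-- **SS1, set form**: `S0 = {l | κ w s^(p+ξ) ≤ m ≤ κ w s^(p-ξ)}` carries half of the readout.
PLAN: `τ1` from `hmin` at `ξ`; `τ = min τ1 (ξ/2) / 2`.   Three classes: `S1 = {m > κ w s^(p-ξ)}`: `(pick S1).val ≤ 2^((Γ-τ1) n)` (`pick` keeps the stack); `S2 = {m < κ w s^(p+ξ)}`: `gn_light` + the weight count give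
`2^(n/2)/(e√κ) Σ_{S2} tr ≤ 2^((Γ - 3ξ/2 + τ) n)` (use `d = Γ + (p-1)/2`); both are `≤ val / 4` for `n ≥ n0` since `val ≥ 2^((Γ-τ) n)`. -/
theorem gn_ss1_set (M : Mdl) (g : ℝ) (hG : M.Gen g) (K : ℕ∞) (p : ℝ) (hmin : M.PMin K p) (ξ : ℝ) (hξ : 0 < ξ) :
    ∃ τ : ℝ, 0 < τ ∧ ∀ C : ℕ, ∃ A n0 : ℕ, ∀ (q : M.Par) (E : Xp (M.sys q)), n0 ≤ E.n → M.Cls C A q E → (E.st.length : ℕ∞) ≤ K →
      E.tw ≤ E.e / E.ka * E.s ^ (-(p + M.dOf p) - τ) → 2 ^ ((M.Gam - τ) * E.n) ≤ E.val →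
      ∃ S : Finset (Fin E.L), (∀ l ∈ S, E.ka * E.w l * E.s ^ (p + ξ) ≤ E.m l ∧ E.m l ≤ E.ka * E.w l * E.s ^ (p - ξ)) ∧ E.rd ≤ 2 * ∑ l ∈ S, E.tr l := by
  classical
  obtain ⟨τ1, hτ1, H⟩ := hmin ξ hξ
  have hm0 : 0 < min τ1 (ξ / 2) := lt_min hτ1 (by linarith)
  refine ⟨min τ1 (ξ / 2) / 2, by linarith, fun C => ?_⟩
  obtain ⟨τ, hτdef⟩ : ∃ τ : ℝ, τ = min τ1 (ξ / 2) / 2 := ⟨_, rfl⟩
  rw [← hτdef]
  have hτ : 0 < τ := by rw [hτdef]; linarith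
  have hτa : 2 * τ ≤ τ1 := by rw [hτdef]; linarith [min_le_left τ1 (ξ / 2)]
  have hτb : 4 * τ ≤ ξ := by rw [hτdef]; linarith [min_le_right τ1 (ξ / 2)]
  obtain ⟨A, n1, H'⟩ := H C
  obtain ⟨n2, hn2⟩ := gn_absorb 4 τ hτ
  refine ⟨A, max n1 n2, fun q E hn hE hK htw hval => ?_⟩
  have hV := hE.2.1
  have hn1 : n1 ≤ E.n := (le_max_left _ _).trans hn
  have h4 : (4 : ℝ) ≤ 2 ^ (τ * E.n) := hn2 E.n ((le_max_right _ _).trans hn)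
  have hnn : (0 : ℝ) ≤ E.n := Nat.cast_nonneg _
  obtain ⟨c, hcdef⟩ : ∃ c : ℝ, c = 2 ^ ((E.n : ℝ) / 2) / (E.e * Real.sqrt E.ka) := ⟨_, rfl⟩
  have hc : 0 < c := by
    rw [hcdef]
    have := hV.e_pos
    have := Real.sqrt_pos.mpr hV.ka_pos
    have := gn_two_pos ((E.n : ℝ) / 2)
    positivity
  have hvc : E.val = c * E.rd := by rw [hcdef]; rfl
  -- the heavy class
  have k1 : c * ∑ l ∈ Finset.univ.filter (fun l => E.ka * E.w l * E.s ^ (p - ξ) < E.m l), E.tr l ≤ 2 ^ ((M.Gam - τ1) * E.n) := by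
    have a1 := H' q (E.pick (E.sel (Finset.univ.filter (fun l => E.ka * E.w l * E.s ^ (p - ξ) < E.m l)))) hn1
      (gn_cls_pick M hG.root hE _ (gn_sel_inj E _)) hK (fun l =>
        (Finset.mem_filter.1 (gn_sel_mem E (Finset.univ.filter (fun l => E.ka * E.w l * E.s ^ (p - ξ) < E.m l)) l)).2.le)
    rw [gn_pick_sel_val, ← hcdef] at a1
    exact a1
  -- the light class
  have k2 : c * ∑ l ∈ Finset.univ.filter (fun l => E.m l < E.ka * E.w l * E.s ^ (p + ξ)), E.tr l ≤ 2 ^ ((M.Gam - 3 * ξ / 2 + τ) * E.n) := by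
    rw [hcdef]
    exact gn_ss1_lightval E hV M.Gam p ξ τ _ (fun l hl => (Finset.mem_filter.1 hl).2.le) htw
  -- both are small
  have hsm : ∀ x : ℝ, x + τ ≤ M.Gam - τ → (2 : ℝ) ^ (x * E.n) ≤ E.val / 4 := by
    intro x hx
    have b1 : (2 : ℝ) ^ (x * E.n) * 2 ^ (τ * E.n) ≤ 2 ^ ((M.Gam - τ) * E.n) := by
      rw [← gn_two_add]
      refine gn_two_mono ?_
      nlinarith
    have b2 := gn_two_pos (x * E.n)
    nlinarith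
  have k1' := k1.trans (hsm (M.Gam - τ1) (by linarith))
  have k2' := k2.trans (hsm (M.Gam - 3 * ξ / 2 + τ) (by linarith))
  refine ⟨Finset.univ.filter (fun l => E.ka * E.w l * E.s ^ (p + ξ) ≤ E.m l ∧ E.m l ≤ E.ka * E.w l * E.s ^ (p - ξ)),
    fun l hl => (Finset.mem_filter.1 hl).2, ?_⟩
  have hcov : E.rd ≤ ∑ l ∈ Finset.univ.filter (fun l => E.ka * E.w l * E.s ^ (p + ξ) ≤ E.m l ∧ E.m l ≤ E.ka * E.w l * E.s ^ (p - ξ)), E.tr l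
      + ∑ l ∈ Finset.univ.filter (fun l => E.ka * E.w l * E.s ^ (p - ξ) < E.m l), E.tr l
      + ∑ l ∈ Finset.univ.filter (fun l => E.m l < E.ka * E.w l * E.s ^ (p + ξ)), E.tr l := by
    rw [gn_rd_eq, Finset.sum_filter, Finset.sum_filter, Finset.sum_filter, ← Finset.sum_add_distrib, ← Finset.sum_add_distrib]
    refine Finset.sum_le_sum fun l _ => ?_
    have t0 := gn_tr_nonneg E hV l
    by_cases c1 : E.ka * E.w l * E.s ^ (p - ξ) < E.m l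
    · rw [if_pos c1]
      split_ifs <;> linarith
    · by_cases c2 : E.m l < E.ka * E.w l * E.s ^ (p + ξ)
      · rw [if_pos c2]
        split_ifs <;> linarith
      · rw [if_pos ⟨not_lt.1 c2, not_lt.1 c1⟩]
        split_ifs <;> linarith
  have hfin : c * E.rd ≤ c * (2 * ∑ l ∈ Finset.univ.filter (fun l => E.ka * E.w l * E.s ^ (p + ξ) ≤ E.m l ∧ E.m l ≤ E.ka * E.w l * E.s ^ (p - ξ)), E.tr l) := by
    have := mul_le_mul_of_nonneg_left hcov hc.le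
    rw [mul_add, mul_add] at this
    rw [hvc] at k1' k2'
    linarith
  exact le_of_mul_le_mul_left hfin hc

/-- **SS1, general form**.   PLAN: `gn_ss1_set`, `φ = E.sel S`, `gn_pick_m'`, `gn_pick_sel_rd`. -/
theorem gn_ss1K (M : Mdl) (g : ℝ) (hG : M.Gen g) (K : ℕ∞) (p : ℝ) (hmin : M.PMin K p) (ξ : ℝ) (hξ : 0 < ξ) :
    ∃ τ : ℝ, 0 < τ ∧ ∀ C : ℕ, ∃ A n0 : ℕ, ∀ (q : M.Par) (E : Xp (M.sys q)), n0 ≤ E.n → M.Cls C A q E → (E.st.length : ℕ∞) ≤ K →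
      E.tw ≤ E.e / E.ka * E.s ^ (-(p + M.dOf p) - τ) → 2 ^ ((M.Gam - τ) * E.n) ≤ E.val →
      ∃ (L' : ℕ) (φ : Fin L' → Fin E.L), Function.Injective φ ∧ (E.pick φ).Hom (p - ξ) (p + ξ) ∧ E.rd ≤ 2 * (E.pick φ).rd := by
  obtain ⟨τ, hτ, H⟩ := gn_ss1_set M g hG K p hmin ξ hξ
  refine ⟨τ, hτ, fun C => ?_⟩
  obtain ⟨A, n0, H'⟩ := H C
  refine ⟨A, n0, fun q E hn hE hK htw hval => ?_⟩
  obtain ⟨S, hS, hrd⟩ := H' q E hn hE hK htw hval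
  refine ⟨S.card, E.sel S, gn_sel_inj E S, fun l => hS (E.sel S l) (gn_sel_mem E S l), ?_⟩
  rw [gn_pick_sel_rd]
  exact hrd

/-- **SS1**, masked regime (02 l.424-427): under the weight count, the labels with exponent in `p0 ± ξ` carry half of the readout -/
theorem gn_ss1 (M : Mdl) (g : ℝ) (hG : M.Gen g) (hΓ : 0 < M.Gam) (ξ : ℝ) (hξ : 0 < ξ) :
    ∃ τ : ℝ, 0 < τ ∧ ∀ C : ℕ, ∃ A n0 : ℕ, ∀ (p : M.Par) (E : Xp (M.sys p)), n0 ≤ E.n → M.Cls C A p E →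
      E.tw ≤ E.e / E.ka * E.s ^ (-(M.p0 + M.d0) - τ) → 2 ^ ((M.Gam - τ) * E.n) ≤ E.val →
      ∃ (L' : ℕ) (φ : Fin L' → Fin E.L), Function.Injective φ ∧ (E.pick φ).Hom (M.p0 - ξ) (M.p0 + ξ) ∧ E.rd ≤ 2 * (E.pick φ).rd := by
  obtain ⟨τ, hτ, H⟩ := gn_ss1K M g hG ⊤ M.p0 (gn_pmin_p0 M g hG hΓ) ξ hξ
  refine ⟨τ, hτ, fun C => ?_⟩
  obtain ⟨A, n0, H'⟩ := H C
  exact ⟨A, n0, fun p E hn hE => H' p E hn hE le_top⟩

/-- **SS1**, free regime: `K` = bound for the number of stages, chosen BEFORE `τ` -/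
theorem gn_ss1f (M : Mdl) (g : ℝ) (hG : M.Gen g) (hΓ : 0 < M.Gam) (ξ : ℝ) (hξ : 0 < ξ) (K : ℕ) :
    ∃ τ : ℝ, 0 < τ ∧ ∀ C : ℕ, ∃ A n0 : ℕ, ∀ (p : M.Par) (E : Xp (M.sys p)), n0 ≤ E.n → M.Cls C A p E → E.st.length ≤ K →
      E.tw ≤ E.e / E.ka * E.s ^ (-(M.p0f + M.d0f) - τ) → 2 ^ ((M.Gam - τ) * E.n) ≤ E.val →
      ∃ (L' : ℕ) (φ : Fin L' → Fin E.L), Function.Injective φ ∧ (E.pick φ).Hom (M.p0f - ξ) (M.p0f + ξ) ∧ E.rd ≤ 2 * (E.pick φ).rd := by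
  obtain ⟨τ, hτ, H⟩ := gn_ss1K M g hG K M.p0f (gn_pminK M g hG hΓ K) ξ hξ
  refine ⟨τ, hτ, fun C => ?_⟩
  obtain ⟨A, n0, H'⟩ := H C
  exact ⟨A, n0, fun p E hn hE hK => H' p E hn hE (by exact_mod_cast hK)⟩

/-- exponent arithmetic of SS3 -/
theorem gn_ss3_num (Γ p d τ ξ n j n' e κ rd Sg sC : ℝ) (hd : d = Γ + (p - 1) / 2) (hd0 : 0 ≤ d) (hτ : 0 < τ) (hτ1 : τ ≤ 1) (hτξ : τ ≤ ξ / 4)
    (hj : 0 ≤ j) (hn' : n' = n - j) (hn1 : 1 ≤ n) (hnξ : 8 ≤ 3 * ξ * n) (he : 0 < e) (hκ : 0 < κ)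
    (hval : (2 : ℝ) ^ ((Γ - τ) * n) ≤ 2 ^ (n / 2) / (e * Real.sqrt κ) * rd)
    (htail : rd ≤ 2 ^ (-((1 / 2 - Γ - τ) * n')) * Real.sqrt (κ * (2 : ℝ) ^ (-(p * j) + τ * n)) * (Sg + sC * e))
    (hsC : sC ≤ 2 ^ (-(4 * n))) :
    e * (2 : ℝ) ^ (d * j - ξ * n) ≤ Sg := by
  have hsκ : 0 < Real.sqrt κ := Real.sqrt_pos.2 hκ
  have e1 : Real.sqrt (κ * (2 : ℝ) ^ (-(p * j) + τ * n)) = Real.sqrt κ * 2 ^ ((-(p * j) + τ * n) / 2) := by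
    rw [Real.sqrt_mul hκ.le, gn_two_sqrt]
  rw [e1] at htail
  have h1 : (2 : ℝ) ^ ((Γ - τ) * n) * (e * Real.sqrt κ) ≤ 2 ^ (n / 2) * rd := by
    rw [div_mul_eq_mul_div, le_div_iff₀ (mul_pos he hsκ)] at hval
    exact hval
  have h2 : (2 : ℝ) ^ (n / 2) * rd ≤ 2 ^ (n / 2) * (2 ^ (-((1 / 2 - Γ - τ) * n')) * (Real.sqrt κ * 2 ^ ((-(p * j) + τ * n) / 2)) * (Sg + sC * e)) :=
    mul_le_mul_of_nonneg_left htail (gn_two_pos _).le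
  have h3 : (2 : ℝ) ^ ((Γ - τ) * n) * e * Real.sqrt κ
      ≤ (2 ^ (n / 2 + -((1 / 2 - Γ - τ) * n') + (-(p * j) + τ * n) / 2) * (Sg + sC * e)) * Real.sqrt κ := by
    rw [gn_two_add, gn_two_add]
    calc (2 : ℝ) ^ ((Γ - τ) * n) * e * Real.sqrt κ = (2 : ℝ) ^ ((Γ - τ) * n) * (e * Real.sqrt κ) := by ring
      _ ≤ _ := h1.trans h2
      _ = _ := by ring
  have h4 := le_of_mul_le_mul_right h3 hsκ
  -- multiply by the inverse power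
  obtain ⟨X, hX⟩ : ∃ X : ℝ, X = n / 2 + -((1 / 2 - Γ - τ) * n') + (-(p * j) + τ * n) / 2 := ⟨_, rfl⟩
  rw [← hX] at h4
  have h5 : (2 : ℝ) ^ (-X + (Γ - τ) * n) * e ≤ Sg + sC * e := by
    have e3 : (2 : ℝ) ^ (-X) * (2 ^ X * (Sg + sC * e)) = Sg + sC * e := by
      rw [← mul_assoc, ← gn_two_add, neg_add_cancel, Real.rpow_zero, one_mul]
    have := mul_le_mul_of_nonneg_left h4 (gn_two_pos (-X)).le
    rw [e3, ← mul_assoc, ← gn_two_add] at this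
    exact this
  have h6 : (2 : ℝ) ^ (d * j - 5 * τ / 2 * n) ≤ 2 ^ (-X + (Γ - τ) * n) := by
    refine gn_two_mono ?_
    rw [hX, hn', hd]
    nlinarith [mul_nonneg hτ.le hj]
  have h7 : (2 : ℝ) ^ (d * j - 5 * τ / 2 * n) * e ≤ Sg + sC * e := (mul_le_mul_of_nonneg_right h6 he.le).trans h5
  have e2 : ∀ x : ℝ, (2 : ℝ) ^ (-1 + x) = 1 / 2 * 2 ^ x := by
    intro x
    rw [gn_two_add, gn_two_neg, Real.rpow_one]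
    norm_num
  have h8 : sC ≤ 1 / 2 * (2 : ℝ) ^ (d * j - 5 * τ / 2 * n) := by
    rw [← e2]
    refine hsC.trans (gn_two_mono ?_)
    nlinarith [mul_nonneg hd0 hj]
  have h9 : (2 : ℝ) ^ (d * j - ξ * n) ≤ 1 / 2 * (2 : ℝ) ^ (d * j - 5 * τ / 2 * n) := by
    rw [← e2]
    refine gn_two_mono ?_
    nlinarith
  have h10 := mul_le_mul_of_nonneg_right h8 he.le
  have h11 := mul_le_mul_of_nonneg_left h9 he.le
  linarith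

/-- **SS3, general form** (persistence; 874 E6): no minimality is used; `1 ≤ p ≤ 3`, `0 < dOf p`.
PLAN: `τ = ε = min (ξ/4) 1`; `C'' = max C 4`, `gn_cls_mono`; `gn_tail` (`γ = Γ`, `gn_rate_gam`) with `κ' = κ 2^(-p j + τ n)`, `j = k - k0 ≤ n`, `1 ≤ p ≤ 3`: `s^C'' κ ≤ κ' ≤ s^-C'' κ`;
`val = 2^(n/2)/(e√κ) rd` and `val ≥ 2^((Γ-τ) n)` give `(Σ + s^C'' e)/e ≥ 2^(d j - (3τ/2 + ε) n)`; `s^C'' ≤ 2^(-4n) ≤ (1/2) 2^(-(3τ/2+ε) n)` (as `3τ/2+ε ≤ 5/2`) and `d > 0`; `(1/2) 2^(-(5ξ/8) n) ≥ 2^(-ξ n)` for `n ≥ n0`; `n - j = kf - k`. -/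
theorem gn_ss3K (M : Mdl) (g : ℝ) (hG : M.Gen g) (p : ℝ) (hp1 : 1 ≤ p) (hp3 : p ≤ 3) (hd : 0 < M.dOf p) (a0 ξ : ℝ) (ha : 0 < a0) (hξ : 0 < ξ) :
    ∃ τ : ℝ, 0 < τ ∧ ∀ C : ℕ, ∃ A n0 : ℕ, ∀ (q : M.Par) (E : Xp (M.sys q)), n0 ≤ E.n → M.Cls C A q E →
      2 ^ ((M.Gam - τ) * E.n) ≤ E.val →
      ∀ (k b' : ℕ) (st1 st2 : List (Stg (M.sys q))), E.CutAt k st1 st2 → a0 * E.n ≤ ((E.kf - k : ℕ) : ℝ) → b' ≤ C →
        (∀ i ∈ ivs E.k0 E.i0 k, E.at' k i st1 ∈ (M.sys q).Pl b' ∧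
          (M.sys q).Reg (tmL k i) k b' (E.ka * (2 : ℝ) ^ (-(p * ((k - E.k0 : ℕ) : ℝ)) + τ * E.n)) (E.at' k i st1)) →
        E.e * (2 : ℝ) ^ (M.dOf p * ((k - E.k0 : ℕ) : ℝ) - ξ * E.n) ≤ ∑ i ∈ ivs E.k0 E.i0 k, ‖E.at' k i st1‖ ^ 2 := by
  obtain ⟨τ, hτdef⟩ : ∃ τ : ℝ, τ = min (ξ / 4) 1 := ⟨_, rfl⟩
  have hτ : 0 < τ := by rw [hτdef]; exact lt_min (by positivity) one_pos
  have hτ1 : τ ≤ 1 := by rw [hτdef]; exact min_le_right _ _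
  have hτξ : τ ≤ ξ / 4 := by rw [hτdef]; exact min_le_left _ _
  refine ⟨τ, hτ, fun C => ?_⟩
  obtain ⟨A, n0, H⟩ := gn_tail M g hG M.Gam (gn_rate_gam M g hG) (max C 4) a0 τ ha hτ
  refine ⟨A, max n0 (max 1 ⌈8 / (3 * ξ)⌉₊), fun q E hn hE hval k b' st1 st2 hc hk hb hst => ?_⟩
  have hn0 : n0 ≤ E.n := (le_max_left _ _).trans hn
  have hn1 : (1 : ℝ) ≤ E.n := by exact_mod_cast ((le_max_left _ _).trans (le_max_right _ _)).trans hn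
  have hnξ : 8 ≤ 3 * ξ * (E.n : ℝ) := by
    have h1 : 8 / (3 * ξ) ≤ (E.n : ℝ) :=
      (Nat.le_ceil _).trans (by exact_mod_cast ((le_max_right _ _).trans (le_max_right _ _)).trans hn)
    rw [div_le_iff₀ (by positivity)] at h1
    linarith
  have hV := hE.2.1
  have hjn : ((E.kf - k : ℕ) : ℝ) = (E.n : ℝ) - ((k - E.k0 : ℕ) : ℝ) := by
    have h1 : (k - E.k0) + (E.kf - k) = E.n := by
      have := hc.2.2.2.1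
      have := hc.2.2.2.2
      unfold Xp.kf at *
      omega
    have h2 : ((k - E.k0 : ℕ) : ℝ) + ((E.kf - k : ℕ) : ℝ) = (E.n : ℝ) := by exact_mod_cast h1
    linarith
  have hj0 : (0 : ℝ) ≤ ((k - E.k0 : ℕ) : ℝ) := Nat.cast_nonneg _
  have hjle : ((k - E.k0 : ℕ) : ℝ) ≤ (E.n : ℝ) := by
    have : (0 : ℝ) ≤ ((E.kf - k : ℕ) : ℝ) := Nat.cast_nonneg _
    linarith
  have hC4 : (4 : ℝ) ≤ ((max C 4 : ℕ) : ℝ) := by exact_mod_cast le_max_right C 4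
  have hlo : E.s ^ ((max C 4 : ℕ) : ℝ) * E.ka ≤ E.ka * (2 : ℝ) ^ (-(p * ((k - E.k0 : ℕ) : ℝ)) + τ * E.n) := by
    rw [gn_s_rpow, mul_comm]
    refine mul_le_mul_of_nonneg_left (gn_two_mono ?_) hV.ka_pos.le
    nlinarith
  have hhi : E.ka * (2 : ℝ) ^ (-(p * ((k - E.k0 : ℕ) : ℝ)) + τ * E.n) ≤ E.s ^ (-((max C 4 : ℕ) : ℝ)) * E.ka := by
    rw [gn_s_rpow, mul_comm]
    refine mul_le_mul_of_nonneg_right (gn_two_mono ?_) hV.ka_pos.le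
    nlinarith
  have key := H q E hn0 (gn_cls_mono M hG.scale (le_max_left C 4) hE) k b' st1 st2 _ hc hk (hb.trans (le_max_left C 4)) hlo hhi hst
  refine gn_ss3_num M.Gam p (M.dOf p) τ ξ E.n _ _ E.e E.ka E.rd _ (E.s ^ ((max C 4 : ℕ) : ℝ)) rfl hd.le hτ hτ1 hτξ hj0 hjn hn1 hnξ
    hV.e_pos hV.ka_pos hval key ?_
  rw [gn_s_rpow]
  refine gn_two_mono ?_
  nlinarith

/-- **SS3**, masked regime: a preserving experiment whose states at a cut are `s^-τ κ_a`-regular has energy `≥ s^ξ E_a` there -/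
theorem gn_ss3 (M : Mdl) (g : ℝ) (hG : M.Gen g) (hΓ : 0 < M.Gam) (a0 ξ : ℝ) (ha : 0 < a0) (hξ : 0 < ξ) :
    ∃ τ : ℝ, 0 < τ ∧ ∀ C : ℕ, ∃ A n0 : ℕ, ∀ (p : M.Par) (E : Xp (M.sys p)), n0 ≤ E.n → M.Cls C A p E →
      2 ^ ((M.Gam - τ) * E.n) ≤ E.val →
      ∀ (k b' : ℕ) (st1 st2 : List (Stg (M.sys p))), E.CutAt k st1 st2 → a0 * E.n ≤ ((E.kf - k : ℕ) : ℝ) → b' ≤ C →
        (∀ i ∈ ivs E.k0 E.i0 k, E.at' k i st1 ∈ (M.sys p).Pl b' ∧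
          (M.sys p).Reg (tmL k i) k b' (E.ka * (2 : ℝ) ^ (-(M.p0 * ((k - E.k0 : ℕ) : ℝ)) + τ * E.n)) (E.at' k i st1)) →
        E.e * (2 : ℝ) ^ (M.d0 * ((k - E.k0 : ℕ) : ℝ) - ξ * E.n) ≤ ∑ i ∈ ivs E.k0 E.i0 k, ‖E.at' k i st1‖ ^ 2 :=
  gn_ss3K M g hG M.p0 (hG.g_pos.trans (gn_p0_ge M g hG hΓ)) (by have := gn_p0_le M g hG hΓ; linarith) (gn_d0_le M g hG hΓ).1 a0 ξ ha hξ

/-- **SS3**, free regime -/
theorem gn_ss3f (M : Mdl) (g : ℝ) (hG : M.Gen g) (hΓ : 0 < M.Gam) (a0 ξ : ℝ) (ha : 0 < a0) (hξ : 0 < ξ) :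
    ∃ τ : ℝ, 0 < τ ∧ ∀ C : ℕ, ∃ A n0 : ℕ, ∀ (p : M.Par) (E : Xp (M.sys p)), n0 ≤ E.n → M.Cls C A p E →
      2 ^ ((M.Gam - τ) * E.n) ≤ E.val →
      ∀ (k b' : ℕ) (st1 st2 : List (Stg (M.sys p))), E.CutAt k st1 st2 → a0 * E.n ≤ ((E.kf - k : ℕ) : ℝ) → b' ≤ C →
        (∀ i ∈ ivs E.k0 E.i0 k, E.at' k i st1 ∈ (M.sys p).Pl b' ∧
          (M.sys p).Reg (tmL k i) k b' (E.ka * (2 : ℝ) ^ (-(M.p0f * ((k - E.k0 : ℕ) : ℝ)) + τ * E.n)) (E.at' k i st1)) →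
        E.e * (2 : ℝ) ^ (M.d0f * ((k - E.k0 : ℕ) : ℝ) - ξ * E.n) ≤ ∑ i ∈ ivs E.k0 E.i0 k, ‖E.at' k i st1‖ ^ 2 :=
  gn_ss3K M g hG M.p0f (hG.g_pos.trans (gn_p0f_ge M g hG hΓ)) (by have := gn_p0f_le M g hG hΓ; linarith) (gn_d0f_le M g hG hΓ).1 a0 ξ ha hξ

end Claimed.Agent.R256
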