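-- KEEP
import Claimed.Agent.R256.Gen.SS1

/-!
# Row 256, GENERIC THEORY : SS2, the model facts          (architect helper199; prefix `gn_`)

Paper free.   (The facts on one level that do not use minimality are in `Gen/Lvl.lean`.)   `E.LvlAt st1 σ st2 β`: the stage `σ` of `E` (stack `st1 ++ σ :: st2`) is a peel level with threshold `β`.   `j = σ.k - k0`, `n' = kf - σ.k`.
`ψ_i = E.at' σ.k i st1` (before the stage), `φ_i = E.at' σ.k i (st1 ++ [σ])` (after).   `raw = Σ_i ms (S_i) ψ_i`, `post = Σ_i ‖φ_i‖²`.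
-/

set_option autoImplicit false

namespace Claimed.Agent.R256

open MeasureTheory

variable {P : PkSys}

/-- bookkeeping of a level: the prefix data are in the package -/
theorem gn_ss2_bk (E : Xp P) {C : ℕ} (hlen : E.st.length ≤ C) (hgen : E.GenLe C) {st1 st2 : List (Stg P)} {σ : Stg P} {β : ℝ} (h : E.LvlAt st1 σ st2 β) :
    st1.length ≤ E.st.length ∧ st2.length ≤ E.st.length ∧ st1.length ≤ C ∧ σ.b ≤ C ∧ (∀ σ' ∈ st1, σ'.b ≤ C) ∧ σ.k - E.k0 ≤ E.n := by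
  have hst := h.cut.1
  have h1 : E.st.length = st1.length + (st2.length + 1) := by rw [hst, List.length_append, List.length_cons]
  have hσ : σ ∈ E.st := by rw [hst]; exact List.mem_append_right _ (List.mem_cons_self)
  have hk : σ.k ≤ E.kf := h.cut.2.2.2.2
  unfold Xp.kf at hk
  refine ⟨by omega, by omega, by omega, hgen.2.2 σ hσ, fun σ' hσ' => hgen.2.2 σ' (by rw [hst]; exact List.mem_append_left _ hσ'), by omega⟩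

/-- the heavy tests of a level against a bound for the prefix experiments -/
theorem gn_ss2_core (hT : P.Tight) (E : Xp P) (hE : E.Valid) {st1 st2 : List (Stg P)} {σ : Stg P} {β B : ℝ} (h : E.LvlAt st1 σ st2 β) (hβ : 0 < β)
    (hB : ∀ (L' : ℕ) (iv' : Fin L' → ℕ) (ts' : Fin L' → P.Tst) (th' : Fin L' → P.X → ℝ), (E.pre (σ.k - E.k0) st1 σ.b iv' ts' th').Valid →
      (∀ l, β * (E.pre (σ.k - E.k0) st1 σ.b iv' ts' th').w l < (E.pre (σ.k - E.k0) st1 σ.b iv' ts' th').m l) →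
      (E.pre (σ.k - E.k0) st1 σ.b iv' ts' th').val ≤ B) :
    E.raw st1 σ * Real.sqrt (β / E.ka) ≤ E.e * (2 ^ (-(((σ.k - E.k0 : ℕ) : ℝ) / 2)) * B) := by
  obtain ⟨L', iv', ts', th', hV', hlab, htm⟩ := gn_lvl_pre hT E hE h
  have hval := hB L' iv' ts' th' hV' (fun l => (hlab l).1)
  set E' := E.pre (σ.k - E.k0) st1 σ.b iv' ts' th' with hE'
  have hk := hE.ka_pos
  have hsk : 0 < Real.sqrt E.ka := Real.sqrt_pos.mpr hk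
  have h1 : Real.sqrt β * E.raw st1 σ ≤ E'.rd := by
    rw [← htm, gn_rd_eq, Xp.tm, Finset.mul_sum]
    exact Finset.sum_le_sum fun l _ => gn_le_tr E' hV' l hβ.le (hlab l).1.le
  have h2 : E'.rd = 2 ^ (-(((σ.k - E.k0 : ℕ) : ℝ) / 2)) * (E.e * Real.sqrt E.ka) * E'.val := gn_rd_of_val E' hV'
  rw [Real.sqrt_div hβ.le]
  have h3 : E.raw st1 σ * (Real.sqrt β / Real.sqrt E.ka) = Real.sqrt β * E.raw st1 σ / Real.sqrt E.ka := by ring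
  rw [h3, div_le_iff₀ hsk]
  calc Real.sqrt β * E.raw st1 σ ≤ 2 ^ (-(((σ.k - E.k0 : ℕ) : ℝ) / 2)) * (E.e * Real.sqrt E.ka) * E'.val := h1.trans (le_of_eq h2)
    _ ≤ 2 ^ (-(((σ.k - E.k0 : ℕ) : ℝ) / 2)) * (E.e * Real.sqrt E.ka) * B :=
        mul_le_mul_of_nonneg_left hval (mul_nonneg (gn_two_pos _).le (mul_nonneg hE.e_pos.le hsk.le))
    _ = E.e * (2 ^ (-(((σ.k - E.k0 : ℕ) : ℝ) / 2)) * B) * Real.sqrt E.ka := by ring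

/-- **(PS)** the prefix rate on the heavy tests: `raw √(β/κ) ≤ e 2^((Γ + ε - 1/2) j)`.
PLAN: `E'` from `gn_lvl_pre`; `gn_prefix` (`γ = Γ`, `gn_rate_gam`): `E'.val ≤ 2^((Γ+ε) j)`; `gn_le_tr` (`ρ = β`): `√β · raw ≤ E'.rd`; `E'.val = 2^(j/2)/(e √κ) E'.rd`. -/
theorem gn_ss2_pre (M : Mdl) (g : ℝ) (hG : M.Gen g) (C : ℕ) (a0 ε : ℝ) (ha : 0 < a0) (hε : 0 < ε) :
    ∃ A n0 : ℕ, ∀ (p : M.Par) (E : Xp (M.sys p)), n0 ≤ E.n → M.Cls C A p E →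
      ∀ (st1 st2 : List (Stg (M.sys p))) (σ : Stg (M.sys p)) (β : ℝ), E.LvlAt st1 σ st2 β → 0 < β → a0 * E.n ≤ ((σ.k - E.k0 : ℕ) : ℝ) →
        E.raw st1 σ * Real.sqrt (β / E.ka) ≤ E.e * 2 ^ ((M.Gam + ε - 1 / 2) * ((σ.k - E.k0 : ℕ) : ℝ)) := by
  obtain ⟨A, n0, H⟩ := gn_prefix M hG.scale M.Gam (gn_rate_gam M g hG) C a0 ε ha hε
  refine ⟨A, n0, fun p E hn hE st1 st2 σ β hl hβ hj => ?_⟩
  obtain ⟨-, -, b3, b4, b5, b6⟩ := gn_ss2_bk E hE.2.2.1 hE.2.2.2.1 hl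
  have := gn_ss2_core (hG.tight p hE.1) E hE.2.1 (B := 2 ^ ((M.Gam + ε) * ((σ.k - E.k0 : ℕ) : ℝ))) hl hβ (fun L' iv' ts' th' hV' _ =>
    H p E _ hn hE hV' ⟨rfl, rfl, rfl, rfl, rfl, rfl⟩ b3 ⟨hE.2.2.2.1.1, b4, b5⟩ hj b6)
  refine this.trans (le_of_eq ?_)
  rw [← gn_two_add]
  congr 2
  ring

/-- **(PS-min)**: if `β ≥ κ 2^(-(p - ξ) j)` the prefix loses a package free power.   PLAN: the same with `gn_prefix_min` (`hmin`; `st1.length ≤ E.st.length ≤ K`); labels: `κ w 2^(-(p-ξ) j) ≤ β w < m`. -/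
theorem gn_ss2_pre_min (M : Mdl) (g : ℝ) (hG : M.Gen g) (K : ℕ∞) (p : ℝ) (hmin : M.PMin K p) (ξ : ℝ) (hξ : 0 < ξ) :
    ∃ τ : ℝ, 0 < τ ∧ ∀ (C : ℕ) (a0 : ℝ), 0 < a0 → ∃ A n0 : ℕ, ∀ (q : M.Par) (E : Xp (M.sys q)), n0 ≤ E.n → M.Cls C A q E → (E.st.length : ℕ∞) ≤ K →
      ∀ (st1 st2 : List (Stg (M.sys q))) (σ : Stg (M.sys q)) (β : ℝ), E.LvlAt st1 σ st2 β → 0 < β → a0 * E.n ≤ ((σ.k - E.k0 : ℕ) : ℝ) →
        E.ka * 2 ^ (-((p - ξ) * ((σ.k - E.k0 : ℕ) : ℝ))) ≤ β →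
        E.raw st1 σ * Real.sqrt (β / E.ka) ≤ E.e * 2 ^ ((M.Gam - τ - 1 / 2) * ((σ.k - E.k0 : ℕ) : ℝ)) := by
  obtain ⟨τ, hτ, H0⟩ := gn_prefix_min M hG.scale K p hmin ξ hξ
  refine ⟨τ, hτ, fun C a0 ha => ?_⟩
  obtain ⟨A, n0, H⟩ := H0 C a0 ha
  refine ⟨A, n0, fun q E hn hE hK st1 st2 σ β hl hβ hj hκ => ?_⟩
  obtain ⟨b1, -, b3, b4, b5, b6⟩ := gn_ss2_bk E hE.2.2.1 hE.2.2.2.1 hl
  have hK1 : (st1.length : ℕ∞) ≤ K := le_trans (by exact_mod_cast b1) hK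
  have := gn_ss2_core (hG.tight q hE.1) E hE.2.1 (B := 2 ^ ((M.Gam - τ) * ((σ.k - E.k0 : ℕ) : ℝ))) hl hβ (fun L' iv' ts' th' hV' hlab =>
    H q E _ hn hE hV' ⟨rfl, rfl, rfl, rfl, rfl, rfl⟩ b3 hK1 ⟨hE.2.2.2.1.1, b4, b5⟩ hj b6 (fun l => by
      rw [gn_s_rpow]
      have hw := hV'.w_pos l
      have h1 : E.ka * 2 ^ (-((p - ξ) * ((σ.k - E.k0 : ℕ) : ℝ))) * (E.pre (σ.k - E.k0) st1 σ.b iv' ts' th').w l
          ≤ β * (E.pre (σ.k - E.k0) st1 σ.b iv' ts' th').w l := mul_le_mul_of_nonneg_right hκ hw.le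
      have h2 := (hlab l).le
      calc (E.pre (σ.k - E.k0) st1 σ.b iv' ts' th').ka * (E.pre (σ.k - E.k0) st1 σ.b iv' ts' th').w l
            * 2 ^ (-((p - ξ) * ((E.pre (σ.k - E.k0) st1 σ.b iv' ts' th').n : ℝ)))
          = E.ka * 2 ^ (-((p - ξ) * ((σ.k - E.k0 : ℕ) : ℝ))) * (E.pre (σ.k - E.k0) st1 σ.b iv' ts' th').w l := by
            show E.ka * _ * 2 ^ (-((p - ξ) * ((σ.k - E.k0 : ℕ) : ℝ))) = _
            ring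
        _ ≤ _ := h1.trans h2))
  refine this.trans (le_of_eq ?_)
  rw [← gn_two_add]
  congr 2
  ring

/-- **the single time bound for the threshold**: `β ≤ Cs 2^((ε - g) j) κ`.   PLAN: `hG.sgl C C ε` for `E'` of `gn_lvl_pre`; a label exists since `tm = raw > 0`; `β w < m`. -/
theorem gn_ss2_beta_le (M : Mdl) (g : ℝ) (hG : M.Gen g) (C : ℕ) (ε : ℝ) (hε : 0 < ε) :
    ∃ Cs : ℝ, 1 ≤ Cs ∧ ∀ (p : M.Par) (E : Xp (M.sys p)), M.gd p → E.Valid → E.st.length ≤ C → E.GenLe C →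
      ∀ (st1 st2 : List (Stg (M.sys p))) (σ : Stg (M.sys p)) (β : ℝ), E.LvlAt st1 σ st2 β → 0 < E.raw st1 σ →
        β ≤ Cs * 2 ^ ((ε - g) * ((σ.k - E.k0 : ℕ) : ℝ)) * E.ka := by
  obtain ⟨Cs, H⟩ := hG.sgl C C ε hε
  refine ⟨max Cs 1, le_max_right _ _, fun p E hp hE hlen hgen st1 st2 σ β hl hraw => ?_⟩
  obtain ⟨-, -, b3, b4, b5, -⟩ := gn_ss2_bk E hlen hgen hl
  obtain ⟨L', iv', ts', th', hV', hlab, htm⟩ := gn_lvl_pre (hG.tight p hp) E hE hl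
  set E' := E.pre (σ.k - E.k0) st1 σ.b iv' ts' th' with hE'
  have hL : 0 < L' := by
    rcases Nat.eq_zero_or_pos L' with h0 | h0
    · exfalso
      subst h0
      rw [← htm] at hraw
      have h00 : E'.tm = 0 := Finset.sum_eq_zero (fun l _ => absurd l.2 (Nat.not_lt_zero _))
      linarith
    · exact h0
  have h1 := H p E' hp hV' b3 ⟨hgen.1, b4, b5⟩ ⟨0, hL⟩
  have h2 := (hlab ⟨0, hL⟩).1
  have hw := hV'.w_pos ⟨0, hL⟩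
  set w := E'.w ⟨0, hL⟩
  have h3 : β * w ≤ (max Cs 1 * 2 ^ ((ε - g) * ((σ.k - E.k0 : ℕ) : ℝ)) * E.ka) * w := by
    calc β * w ≤ Cs * 2 ^ (ε * ((σ.k - E.k0 : ℕ) : ℝ)) * (E.ka * w) * 2 ^ (-(g * ((σ.k - E.k0 : ℕ) : ℝ))) := h2.le.trans h1
      _ = Cs * (2 ^ (ε * ((σ.k - E.k0 : ℕ) : ℝ)) * 2 ^ (-(g * ((σ.k - E.k0 : ℕ) : ℝ))) * E.ka * w) := by ring
      _ ≤ max Cs 1 * (2 ^ (ε * ((σ.k - E.k0 : ℕ) : ℝ)) * 2 ^ (-(g * ((σ.k - E.k0 : ℕ) : ℝ))) * E.ka * w) :=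
          mul_le_mul_of_nonneg_right (le_max_left _ _)
            (mul_nonneg (mul_nonneg (mul_nonneg (gn_two_pos _).le (gn_two_pos _).le) hE.ka_pos.le) hw.le)
      _ = (max Cs 1 * 2 ^ ((ε - g) * ((σ.k - E.k0 : ℕ) : ℝ)) * E.ka) * w := by
          rw [← gn_two_add]
          have : ε * ((σ.k - E.k0 : ℕ) : ℝ) + -(g * ((σ.k - E.k0 : ℕ) : ℝ)) = (ε - g) * ((σ.k - E.k0 : ℕ) : ℝ) := by ring
          rw [this]
          ring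
  exact le_of_mul_le_mul_right h3 hw

/-- **(TS)** the tail rate after the level, for every polynomial regularity `κ' ≥ Cr · 2β`; package `D ≥ C + 1`.
PLAN: `Cr` from `gn_lvl_post_reg`; `gn_tail` (`γ = Γ`) with the package `D` (`gn_cls_mono`), the cut `gn_lvl_cut`, `b' = σ.b + 1`, `gn_reg_mono`; the sum of `‖φ_i‖²` is `post` by definition. -/
theorem gn_ss2_tail (M : Mdl) (g : ℝ) (hG : M.Gen g) (C D : ℕ) (hD : C + 1 ≤ D) (a0 ε : ℝ) (ha : 0 < a0) (hε : 0 < ε) :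
    ∃ Cr : ℝ, 1 ≤ Cr ∧ ∃ A n0 : ℕ, ∀ (p : M.Par) (E : Xp (M.sys p)), n0 ≤ E.n → M.Cls C A p E →
      ∀ (st1 st2 : List (Stg (M.sys p))) (σ : Stg (M.sys p)) (β κ' : ℝ), E.LvlAt st1 σ st2 β → a0 * E.n ≤ ((E.kf - σ.k : ℕ) : ℝ) →
        Cr * (2 * β) ≤ κ' → E.s ^ (D : ℝ) * E.ka ≤ κ' → κ' ≤ E.s ^ (-(D : ℝ)) * E.ka →
        E.rd ≤ 2 ^ (-((1 / 2 - M.Gam - ε) * ((E.kf - σ.k : ℕ) : ℝ))) * Real.sqrt κ' * (E.post st1 σ + E.s ^ (D : ℝ) * E.e) := by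
  obtain ⟨Cr, hCr, HR⟩ := gn_lvl_post_reg M g hG C
  obtain ⟨A, n0, H⟩ := gn_tail M g hG M.Gam (gn_rate_gam M g hG) D a0 ε ha hε
  refine ⟨Cr, hCr, A, n0, fun p E hn hE st1 st2 σ β κ' hl hk h1 h2 h3 => ?_⟩
  obtain ⟨-, -, -, b4, -, -⟩ := gn_ss2_bk E hE.2.2.1 hE.2.2.2.1 hl
  have hED : M.Cls D A p E := gn_cls_mono M hG.scale (by omega) hE
  exact H p E hn hED σ.k (σ.b + 1) (st1 ++ [σ]) st2 κ' (gn_lvl_cut E hl) hk (by omega) h2 h3 (fun i hi =>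
    ⟨(HR p E hE.1 hE.2.1 hE.2.2.2.1 st1 st2 σ β hl i hi).1,
      gn_reg_mono (hG.tight p hE.1) ((HR p E hE.1 hE.2.1 hE.2.2.2.1 st1 st2 σ β hl i hi).2 (σ.b + 1) (by omega)) h1⟩)

/-- **(TS-min)**: the same for a set `S` of labels whose exponents relative to the tails are `≤ p - ξ`.   The constant `Cr` is the one of `gn_lvl_post_reg M g hG C` (any `Cr` with its property is allowed).
PLAN: `gn_tail_min` (`hmin`; `st2.length ≤ E.st.length ≤ K`). -/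
theorem gn_ss2_tail_min (M : Mdl) (g : ℝ) (hG : M.Gen g) (K : ℕ∞) (p : ℝ) (hmin : M.PMin K p) (ξ : ℝ) (hξ : 0 < ξ) :
    ∃ τ : ℝ, 0 < τ ∧ ∀ (C D : ℕ), C + 1 ≤ D → ∀ a0 : ℝ, 0 < a0 → ∃ A n0 : ℕ, ∀ (q : M.Par) (E : Xp (M.sys q)), n0 ≤ E.n → M.Cls C A q E → (E.st.length : ℕ∞) ≤ K →
      ∀ (st1 st2 : List (Stg (M.sys q))) (σ : Stg (M.sys q)) (β κ' : ℝ) (S : Finset (Fin E.L)), E.LvlAt st1 σ st2 β → a0 * E.n ≤ ((E.kf - σ.k : ℕ) : ℝ) →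
        (∀ i ∈ ivs E.k0 E.i0 σ.k, (M.sys q).Reg (tmL σ.k i) σ.k (σ.b + 1) κ' (E.at' σ.k i (st1 ++ [σ]))) →
        E.s ^ (D : ℝ) * E.ka ≤ κ' → κ' ≤ E.s ^ (-(D : ℝ)) * E.ka →
        (∀ l ∈ S, κ' * E.w l * 2 ^ (-((p - ξ) * ((E.kf - σ.k : ℕ) : ℝ))) ≤ E.m l) →
        ∑ l ∈ S, E.tr l ≤ 2 ^ (-((1 / 2 - M.Gam + τ) * ((E.kf - σ.k : ℕ) : ℝ))) * Real.sqrt κ' * (E.post st1 σ + E.s ^ (D : ℝ) * E.e) := by
  obtain ⟨τ, hτ, H0⟩ := gn_tail_min M g hG K p hmin ξ hξ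
  refine ⟨τ, hτ, fun C D hD a0 ha => ?_⟩
  obtain ⟨A, n0, H⟩ := H0 D a0 ha
  refine ⟨A, n0, fun q E hn hE hK st1 st2 σ β κ' S hl hk hreg h2 h3 hS => ?_⟩
  obtain ⟨-, b2, -, b4, -, -⟩ := gn_ss2_bk E hE.2.2.1 hE.2.2.2.1 hl
  have hED : M.Cls D A q E := gn_cls_mono M hG.scale (by omega) hE
  have hK2 : (st2.length : ℕ∞) ≤ K := le_trans (by exact_mod_cast b2) hK
  exact H q E hn hED σ.k (σ.b + 1) (st1 ++ [σ]) st2 κ' S (gn_lvl_cut E hl) hK2 hk (by omega) h2 h3 (fun i hi =>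
    ⟨by rw [gn_lvl_at]; exact gn_tz_pl (hG.tight q hE.1) _ _ _ _ _, hreg i hi⟩) hS

end Claimed.Agent.R256
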