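-- KEEP
import Claimed.Agent.R256.Gen.SS2a

/-!
# Row 256, GENERIC THEORY : SS2          (statement helper207; architect + owner helper199; prefix `gn_`)

ASSEMBLY of `Gen/SS2a.lean` + `gn_ss1_set`: THE LEAF IS `gn_ss2K` (read `p0 := p`, `d0 := dOf p` below); `gn_ss2` (masked), `gn_ss2f` (free) are proved corollaries.   With `x = β/κ`, `Z = raw/e`, `Y = post/e`, `j = σ.k - k0`, `n' = n - j`:
  (1) `Z √x ≤ 2^((Γ+ε-1/2) j)`                                   `gn_ss2_pre`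
  (2) `x ≤ Cs 2^((ε-g) j)`                                        `gn_ss2_beta_le`
  (3) `2^((Γ-τ) n) ≤ val ≤ 2^(j/2 + (Γ+ε) n') √y (Y + s^D)`        `gn_ss2_tail`,   `y = κ'/κ ≥ 2 Cr x` polynomial
  (4) `x ≥ 2^(-(p0-ξ1) j)  ⟹  Z √x ≤ 2^((Γ-τ1-1/2) j)`            `gn_ss2_pre_min`
  (5) `y 2^(-(p0-ξ3) n') ≤ s^(p0+ξ2)  ⟹  val/2 ≤ 2^(j/2 + (Γ-τ3) n') √y (Y + s^D)`      `gn_ss1_set`, `gn_ss2_tail_min`
  (6) `0 < Y ≤ Z`, `Y ≤ 2^j`                                      `gn_post_pos`, `gn_post_le_raw`, `gn_post_le`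
Step 0: `2 Cr x ≥ s^8` (else (3) with `y = s^8` contradicts `val ≥ 2^((Γ-τ) n)`).   Step 1: (3) with `y = 2 Cr x`; the term `s^D` is at most half.   Step 2: (4) is impossible if `τ + 2ε < τ1 a0`: upper bound of `β`.
Step 3: `x < 2^(-p0 j - ξ n)` gives (5), impossible with (1) if `τ + 2ε < τ3 a0`: lower bound of `β`.   Step 4: (1) and Step 1 with the two bounds of `x` give `raw`, `post`.
-/

set_option autoImplicit false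

namespace Claimed.Agent.R256

open MeasureTheory

theorem gn_exists_log {a b : ℝ} (ha : 0 < a) (hb : 0 < b) : ∃ t : ℝ, b = a * 2 ^ t := by
  refine ⟨Real.logb 2 (b / a), ?_⟩
  rw [Real.rpow_logb (by norm_num) (by norm_num) (div_pos hb ha)]
  field_simp

theorem gn_log_le {c a b : ℝ} (hc : 0 < c) (h : c * 2 ^ a ≤ c * 2 ^ b) : a ≤ b :=
  (Real.rpow_le_rpow_left_iff (by norm_num : (1 : ℝ) < 2)).1 (le_of_mul_le_mul_left h hc)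

/-- the arithmetic of SS2 in the logarithmic scale -/
theorem gn_ss2_arith (n j n' Γ τ p ξ τ1 τ3 a0 D lx lZ lY lW : ℝ) (hn' : n' = n - j) (hj0 : a0 * n ≤ j) (hj1 : j ≤ (1 - a0) * n) (ha : 0 < a0)
    (hΓ : 0 ≤ Γ) (hτ : 0 < τ) (hτ4 : τ ≤ 1 / 4) (hτξ : τ ≤ ξ / 8) (hτ1 : τ ≤ τ1 * a0 / 4) (hτ3 : τ ≤ τ3 * a0 / 4) (hbig : 4 ≤ τ * n) (hD : 8 ≤ D)
    (f1 : lZ + lx / 2 ≤ (Γ + τ - 1 / 2) * j) (f2 : lx ≤ τ * n)
    (key3 : ∀ ly : ℝ, lx + τ * n ≤ ly → -(D * n) ≤ ly → ly ≤ D * n → (Γ - τ) * n ≤ n / 2 + -((1 / 2 - Γ - τ) * n') + ly / 2 + lW)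
    (f4 : -((p - ξ) * j) ≤ lx → lZ + lx / 2 ≤ (Γ - τ1 - 1 / 2) * j)
    (key5 : ∀ ly : ℝ, lx + τ * n ≤ ly → -(D * n) ≤ ly → ly ≤ D * n → ly + -((p - ξ / 4) * n') ≤ -((p + ξ / 4) * n) →
      (Γ - τ) * n ≤ n / 2 + (1 + -((1 / 2 - Γ + τ3) * n')) + ly / 2 + lW)
    (f6a : lY ≤ lZ) (f6b : lW ≤ j + 1) (f6c : -(D * n) + 1 ≤ lW → lW - 1 ≤ lY) :
    -(p * j) - ξ * n ≤ lx ∧ lx ≤ -(p * j) + ξ * n ∧ (Γ + (p - 1) / 2) * j - ξ * n ≤ lY ∧ lZ ≤ (Γ + (p - 1) / 2) * j + ξ * n := by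
  subst hn'
  have hn0 : 0 < n := by
    by_contra h
    have : τ * n ≤ 0 := mul_nonpos_of_nonneg_of_nonpos hτ.le (not_lt.1 h)
    linarith
  have hτn : τ * n ≤ 1 / 4 * n := mul_le_mul_of_nonneg_right hτ4 hn0.le
  have han : 0 ≤ a0 * n := mul_nonneg ha.le hn0.le
  have hj : 0 ≤ j := by linarith
  have hjn : j ≤ n := by linarith
  have hΓj : 0 ≤ Γ * j := mul_nonneg hΓ hj
  have hτj : 0 ≤ τ * j := mul_nonneg hτ.le hj
  have hτjn : τ * j ≤ τ * n := mul_le_mul_of_nonneg_left hjn hτ.le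
  have hDn : 8 * n ≤ D * n := mul_le_mul_of_nonneg_right hD hn0.le
  have hξ : 0 < ξ := by linarith
  have hξj : ξ * j ≤ ξ * n := mul_le_mul_of_nonneg_left hjn hξ.le
  have hξj0 : 0 ≤ ξ * j := mul_nonneg hξ.le hj
  have hτξn : τ * n ≤ ξ / 8 * n := mul_le_mul_of_nonneg_right hτξ hn0.le
  have h1 : -(D * n) ≤ lx + τ * n := by
    by_contra hcon
    have := key3 (-(D * n)) (by linarith) (le_refl _) (by linarith)
    linarith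
  have h2 : lx + τ * n ≤ D * n := by linarith
  have k3 := key3 (lx + τ * n) (le_refl _) h1 h2
  have h4 : lW - 1 ≤ lY := f6c (by linarith)
  have G2 : lx ≤ -(p * j) + ξ * n := by
    by_contra hcon
    have h5 := f4 (by linarith)
    have h6 : τ1 * (a0 * n) ≤ τ1 * j := by
      have : 0 ≤ τ1 := by
        by_contra h
        have : τ1 * a0 < 0 := mul_neg_of_neg_of_pos (not_le.1 h) ha
        linarith
      exact mul_le_mul_of_nonneg_left hj0 this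
    have h7 : τ * n ≤ τ1 * a0 / 4 * n := mul_le_mul_of_nonneg_right hτ1 hn0.le
    linarith
  have G1 : -(p * j) - ξ * n ≤ lx := by
    by_contra hcon
    have h5 := key5 (lx + τ * n) (le_refl _) h1 h2 (by linarith)
    have h6 : τ3 * (a0 * n) ≤ τ3 * (n - j) := by
      have : 0 ≤ τ3 := by
        by_contra h
        have : τ3 * a0 < 0 := mul_neg_of_neg_of_pos (not_le.1 h) ha
        linarith
      exact mul_le_mul_of_nonneg_left (by linarith) this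
    have h7 : τ * n ≤ τ3 * a0 / 4 * n := mul_le_mul_of_nonneg_right hτ3 hn0.le
    linarith
  refine ⟨G1, G2, ?_, ?_⟩
  · linarith
  · linarith

/-- a bound of the readout in the logarithmic scale -/
theorem gn_val_log {P : PkSys} (E : Xp P) (hE : E.Valid) {a b ly lW : ℝ} (h1 : E.rd ≤ 2 ^ a * Real.sqrt (E.ka * 2 ^ ly) * (E.e * 2 ^ lW))
    (h2 : (2 : ℝ) ^ b ≤ E.val) : b ≤ (E.n : ℝ) / 2 + a + ly / 2 + lW := by
  have he := hE.e_pos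
  have hk : 0 < Real.sqrt E.ka := Real.sqrt_pos.mpr hE.ka_pos
  have h3 : E.val ≤ 2 ^ ((E.n : ℝ) / 2 + a + ly / 2 + lW) := by
    unfold Xp.val
    calc 2 ^ ((E.n : ℝ) / 2) / (E.e * Real.sqrt E.ka) * E.rd
        ≤ 2 ^ ((E.n : ℝ) / 2) / (E.e * Real.sqrt E.ka) * (2 ^ a * Real.sqrt (E.ka * 2 ^ ly) * (E.e * 2 ^ lW)) := by
          have := gn_two_pos ((E.n : ℝ) / 2)
          gcongr
      _ = 2 ^ ((E.n : ℝ) / 2 + a + ly / 2 + lW) := by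
        rw [Real.sqrt_mul hE.ka_pos.le, gn_two_sqrt, gn_two_add, gn_two_add, gn_two_add]
        field_simp
  exact (Real.rpow_le_rpow_left_iff (by norm_num : (1 : ℝ) < 2)).1 (h2.trans h3)

/-- **SS2, general form** (THE LEAF): `K : ℕ∞`, any `p ∈ [1, 3]` with `PMin K p`, `d = dOf p` -/
theorem gn_ss2K (M : Mdl) (g : ℝ) (hG : M.Gen g) (hΓ : 0 < M.Gam) (K : ℕ∞) (p : ℝ) (hmin : M.PMin K p) (hp1 : 1 ≤ p) (hp3 : p ≤ 3)
    (a0 ξ : ℝ) (ha : 0 < a0) (hξ : 0 < ξ) :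
    ∃ τ : ℝ, 0 < τ ∧ ∀ C : ℕ, ∃ A n0 : ℕ, ∀ (q : M.Par) (E : Xp (M.sys q)), n0 ≤ E.n → M.Cls C A q E → (E.st.length : ℕ∞) ≤ K →
      E.tw ≤ E.e / E.ka * E.s ^ (-(p + M.dOf p) - τ) → 2 ^ ((M.Gam - τ) * E.n) ≤ E.val →
      ∀ (st1 st2 : List (Stg (M.sys q))) (σ : Stg (M.sys q)) (β : ℝ), E.LvlAt st1 σ st2 β →
        a0 * E.n ≤ ((σ.k - E.k0 : ℕ) : ℝ) → ((σ.k - E.k0 : ℕ) : ℝ) ≤ (1 - a0) * E.n →
        E.ka * (2 : ℝ) ^ (-(p * ((σ.k - E.k0 : ℕ) : ℝ)) - ξ * E.n) ≤ β ∧ β ≤ E.ka * (2 : ℝ) ^ (-(p * ((σ.k - E.k0 : ℕ) : ℝ)) + ξ * E.n) ∧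
        E.e * (2 : ℝ) ^ (M.dOf p * ((σ.k - E.k0 : ℕ) : ℝ) - ξ * E.n) ≤ E.post st1 σ ∧
        E.raw st1 σ ≤ E.e * (2 : ℝ) ^ (M.dOf p * ((σ.k - E.k0 : ℕ) : ℝ) + ξ * E.n) := by
  obtain ⟨τ1, hτ1, H4⟩ := gn_ss2_pre_min M g hG K p hmin ξ hξ
  obtain ⟨τ3, hτ3, H5⟩ := gn_ss2_tail_min M g hG K p hmin (ξ / 4) (by positivity)
  obtain ⟨τs, hτs, Hs⟩ := gn_ss1_set M g hG K p hmin (ξ / 4) (by positivity)
  obtain ⟨τ, hτdef⟩ : ∃ τ : ℝ, τ = min (min τs (1 / 4)) (min (ξ / 8) (min (τ1 * a0 / 4) (τ3 * a0 / 4))) := ⟨_, rfl⟩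
  have hτ : 0 < τ := by
    rw [hτdef]
    exact lt_min (lt_min hτs (by norm_num)) (lt_min (by positivity) (lt_min (by positivity) (by positivity)))
  have hτa : τ ≤ τs := by rw [hτdef]; exact (min_le_left _ _).trans (min_le_left _ _)
  have hτb : τ ≤ 1 / 4 := by rw [hτdef]; exact (min_le_left _ _).trans (min_le_right _ _)
  have hτc : τ ≤ ξ / 8 := by rw [hτdef]; exact (min_le_right _ _).trans (min_le_left _ _)
  have hτd : τ ≤ τ1 * a0 / 4 := by rw [hτdef]; exact (min_le_right _ _).trans ((min_le_right _ _).trans (min_le_left _ _))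
  have hτe : τ ≤ τ3 * a0 / 4 := by rw [hτdef]; exact (min_le_right _ _).trans ((min_le_right _ _).trans (min_le_right _ _))
  refine ⟨τ, hτ, fun C => ?_⟩
  obtain ⟨A1, n1, H1⟩ := gn_ss2_pre M g hG C a0 τ ha hτ
  obtain ⟨A2, n2, H4'⟩ := H4 C a0 ha
  obtain ⟨Cs, hCs, H2⟩ := gn_ss2_beta_le M g hG C τ hτ
  obtain ⟨Cr3, hCr3, A3, n3, H3⟩ := gn_ss2_tail M g hG C (C + 8) (by omega) a0 τ ha hτ
  obtain ⟨A4, n4, H5'⟩ := H5 C (C + 8) (by omega) a0 ha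
  obtain ⟨A5, n5, Hs'⟩ := Hs C
  obtain ⟨Cr5, hCr5, H6⟩ := gn_lvl_post_reg M g hG C
  obtain ⟨n6, hn6⟩ := gn_absorb (2 * max Cr3 Cr5) τ hτ
  obtain ⟨n7, hn7⟩ := gn_absorb Cs τ hτ
  obtain ⟨n8, hn8⟩ := exists_nat_ge (4 / τ)
  refine ⟨A1 + A2 + A3 + A4 + A5, n1 + n2 + n3 + n4 + n5 + n6 + n7 + n8, fun q E hn hE hK htw hval st1 st2 σ β h hj0 hj1 => ?_⟩
  have hT := hG.tight q hE.1
  have hV := hE.2.1
  have hE1 := gn_cls_anti M hG.scale (show A1 ≤ A1 + A2 + A3 + A4 + A5 by omega) hE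
  have hE2 := gn_cls_anti M hG.scale (show A2 ≤ A1 + A2 + A3 + A4 + A5 by omega) hE
  have hE3 := gn_cls_anti M hG.scale (show A3 ≤ A1 + A2 + A3 + A4 + A5 by omega) hE
  have hE4 := gn_cls_anti M hG.scale (show A4 ≤ A1 + A2 + A3 + A4 + A5 by omega) hE
  have hE5 := gn_cls_anti M hG.scale (show A5 ≤ A1 + A2 + A3 + A4 + A5 by omega) hE
  have he := hV.e_pos
  have hκ := hV.ka_pos
  have hvalpos : 0 < E.val := lt_of_lt_of_le (gn_two_pos _) hval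
  have hrd : 0 < E.rd := by
    by_contra hc
    have h0 : E.rd = 0 := le_antisymm (not_lt.1 hc) (gn_rd_nonneg E hV)
    unfold Xp.val at hvalpos
    rw [h0, mul_zero] at hvalpos
    exact lt_irrefl _ hvalpos
  have hpost := gn_post_pos E hV h hrd
  have hpr := gn_post_le_raw hT E hV h
  have hraw : 0 < E.raw st1 σ := lt_of_lt_of_le hpost hpr
  have hβ := gn_lvl_beta_pos hT E hV h hraw
  have hsD : 0 < E.s ^ ((C + 8 : ℕ) : ℝ) := Real.rpow_pos_of_pos (gn_s_pos E) _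
  obtain ⟨lx, hlx⟩ := gn_exists_log hκ hβ
  obtain ⟨lZ, hlZ⟩ := gn_exists_log he hraw
  obtain ⟨lY, hlY⟩ := gn_exists_log he hpost
  obtain ⟨lW, hlW⟩ := gn_exists_log he (show 0 < E.post st1 σ + E.s ^ ((C + 8 : ℕ) : ℝ) * E.e by positivity)
  obtain ⟨n, hndef⟩ : ∃ n : ℝ, n = E.n := ⟨_, rfl⟩
  obtain ⟨j, hjdef⟩ : ∃ j : ℝ, j = ((σ.k - E.k0 : ℕ) : ℝ) := ⟨_, rfl⟩
  obtain ⟨n', hn'def⟩ : ∃ n' : ℝ, n' = ((E.kf - σ.k : ℕ) : ℝ) := ⟨_, rfl⟩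
  obtain ⟨D, hDdef⟩ : ∃ D : ℝ, D = ((C + 8 : ℕ) : ℝ) := ⟨_, rfl⟩
  rw [← hndef, ← hjdef] at hj0 hj1 ⊢
  rw [← hndef] at hval
  have hnn : n' = n - j := by
    have h1 := h.cut.2.2.2.1
    have h2 := h.cut.2.2.2.2
    have h3 : E.kf - σ.k + (σ.k - E.k0) = E.n := by
      unfold Xp.kf at h2 ⊢
      omega
    have h4 : ((E.kf - σ.k : ℕ) : ℝ) + ((σ.k - E.k0 : ℕ) : ℝ) = E.n := by exact_mod_cast h3
    rw [hn'def, hndef, hjdef]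
    linarith
  have han' : a0 * E.n ≤ ((E.kf - σ.k : ℕ) : ℝ) := by
    rw [← hndef, ← hn'def, hnn]
    linarith
  have hD8 : 8 ≤ D := by
    rw [hDdef]
    push_cast
    have : (0 : ℝ) ≤ C := Nat.cast_nonneg _
    linarith
  have hbig : 4 ≤ τ * n := by
    have h1 : (4 / τ : ℝ) ≤ n := by
      rw [hndef]
      refine hn8.trans ?_
      exact_mod_cast (show n8 ≤ E.n by omega)
    rw [div_le_iff₀ hτ] at h1
    linarith
  have hj0' : 0 ≤ j := by rw [hjdef]; exact Nat.cast_nonneg _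
  have hc6 : 2 * max Cr3 Cr5 ≤ 2 ^ (τ * n) := by rw [hndef]; exact hn6 E.n (by omega)
  have hc7 : Cs ≤ 2 ^ (τ * n) := by rw [hndef]; exact hn7 E.n (by omega)
  have hbk : β / E.ka = 2 ^ lx := by rw [hlx]; field_simp
  have hsDe : E.s ^ ((C + 8 : ℕ) : ℝ) = 2 ^ (-(D * n)) := by rw [gn_s_rpow, hDdef, hndef]
  -- the facts
  have f1 : lZ + lx / 2 ≤ (M.Gam + τ - 1 / 2) * j := by
    have h1 := H1 q E (by omega) hE1 st1 st2 σ β h hβ (by rw [← hndef, ← hjdef]; exact hj0)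
    rw [hlZ, hbk, gn_two_sqrt, mul_assoc, ← gn_two_add, ← hjdef] at h1
    exact gn_log_le he h1
  have f2 : lx ≤ τ * n := by
    have h1 := H2 q E hE.1 hV hE.2.2.1 hE.2.2.2.1 st1 st2 σ β h hraw
    rw [← hjdef] at h1
    refine gn_log_le hκ ?_
    rw [← hlx]
    have h2 : (2 : ℝ) ^ ((τ - g) * j) ≤ 1 := by
      apply Real.rpow_le_one_of_one_le_of_nonpos (by norm_num)
      have := hG.g_pos
      exact mul_nonpos_of_nonpos_of_nonneg (by linarith) hj0'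
    have h3 := gn_two_pos ((τ - g) * j)
    calc β ≤ Cs * 2 ^ ((τ - g) * j) * E.ka := h1
      _ ≤ 2 ^ (τ * n) * 1 * E.ka := by gcongr
      _ = E.ka * 2 ^ (τ * n) := by ring
  have hkap : ∀ (Cr ly : ℝ), Cr ≤ max Cr3 Cr5 → lx + τ * n ≤ ly → Cr * (2 * β) ≤ E.ka * 2 ^ ly := by
    intro Cr ly hCr h1
    have h0 : 0 < E.ka * 2 ^ lx := mul_pos hκ (gn_two_pos _)
    rw [hlx]
    calc Cr * (2 * (E.ka * 2 ^ lx)) = (2 * Cr) * (E.ka * 2 ^ lx) := by ring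
      _ ≤ 2 ^ (τ * n) * (E.ka * 2 ^ lx) := by
        have : 2 * Cr ≤ 2 ^ (τ * n) := le_trans (by linarith) hc6
        gcongr
      _ = E.ka * 2 ^ (lx + τ * n) := by rw [gn_two_add]; ring
      _ ≤ E.ka * 2 ^ ly := mul_le_mul_of_nonneg_left (gn_two_mono h1) hκ.le
  have hlo : ∀ ly : ℝ, -(D * n) ≤ ly → E.s ^ ((C + 8 : ℕ) : ℝ) * E.ka ≤ E.ka * 2 ^ ly := by
    intro ly h2
    rw [hsDe, mul_comm]
    exact mul_le_mul_of_nonneg_left (gn_two_mono h2) hκ.le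
  have hhi : ∀ ly : ℝ, ly ≤ D * n → E.ka * 2 ^ ly ≤ E.s ^ (-((C + 8 : ℕ) : ℝ)) * E.ka := by
    intro ly h3
    rw [gn_s_rpow, ← hDdef, ← hndef, mul_comm _ E.ka]
    exact mul_le_mul_of_nonneg_left (gn_two_mono (by linarith)) hκ.le
  have key3 : ∀ ly : ℝ, lx + τ * n ≤ ly → -(D * n) ≤ ly → ly ≤ D * n → (M.Gam - τ) * n ≤ n / 2 + -((1 / 2 - M.Gam - τ) * n') + ly / 2 + lW := by
    intro ly h1 h2 h3
    have h4 := H3 q E (by omega) hE3 st1 st2 σ β (E.ka * 2 ^ ly) h han' (hkap Cr3 ly (le_max_left _ _) h1) (hlo ly h2) (hhi ly h3)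
    rw [hlW, ← hn'def] at h4
    have := gn_val_log E hV h4 hval
    rw [← hndef] at this
    exact this
  have f4 : -((p - ξ) * j) ≤ lx → lZ + lx / 2 ≤ (M.Gam - τ1 - 1 / 2) * j := by
    intro hx
    have h1 := H4' q E (by omega) hE2 hK st1 st2 σ β h hβ (by rw [← hndef, ← hjdef]; exact hj0)
      (by rw [← hjdef, hlx]; exact mul_le_mul_of_nonneg_left (gn_two_mono hx) hκ.le)
    rw [hlZ, hbk, gn_two_sqrt, mul_assoc, ← gn_two_add, ← hjdef] at h1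
    exact gn_log_le he h1
  have key5 : ∀ ly : ℝ, lx + τ * n ≤ ly → -(D * n) ≤ ly → ly ≤ D * n → ly + -((p - ξ / 4) * n') ≤ -((p + ξ / 4) * n) →
      (M.Gam - τ) * n ≤ n / 2 + (1 + -((1 / 2 - M.Gam + τ3) * n')) + ly / 2 + lW := by
    intro ly h1 h2 h3 h4
    have htw' : E.tw ≤ E.e / E.ka * E.s ^ (-(p + M.dOf p) - τs) := by
      refine htw.trans ?_
      have : E.s ^ (-(p + M.dOf p) - τ) ≤ E.s ^ (-(p + M.dOf p) - τs) := gn_s_anti E (by linarith)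
      have h0 : 0 ≤ E.e / E.ka := by positivity
      exact mul_le_mul_of_nonneg_left this h0
    have hval' : (2 : ℝ) ^ ((M.Gam - τs) * E.n) ≤ E.val := by
      refine le_trans (gn_two_mono ?_) hval
      rw [hndef]
      exact mul_le_mul_of_nonneg_right (by linarith) (Nat.cast_nonneg _)
    obtain ⟨S, hS, hrdS⟩ := Hs' q E (by omega) hE5 hK htw' hval'
    have hσb : σ.b ≤ C := hE.2.2.2.1.2.2 σ (by rw [h.cut.1]; simp)
    have h5 := H5' q E (by omega) hE4 hK st1 st2 σ β (E.ka * 2 ^ ly) S h han'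
      (fun i hi => gn_reg_mono hT ((H6 q E hE.1 hV hE.2.2.2.1 st1 st2 σ β h i hi).2 (σ.b + 1) (by omega)) (hkap Cr5 ly (le_max_right _ _) h1))
      (hlo ly h2) (hhi ly h3) (fun l hl => by
        have hw := hV.w_pos l
        rw [← hn'def]
        calc E.ka * 2 ^ ly * E.w l * 2 ^ (-((p - ξ / 4) * n')) = E.ka * E.w l * 2 ^ (ly + -((p - ξ / 4) * n')) := by rw [gn_two_add]; ring
          _ ≤ E.ka * E.w l * 2 ^ (-((p + ξ / 4) * n)) := mul_le_mul_of_nonneg_left (gn_two_mono h4) (by positivity)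
          _ = E.ka * E.w l * E.s ^ (p + ξ / 4) := by rw [gn_s_rpow, hndef]
          _ ≤ E.m l := (hS l hl).1)
    rw [hlW, ← hn'def] at h5
    have h6 : E.rd ≤ 2 ^ (1 + -((1 / 2 - M.Gam + τ3) * n')) * Real.sqrt (E.ka * 2 ^ ly) * (E.e * 2 ^ lW) := by
      refine hrdS.trans ?_
      rw [gn_two_add, Real.rpow_one, mul_assoc, mul_assoc]
      rw [mul_assoc] at h5
      exact mul_le_mul_of_nonneg_left h5 (by norm_num)
    have := gn_val_log E hV h6 hval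
    rw [← hndef] at this
    exact this
  have f6a : lY ≤ lZ := by
    rw [hlY, hlZ] at hpr
    exact gn_log_le he hpr
  have f6b : lW ≤ j + 1 := by
    refine gn_log_le he ?_
    rw [← hlW]
    have h1 := gn_post_le hT E hV h
    rw [← gn_two_nat, ← hjdef] at h1
    have h2 : E.s ^ ((C + 8 : ℕ) : ℝ) ≤ 1 := Real.rpow_le_one (gn_s_pos E).le (gn_s_le_one E) (Nat.cast_nonneg _)
    have h3 : (1 : ℝ) ≤ 2 ^ j := Real.one_le_rpow (by norm_num) hj0'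
    rw [gn_two_add, Real.rpow_one]
    have h4 : E.s ^ ((C + 8 : ℕ) : ℝ) * E.e ≤ 2 ^ j * E.e := mul_le_mul_of_nonneg_right (h2.trans h3) he.le
    linarith
  have f6c : -(D * n) + 1 ≤ lW → lW - 1 ≤ lY := by
    intro hw
    refine gn_log_le he ?_
    rw [← hlY]
    have h1 : (2 : ℝ) ^ (-(D * n)) ≤ 2 ^ (lW - 1) := gn_two_mono (by linarith)
    have h2 : (2 : ℝ) ^ lW = 2 * 2 ^ (lW - 1) := by
      rw [show lW = 1 + (lW - 1) by ring, gn_two_add, Real.rpow_one]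
      ring_nf
    rw [hsDe, h2] at hlW
    have h5 : (2 : ℝ) ^ (-(D * n)) * E.e ≤ 2 ^ (lW - 1) * E.e := mul_le_mul_of_nonneg_right h1 he.le
    linarith
  obtain ⟨G1, G2, G3, G4⟩ := gn_ss2_arith n j n' M.Gam τ p ξ τ1 τ3 a0 D lx lZ lY lW hnn hj0 hj1 ha hΓ.le hτ hτb hτc hτd hτe hbig hD8 f1 f2 key3 f4 key5
    f6a f6b f6c
  refine ⟨?_, ?_, ?_, ?_⟩
  · rw [hlx]; exact mul_le_mul_of_nonneg_left (gn_two_mono G1) hκ.le
  · rw [hlx]; exact mul_le_mul_of_nonneg_left (gn_two_mono G2) hκ.le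
  · rw [hlY]; exact mul_le_mul_of_nonneg_left (gn_two_mono G3) he.le
  · rw [hlZ]; exact mul_le_mul_of_nonneg_left (gn_two_mono G4) he.le

/-- **SS2**, masked regime = (cyl:split-benchmarks) = (CE): a preserving peel level at relative depth `a ∈ [a0, 1-a0]`, `a n = σ.k - k0` -/
theorem gn_ss2 (M : Mdl) (g : ℝ) (hG : M.Gen g) (hΓ : 0 < M.Gam) (a0 ξ : ℝ) (ha : 0 < a0) (hξ : 0 < ξ) :
    ∃ τ : ℝ, 0 < τ ∧ ∀ C : ℕ, ∃ A n0 : ℕ, ∀ (p : M.Par) (E : Xp (M.sys p)), n0 ≤ E.n → M.Cls C A p E →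
      E.tw ≤ E.e / E.ka * E.s ^ (-(M.p0 + M.d0) - τ) → 2 ^ ((M.Gam - τ) * E.n) ≤ E.val →
      ∀ (st1 st2 : List (Stg (M.sys p))) (σ : Stg (M.sys p)) (β : ℝ), E.LvlAt st1 σ st2 β →
        a0 * E.n ≤ ((σ.k - E.k0 : ℕ) : ℝ) → ((σ.k - E.k0 : ℕ) : ℝ) ≤ (1 - a0) * E.n →
        E.ka * (2 : ℝ) ^ (-(M.p0 * ((σ.k - E.k0 : ℕ) : ℝ)) - ξ * E.n) ≤ β ∧ β ≤ E.ka * (2 : ℝ) ^ (-(M.p0 * ((σ.k - E.k0 : ℕ) : ℝ)) + ξ * E.n) ∧
        E.e * (2 : ℝ) ^ (M.d0 * ((σ.k - E.k0 : ℕ) : ℝ) - ξ * E.n) ≤ E.post st1 σ ∧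
        E.raw st1 σ ≤ E.e * (2 : ℝ) ^ (M.d0 * ((σ.k - E.k0 : ℕ) : ℝ) + ξ * E.n) := by
  obtain ⟨τ, hτ, H⟩ := gn_ss2K M g hG hΓ ⊤ M.p0 (gn_pmin_p0 M g hG hΓ) (hG.g_pos.trans (gn_p0_ge M g hG hΓ))
    (by have := gn_p0_le M g hG hΓ; linarith) a0 ξ ha hξ
  refine ⟨τ, hτ, fun C => ?_⟩
  obtain ⟨A, n0, H'⟩ := H C
  exact ⟨A, n0, fun p E hn hE => H' p E hn hE le_top⟩

/-- **SS2**, free regime: `K` = bound for the number of stages, chosen BEFORE `τ` -/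
theorem gn_ss2f (M : Mdl) (g : ℝ) (hG : M.Gen g) (hΓ : 0 < M.Gam) (a0 ξ : ℝ) (ha : 0 < a0) (hξ : 0 < ξ) (K : ℕ) :
    ∃ τ : ℝ, 0 < τ ∧ ∀ C : ℕ, ∃ A n0 : ℕ, ∀ (p : M.Par) (E : Xp (M.sys p)), n0 ≤ E.n → M.Cls C A p E → E.st.length ≤ K →
      E.tw ≤ E.e / E.ka * E.s ^ (-(M.p0f + M.d0f) - τ) → 2 ^ ((M.Gam - τ) * E.n) ≤ E.val →
      ∀ (st1 st2 : List (Stg (M.sys p))) (σ : Stg (M.sys p)) (β : ℝ), E.LvlAt st1 σ st2 β →
        a0 * E.n ≤ ((σ.k - E.k0 : ℕ) : ℝ) → ((σ.k - E.k0 : ℕ) : ℝ) ≤ (1 - a0) * E.n →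
        E.ka * (2 : ℝ) ^ (-(M.p0f * ((σ.k - E.k0 : ℕ) : ℝ)) - ξ * E.n) ≤ β ∧ β ≤ E.ka * (2 : ℝ) ^ (-(M.p0f * ((σ.k - E.k0 : ℕ) : ℝ)) + ξ * E.n) ∧
        E.e * (2 : ℝ) ^ (M.d0f * ((σ.k - E.k0 : ℕ) : ℝ) - ξ * E.n) ≤ E.post st1 σ ∧
        E.raw st1 σ ≤ E.e * (2 : ℝ) ^ (M.d0f * ((σ.k - E.k0 : ℕ) : ℝ) + ξ * E.n) := by
  obtain ⟨τ, hτ, H⟩ := gn_ss2K M g hG hΓ K M.p0f (gn_pminK M g hG hΓ K) (hG.g_pos.trans (gn_p0f_ge M g hG hΓ))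
    (by have := gn_p0f_le M g hG hΓ; linarith) a0 ξ ha hξ
  refine ⟨τ, hτ, fun C => ?_⟩
  obtain ⟨A, n0, H'⟩ := H C
  exact ⟨A, n0, fun p E hn hE hK => H' p E hn hE (by exact_mod_cast hK)⟩

end Claimed.Agent.R256
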